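import Mathlib

/-!
The multiplicative Brunn-Minkowski inequality for compact sets in `Fin d → ℝ`.
-/

open MeasureTheory Set
open scoped ENNReal Pointwise

namespace Vale.Agent.P074.BM

variable {s : ℝ}

theorem one_dim_compact (h0 : 0 ≤ s) (h1 : s ≤ 1) {P Q S : Set ℝ} (hP : IsCompact P)
    (hQ : IsCompact Q) (hPn : P.Nonempty) (hQn : Q.Nonempty)
    (hsub : ∀ p ∈ P, ∀ q ∈ Q, (1 - s) * p + s * q ∈ S) :
    ENNReal.ofReal (1 - s) * volume P + ENNReal.ofReal s * volume Q ≤ volume S := by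
  obtain ⟨p0, hp0, hpmax⟩ := hP.exists_isGreatest hPn
  obtain ⟨q0, hq0, hqmin⟩ := hQ.exists_isLeast hQn
  set P' : Set ℝ := (fun p => (1 - s) * p + s * q0) '' P with hP'
  set Q' : Set ℝ := (fun q => (1 - s) * p0 + s * q) '' Q with hQ'
  have hP'c : IsCompact P' := hP.image (by fun_prop)
  have hQ'c : IsCompact Q' := hQ.image (by fun_prop)
  have hunion : P' ∪ Q' ⊆ S := by
    rintro x (⟨p, hp, rfl⟩ | ⟨q, hq, rfl⟩)
    · exact hsub p hp q0 hq0
    · exact hsub p0 hp0 q hq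
  have hinter : P' ∩ Q' ⊆ {(1 - s) * p0 + s * q0} := by
    rintro x ⟨⟨p, hp, rfl⟩, q, hq, hx⟩
    have a1 := mul_le_mul_of_nonneg_left (hpmax hp) (sub_nonneg.2 h1)
    have a2 := mul_le_mul_of_nonneg_left (hqmin hq) h0
    simp only [mem_singleton_iff]
    simp only at hx
    linarith
  have hvP : volume P' = ENNReal.ofReal (1 - s) * volume P := by
    have : P' = (fun x => x + s * q0) '' ((1 - s) • P) := by
      rw [hP', ← Set.image_smul, Set.image_image]; rfl
    rw [this, Set.image_add_right, measure_preimage_add_right, Measure.addHaar_smul]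
    simp [abs_of_nonneg (sub_nonneg.2 h1)]
  have hvQ : volume Q' = ENNReal.ofReal s * volume Q := by
    have : Q' = (fun x => (1 - s) * p0 + x) '' (s • Q) := by
      rw [hQ', ← Set.image_smul, Set.image_image]; rfl
    rw [this, Set.image_add_left, measure_preimage_add, Measure.addHaar_smul]
    simp [abs_of_nonneg h0]
  have hz : volume (P' ∩ Q') = 0 :=
    le_antisymm ((measure_mono hinter).trans (by simp)) zero_le'
  rw [← hvP, ← hvQ, ← measure_union_add_inter P' hQ'c.measurableSet, hz, add_zero]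
  exact measure_mono hunion

theorem one_dim (h0 : 0 ≤ s) (h1 : s ≤ 1) {P Q S : Set ℝ} (hP : MeasurableSet P)
    (hQ : MeasurableSet Q) (hPn : P.Nonempty) (hQn : Q.Nonempty)
    (hsub : ∀ p ∈ P, ∀ q ∈ Q, (1 - s) * p + s * q ∈ S) :
    ENNReal.ofReal (1 - s) * volume P + ENNReal.ofReal s * volume Q ≤ volume S := by
  obtain ⟨p0, hp0⟩ := hPn
  obtain ⟨q0, hq0⟩ := hQn
  have key : ∀ A ∈ {A : Set ℝ | A ⊆ P ∧ IsCompact A}, ∀ B ∈ {B : Set ℝ | B ⊆ Q ∧ IsCompact B},
      ENNReal.ofReal (1 - s) * volume A + ENNReal.ofReal s * volume B ≤ volume S := by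
    rintro A ⟨hA, hAc⟩ B ⟨hB, hBc⟩
    refine le_trans (add_le_add (mul_le_mul_right (measure_mono (subset_insert p0 A)) _)
      (mul_le_mul_right (measure_mono (subset_insert q0 B)) _)) ?_
    exact one_dim_compact h0 h1 (hAc.insert p0) (hBc.insert q0) (insert_nonempty _ _)
      (insert_nonempty _ _) fun p hp q hq =>
        hsub p (insert_subset hp0 hA hp) q (insert_subset hq0 hB hq)
  have hrepr : ∀ X : Set ℝ, MeasurableSet X →
      volume X = ⨆ A : {A : Set ℝ // A ⊆ X ∧ IsCompact A}, volume A.1 := by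
    intro X hX
    refine le_antisymm ?_ (iSup_le fun A => measure_mono A.2.1)
    rw [hX.measure_eq_iSup_isCompact]
    exact iSup₂_le fun A hA => iSup_le fun hc =>
      le_iSup (fun A : {A : Set ℝ // A ⊆ X ∧ IsCompact A} => volume A.1) ⟨A, hA, hc⟩
  rw [hrepr P hP, hrepr Q hQ, ENNReal.mul_iSup, ENNReal.mul_iSup]
  haveI : ∀ X : Set ℝ, Nonempty {A : Set ℝ // A ⊆ X ∧ IsCompact A} := fun X =>
    ⟨⟨∅, empty_subset _, isCompact_empty⟩⟩
  exact ENNReal.iSup_add_iSup_le fun A B => key A.1 A.2 B.1 B.2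

theorem amgm (h0 : 0 < s) (h1 : s < 1) (x y : ℝ≥0∞) :
    x ^ (1 - s) * y ^ s ≤ ENNReal.ofReal (1 - s) * x + ENNReal.ofReal s * y := by
  have hs1 : 0 < 1 - s := by linarith
  rcases eq_or_ne x ⊤ with rfl | hx
  · rw [ENNReal.mul_top (by rw [ENNReal.ofReal_ne_zero_iff]; exact hs1), top_add]; exact le_top
  rcases eq_or_ne y ⊤ with rfl | hy
  · rw [ENNReal.mul_top (by simp [h0]), add_top]; exact le_top
  lift x to NNReal using hx
  lift y to NNReal using hy
  rw [← ENNReal.coe_rpow_of_nonneg _ hs1.le, ← ENNReal.coe_rpow_of_nonneg _ h0.le,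
    ENNReal.ofReal, ENNReal.ofReal]
  norm_cast
  have := NNReal.geom_mean_le_arith_mean2_weighted (Real.toNNReal (1 - s)) (Real.toNNReal s) x y
    (by rw [← Real.toNNReal_add hs1.le h0.le]; simp)
  rwa [Real.coe_toNNReal _ hs1.le, Real.coe_toNNReal _ h0.le] at this

theorem layer_cake {f : ℝ → ℝ≥0∞} (hf : Measurable f) (hfin : ∀ x, f x ≠ ⊤) :
    (∫⁻ x, f x) = ∫⁻ r in Ioi (0 : ℝ), volume {x | r < (f x).toReal} := by
  rw [← lintegral_eq_lintegral_meas_lt volume (Filter.Eventually.of_forall fun x => ENNReal.toReal_nonneg)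
    hf.ennreal_toReal.aemeasurable]
  exact lintegral_congr fun x => (ENNReal.ofReal_toReal (hfin x)).symm

/-- The one dimensional Prékopa-Leindler inequality for bounded functions. -/
theorem pl_one_dim (h0 : 0 < s) (h1 : s < 1) {f g h : ℝ → ℝ≥0∞} (hf : Measurable f)
    (hg : Measurable g) (hh : Measurable h) {M : ℝ≥0∞} (hM : M ≠ ⊤) (hfM : ∀ x, f x ≤ M)
    (hgM : ∀ x, g x ≤ M) (hhM : ∀ x, h x ≤ M)
    (hpl : ∀ p q, f p ^ (1 - s) * g q ^ s ≤ h ((1 - s) * p + s * q)) :
    (∫⁻ x, f x) ^ (1 - s) * (∫⁻ x, g x) ^ s ≤ ∫⁻ x, h x := by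
  set a := ⨆ x, f x with ha
  set b := ⨆ x, g x with hb
  have ha' : a ≠ ⊤ := ne_top_of_le_ne_top hM (iSup_le hfM)
  have hb' : b ≠ ⊤ := ne_top_of_le_ne_top hM (iSup_le hgM)
  have hs1 : 0 < 1 - s := by linarith
  rcases eq_or_ne a 0 with ha0 | ha0
  · have : ∀ x, f x = 0 := fun x => le_antisymm ((le_iSup f x).trans ha0.le) zero_le'
    simp [this, ENNReal.zero_rpow_of_pos hs1]
  rcases eq_or_ne b 0 with hb0 | hb0
  · have : ∀ x, g x = 0 := fun x => le_antisymm ((le_iSup g x).trans hb0.le) zero_le'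
    simp [this, ENNReal.zero_rpow_of_pos h0]
  set c := a ^ (1 - s) * b ^ s with hc
  have hc0 : c ≠ 0 := mul_ne_zero (ENNReal.rpow_pos (pos_iff_ne_zero.2 ha0) ha').ne'
    (ENNReal.rpow_pos (pos_iff_ne_zero.2 hb0) hb').ne'
  have hc' : c ≠ ⊤ := ENNReal.mul_ne_top (ENNReal.rpow_ne_top_of_nonneg hs1.le ha') (ENNReal.rpow_ne_top_of_nonneg h0.le hb')
  set f1 := fun x => f x / a with hf1
  set g1 := fun x => g x / b with hg1
  set h1' := fun x => h x / c with hh1
  have hf1' : ∀ x, f1 x ≤ 1 := fun x => ENNReal.div_le_of_le_mul (by rw [one_mul]; exact le_iSup f x)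
  have hg1' : ∀ x, g1 x ≤ 1 := fun x => ENNReal.div_le_of_le_mul (by rw [one_mul]; exact le_iSup g x)
  have hf1t : ∀ x, f1 x ≠ ⊤ := fun x => ne_top_of_le_ne_top (by simp) (hf1' x)
  have hg1t : ∀ x, g1 x ≠ ⊤ := fun x => ne_top_of_le_ne_top (by simp) (hg1' x)
  have hh1t : ∀ x, h1' x ≠ ⊤ := fun x =>
    ENNReal.div_ne_top (ne_top_of_le_ne_top hM (hhM x)) hc0
  have hsup : ∀ (φ : ℝ → ℝ≥0∞) (k : ℝ≥0∞), k = (⨆ x, φ x) → k ≠ 0 → k ≠ ⊤ →
      ∀ r : ℝ, 0 < r → r < 1 → ∃ x, r < (φ x / k).toReal := by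
    intro φ k hk hk0 hkt r hr hr1
    have : ENNReal.ofReal r * k < k := by
      conv_rhs => rw [← one_mul k]
      exact ENNReal.mul_lt_mul_left hk0 hkt (by simpa using hr1)
    conv at this => rhs; rw [hk]
    obtain ⟨x, hx⟩ := lt_iSup_iff.1 this
    refine ⟨x, ?_⟩
    have hxk : φ x ≤ k := hk ▸ le_iSup φ x
    have h2 : ENNReal.ofReal r < φ x / k :=
      (ENNReal.lt_div_iff_mul_lt (Or.inl hk0) (Or.inl hkt)).2 hx
    exact (ENNReal.ofReal_lt_iff_lt_toReal hr.le
      (ENNReal.div_ne_top (ne_top_of_le_ne_top hkt hxk) hk0)).1 h2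
  have hlevel : ∀ r : ℝ, 0 < r → ENNReal.ofReal (1 - s) * volume {x | r < (f1 x).toReal}
      + ENNReal.ofReal s * volume {x | r < (g1 x).toReal} ≤ volume {x | r < (h1' x).toReal} := by
    intro r hr
    rcases le_or_gt 1 r with hr1 | hr1
    · have : ∀ φ : ℝ → ℝ≥0∞, (∀ x, φ x ≤ 1) → {x | r < (φ x).toReal} = ∅ := by
        intro φ hφ
        ext x
        simp only [mem_setOf_eq, mem_empty_iff_false, iff_false, not_lt]
        exact (ENNReal.toReal_mono (by simp) (hφ x)).trans (by simpa using hr1)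
      simp [this _ hf1', this _ hg1']
    refine one_dim h0.le h1.le (measurableSet_lt measurable_const (hf.div_const a).ennreal_toReal)
      (measurableSet_lt measurable_const (hg.div_const b).ennreal_toReal)
      (hsup f a ha ha0 ha' r hr hr1) (hsup g b hb hb0 hb' r hr hr1) fun p hp q hq => ?_
    simp only [mem_setOf_eq] at hp hq ⊢
    have e1 : (f1 p).toReal ^ (1 - s) * (g1 q).toReal ^ s
        ≤ (h1' ((1 - s) * p + s * q)).toReal := by
      rw [ENNReal.toReal_rpow, ENNReal.toReal_rpow, ← ENNReal.toReal_mul]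
      refine ENNReal.toReal_mono (hh1t _) ?_
      simp only [hf1, hg1, hh1]
      rw [ENNReal.div_rpow_of_nonneg _ _ hs1.le, ENNReal.div_rpow_of_nonneg _ _ h0.le]
      calc f p ^ (1 - s) / a ^ (1 - s) * (g q ^ s / b ^ s)
          = f p ^ (1 - s) * g q ^ s / c := by
            rw [div_eq_mul_inv, div_eq_mul_inv, div_eq_mul_inv, hc,
              ENNReal.mul_inv (Or.inl (ENNReal.rpow_pos (pos_iff_ne_zero.2 ha0) ha').ne') (Or.inl (ENNReal.rpow_ne_top_of_nonneg hs1.le ha'))]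
            ring
        _ ≤ _ := ENNReal.div_le_div_right (hpl p q) c
    refine lt_of_lt_of_le ?_ e1
    have hs' : r = r ^ (1 - s) * r ^ s := by
      rw [← Real.rpow_add hr]; simp
    conv_lhs => rw [hs']
    exact mul_lt_mul'' (Real.rpow_lt_rpow hr.le hp hs1) (Real.rpow_lt_rpow hr.le hq h0)
      (Real.rpow_nonneg hr.le _) (Real.rpow_nonneg hr.le _)
  have hsum : ENNReal.ofReal (1 - s) * (∫⁻ x, f1 x) + ENNReal.ofReal s * (∫⁻ x, g1 x)
      ≤ ∫⁻ x, h1' x := by
    rw [layer_cake (f := f1) (hf.div_const a) hf1t, layer_cake (f := g1) (hg.div_const b) hg1t,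
      layer_cake (f := h1') (hh.div_const c) hh1t,
      ← lintegral_const_mul' _ _ ENNReal.ofReal_ne_top,
      ← lintegral_const_mul' _ _ ENNReal.ofReal_ne_top]
    have hmf : Measurable fun r : ℝ => volume {x | r < (f1 x).toReal} :=
      Antitone.measurable fun r r' hrr => measure_mono fun x hx => lt_of_le_of_lt hrr hx
    rw [← lintegral_add_left (hmf.const_mul _)]
    exact lintegral_mono_ae ((ae_restrict_iff' measurableSet_Ioi).2
      (Filter.Eventually.of_forall fun r hr => hlevel r hr))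
  have hgm : (∫⁻ x, f1 x) ^ (1 - s) * (∫⁻ x, g1 x) ^ s ≤ ∫⁻ x, h1' x := by
    refine le_trans ?_ hsum
    exact amgm h0 h1 _ _
  simp only [hf1, hg1, hh1, div_eq_mul_inv, lintegral_mul_const _ hf, lintegral_mul_const _ hg,
    lintegral_mul_const _ hh] at hgm
  rw [ENNReal.mul_rpow_of_nonneg _ _ hs1.le, ENNReal.mul_rpow_of_nonneg _ _ h0.le,
    ENNReal.inv_rpow, ENNReal.inv_rpow, mul_mul_mul_comm,
    ← ENNReal.mul_inv (Or.inl (ENNReal.rpow_pos (pos_iff_ne_zero.2 ha0) ha').ne') (Or.inl (ENNReal.rpow_ne_top_of_nonneg hs1.le ha'))] at hgm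
  exact (ENNReal.mul_le_mul_iff_left (ENNReal.inv_ne_zero.2 hc')
    (ENNReal.inv_ne_top.2 hc0)).1 hgm

/-- The section of a set of `Fin (n+1) → ℝ` at first coordinate `t`. -/
def sect {n : ℕ} (A : Set (Fin (n + 1) → ℝ)) (t : ℝ) : Set (Fin n → ℝ) :=
  {v | (Fin.cons t v : Fin (n + 1) → ℝ) ∈ A}

theorem isCompact_sect {n : ℕ} {A : Set (Fin (n + 1) → ℝ)} (hA : IsCompact A) (t : ℝ) :
    IsCompact (sect A t) := by
  have hcl : IsClosed (sect A t) := hA.isClosed.preimage (continuous_const.finCons continuous_id)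
  refine (hA.image (continuous_pi fun i => continuous_apply i.succ)).of_isClosed_subset hcl ?_
  intro v hv
  exact ⟨_, hv, funext fun i => by simp⟩

theorem sect_spec {n : ℕ} {A : Set (Fin (n + 1) → ℝ)} (hA : IsCompact A) :
    Measurable (fun t => volume (sect A t)) ∧ volume A = ∫⁻ t, volume (sect A t) := by
  have hmp := (volume_preserving_piFinSuccAbove (fun _ : Fin (n + 1) => ℝ) 0).symm
  set e := (MeasurableEquiv.piFinSuccAbove (fun _ : Fin (n + 1) => ℝ) 0).symm with he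
  have hpre : ∀ t, Prod.mk t ⁻¹' (e ⁻¹' A) = sect A t := by
    intro t
    ext v
    simp only [he, mem_preimage, sect, mem_setOf_eq, MeasurableEquiv.piFinSuccAbove_symm_apply,
      Fin.insertNthEquiv, Equiv.coe_fn_mk, Fin.insertNth_zero']
  have hm : MeasurableSet (e ⁻¹' A) := e.measurable hA.measurableSet
  refine ⟨by simpa only [hpre] using measurable_measure_prodMk_left (ν := volume) hm, ?_⟩
  rw [← hmp.measure_preimage hA.measurableSet.nullMeasurableSet, Measure.volume_eq_prod,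
    Measure.prod_apply hm]
  simp only [hpre]

/-- Brunn-Minkowski in multiplicative form. -/
theorem bm (h0 : 0 < s) (h1 : s < 1) : ∀ (d : ℕ) (A B C : Set (Fin d → ℝ)),
    IsCompact A → IsCompact B → IsCompact C →
    (∀ a ∈ A, ∀ b ∈ B, (1 - s) • a + s • b ∈ C) →
    volume A ^ (1 - s) * volume B ^ s ≤ volume C := by
  have hs1 : 0 < 1 - s := by linarith
  intro d
  induction d with
  | zero =>
    intro A B C hA hB hC hsub
    rcases A.eq_empty_or_nonempty with rfl | ⟨a, ha⟩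
    · simp [ENNReal.zero_rpow_of_pos hs1]
    rcases B.eq_empty_or_nonempty with rfl | ⟨b, hb⟩
    · simp [ENNReal.zero_rpow_of_pos h0]
    have hu : ∀ X : Set (Fin 0 → ℝ), X.Nonempty → volume X = 1 := by
      intro X hX
      rw [Subsingleton.eq_univ_of_nonempty hX]
      simp [volume_pi, Measure.pi_univ]
    rw [hu A ⟨a, ha⟩, hu B ⟨b, hb⟩, hu C ⟨_, hsub a ha b hb⟩]
    simp
  | succ n ih =>
    intro A B C hA hB hC hsub
    obtain ⟨mA, eA⟩ := sect_spec hA
    obtain ⟨mB, eB⟩ := sect_spec hB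
    obtain ⟨mC, eC⟩ := sect_spec hC
    rw [eA, eB, eC]
    set U : Set (Fin n → ℝ) := (fun (x : Fin (n + 1) → ℝ) i => x i.succ) '' (A ∪ B ∪ C) with hU
    have hUc : IsCompact U :=
      ((hA.union hB).union hC).image (continuous_pi fun i => continuous_apply i.succ)
    have hbd : ∀ X, X ⊆ A ∪ B ∪ C → ∀ t, volume (sect X t) ≤ volume U := fun X hX t =>
      measure_mono fun v hv => ⟨_, hX hv, funext fun i => by simp⟩
    refine pl_one_dim h0 h1 mA mB mC hUc.measure_lt_top.ne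
      (hbd A (subset_union_left.trans subset_union_left))
      (hbd B (subset_union_right.trans subset_union_left))
      (hbd C subset_union_right) fun p q => ?_
    refine ih _ _ _ (isCompact_sect hA p) (isCompact_sect hB q) (isCompact_sect hC _) ?_
    intro a ha b hb
    have := hsub _ ha _ hb
    simp only [sect, mem_setOf_eq] at *
    convert this using 1
    funext i
    induction i using Fin.cases <;> simp

theorem volume_ofLp {d : ℕ} (X : Set (EuclideanSpace ℝ (Fin d))) (hX : MeasurableSet X) :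
    volume ((WithLp.toLp 2) ⁻¹' X : Set (Fin d → ℝ)) = volume X :=
  (PiLp.volume_preserving_toLp (Fin d)).measure_preimage hX.nullMeasurableSet

/-- Brunn-Minkowski in Euclidean space. -/
theorem bm_euclidean (h0 : 0 < s) (h1 : s < 1) {d : ℕ}
    {A B C : Set (EuclideanSpace ℝ (Fin d))} (hA : IsCompact A) (hB : IsCompact B)
    (hC : IsCompact C) (hsub : ∀ a ∈ A, ∀ b ∈ B, (1 - s) • a + s • b ∈ C) :
    volume A ^ (1 - s) * volume B ^ s ≤ volume C := by
  have hc : ∀ X : Set (EuclideanSpace ℝ (Fin d)), IsCompact X →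
      IsCompact ((WithLp.toLp 2) ⁻¹' X : Set (Fin d → ℝ)) := by
    intro X hX
    have : ((WithLp.toLp 2) ⁻¹' X : Set (Fin d → ℝ)) = WithLp.ofLp '' X := by
      ext v
      exact ⟨fun h => ⟨_, h, rfl⟩, fun ⟨x, hx, h⟩ => h ▸ hx⟩
    rw [this]
    exact hX.image (PiLp.continuous_ofLp 2 _)
  rw [← volume_ofLp A hA.measurableSet, ← volume_ofLp B hB.measurableSet,
    ← volume_ofLp C hC.measurableSet]
  refine bm h0 h1 d _ _ _ (hc A hA) (hc B hB) (hc C hC) fun a ha b hb => ?_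
  simpa using hsub _ ha _ hb

end Vale.Agent.P074.BM
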