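import Mathlib

/-!
Definitions for the stability exponent of quadratic optimal transport maps.
-/

open MeasureTheory
open scoped ENNReal NNReal

namespace Vale.Agent.P074

/-- The Euclidean space `ℝ^d`. -/
abbrev Sp (d : ℕ) : Type := EuclideanSpace ℝ (Fin d)

/-- The uniform probability measure on `K`. -/
noncomputable def unif {d : ℕ} (K : Set (Sp d)) : Measure (Sp d) :=
  (volume K)⁻¹ • volume.restrict K

/-- `μ` is a Borel probability measure supported in the closed set `Y`. -/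
def InP {d : ℕ} (Y : Set (Sp d)) (μ : Measure (Sp d)) : Prop :=
  IsProbabilityMeasure μ ∧ μ Yᶜ = 0

/-- `T` is a quadratic optimal transport map from the uniform measure on `K` to `μ`:
a Borel map pushing `unif K` to `μ` minimizing `∫ |x - T x|² dρ` among all such maps. -/
def IsOptMap {d : ℕ} (K : Set (Sp d)) (μ : Measure (Sp d)) (T : Sp d → Sp d) : Prop :=
  Measurable T ∧ Measure.map T (unif K) = μ ∧
    ∀ S : Sp d → Sp d, Measurable S → Measure.map S (unif K) = μ →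
      ∫⁻ x, edist x (T x) ^ 2 ∂(unif K) ≤ ∫⁻ x, edist x (S x) ^ 2 ∂(unif K)

/-- The Wasserstein distance `W₂`: the infimum over couplings of `(∫ |y - z|² dπ)^{1/2}`. -/
noncomputable def W2 {d : ℕ} (μ ν : Measure (Sp d)) : ℝ≥0∞ :=
  ⨅ π : {π : Measure (Sp d × Sp d) // π.map Prod.fst = μ ∧ π.map Prod.snd = ν},
    (∫⁻ p, edist p.1 p.2 ^ 2 ∂π.1) ^ (1 / 2 : ℝ)

/-- The norm `‖T - T'‖` in `L²` of the uniform measure on `K`. -/
noncomputable def L2dist {d : ℕ} (K : Set (Sp d)) (T T' : Sp d → Sp d) : ℝ≥0∞ :=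
  (∫⁻ x, edist (T x) (T' x) ^ 2 ∂(unif K)) ^ (1 / 2 : ℝ)

/-- `α` is admissible in dimension `d`. -/
def Admissible (d : ℕ) (α : ℝ) : Prop :=
  α ∈ Set.Ioc (0 : ℝ) 1 ∧
    ∀ K : Set (Sp d), Convex ℝ K → IsCompact K → (interior K).Nonempty →
    ∀ Y : Set (Sp d), Y.Nonempty → IsCompact Y →
    ∃ C : ℝ≥0, ∀ μ ν : Measure (Sp d), InP Y μ → InP Y ν →
      ∀ T T' : Sp d → Sp d, IsOptMap K μ T → IsOptMap K ν T' →
        L2dist K T T' ≤ (C : ℝ≥0∞) * W2 μ ν ^ α

end Vale.Agent.P074
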