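import Mathlib
import Vale.Agent.P074.Defs

/-!
Semi-discrete transport from a density on a convex body to finitely many atoms.
-/

open MeasureTheory Set
open scoped ENNReal NNReal RealInnerProductSpace

namespace Vale.Agent.P074.Semi

variable {d : ℕ}

/-- A hyperplane is null. -/
theorem volume_level (v : Sp d) (hv : v ≠ 0) (c : ℝ) : volume {x : Sp d | ⟪x, v⟫ = c} = 0 := by
  set L : Sp d →ₗ[ℝ] ℝ := (innerSL ℝ v).toLinearMap with hL
  have hker : LinearMap.ker L ≠ ⊤ := by
    intro h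
    have : v ∈ LinearMap.ker L := h ▸ Submodule.mem_top
    simp [hL] at this
    exact hv this
  set x0 : Sp d := (c / ‖v‖ ^ 2) • v with hx0
  have hx0v : ⟪v, x0⟫ = c := by
    rw [hx0, inner_smul_right, real_inner_self_eq_norm_sq,
      div_mul_cancel₀ _ (pow_ne_zero 2 (norm_ne_zero_iff.2 hv))]
  have : {x : Sp d | ⟪x, v⟫ = c} = (fun x => x + x0) '' (LinearMap.ker L : Set (Sp d)) := by
    ext x
    constructor
    · intro hx
      refine ⟨x - x0, ?_, by simp⟩
      simp only [SetLike.mem_coe, LinearMap.mem_ker, hL, ContinuousLinearMap.coe_coe,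
        innerSL_apply_apply, inner_sub_right]
      rw [real_inner_comm, hx0v]
      exact sub_eq_zero.2 hx
    · rintro ⟨k, hk, rfl⟩
      simp only [SetLike.mem_coe, LinearMap.mem_ker, hL, ContinuousLinearMap.coe_coe,
        innerSL_apply_apply] at hk
      show ⟪k + x0, v⟫ = c
      rw [real_inner_comm, inner_add_right, hk, hx0v, zero_add]
  rw [this, Set.image_add_right, measure_preimage_add_right]
  exact Measure.addHaar_submodule _ _ hker

set_option linter.unusedSectionVars false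

variable {ι : Type*} [Fintype ι] [Nonempty ι]

/-- The convex potential. -/
noncomputable def phi (y : ι → Sp d) (ψ : ι → ℝ) (x : Sp d) : ℝ :=
  Finset.univ.sup' Finset.univ_nonempty fun i => ⟪x, y i⟫ - ψ i

theorem le_phi (y : ι → Sp d) (ψ : ι → ℝ) (x : Sp d) (i : ι) : ⟪x, y i⟫ - ψ i ≤ phi y ψ x :=
  Finset.le_sup' (fun i => ⟪x, y i⟫ - ψ i) (Finset.mem_univ i)

theorem phi_le (y : ι → Sp d) (ψ : ι → ℝ) (x : Sp d) {b : ℝ}
    (h : ∀ i, ⟪x, y i⟫ - ψ i ≤ b) : phi y ψ x ≤ b :=
  Finset.sup'_le _ _ fun i _ => h i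

theorem exists_phi_eq (y : ι → Sp d) (ψ : ι → ℝ) (x : Sp d) :
    ∃ i, phi y ψ x = ⟪x, y i⟫ - ψ i := by
  obtain ⟨i, -, hi⟩ := Finset.exists_mem_eq_sup' Finset.univ_nonempty fun i => ⟪x, y i⟫ - ψ i
  exact ⟨i, hi⟩

theorem continuous_phi (y : ι → Sp d) :
    Continuous fun p : (ι → ℝ) × Sp d => phi y p.1 p.2 := by
  unfold phi
  refine Continuous.finset_sup'_apply (f := fun i (p : (ι → ℝ) × Sp d) => ⟪p.2, y i⟫ - p.1 i)
    Finset.univ_nonempty fun i _ => ?_
  fun_prop

theorem continuous_phi_right (y : ι → Sp d) (ψ : ι → ℝ) : Continuous (phi y ψ) := by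
  unfold phi
  refine Continuous.finset_sup'_apply (f := fun i (x : Sp d) => ⟪x, y i⟫ - ψ i)
    Finset.univ_nonempty fun i _ => ?_
  fun_prop

theorem phi_add_const (y : ι → Sp d) (ψ : ι → ℝ) (c : ℝ) (x : Sp d) :
    phi y (fun i => ψ i + c) x = phi y ψ x - c := by
  refine le_antisymm (phi_le _ _ _ fun i => ?_) ?_
  · linarith [le_phi y ψ x i]
  · obtain ⟨i, hi⟩ := exists_phi_eq y ψ x
    have := le_phi y (fun i => ψ i + c) x i
    linarith

/-- The closed cell of atom `i`. -/
def cell (K : Set (Sp d)) (y : ι → Sp d) (ψ : ι → ℝ) (i : ι) : Set (Sp d) :=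
  K ∩ {x | ∀ j, ⟪x, y j⟫ - ψ j ≤ ⟪x, y i⟫ - ψ i}

theorem cell_subset (K : Set (Sp d)) (y : ι → Sp d) (ψ : ι → ℝ) (i : ι) : cell K y ψ i ⊆ K :=
  inter_subset_left

theorem isCompact_cell {K : Set (Sp d)} (hK : IsCompact K) (y : ι → Sp d) (ψ : ι → ℝ) (i : ι) :
    IsCompact (cell K y ψ i) := by
  refine hK.inter_right ?_
  rw [Set.ofPred_forall]
  exact isClosed_iInter fun j => isClosed_le (by fun_prop) (by fun_prop)

theorem convex_cell {K : Set (Sp d)} (hK : Convex ℝ K) (y : ι → Sp d) (ψ : ι → ℝ) (i : ι) :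
    Convex ℝ (cell K y ψ i) := by
  intro x hx z hz a b ha hb hab
  refine ⟨hK hx.1 hz.1 ha hb hab, fun j => ?_⟩
  have e : ∀ k, ⟪a • x + b • z, y k⟫ - ψ k
      = a * (⟪x, y k⟫ - ψ k) + b * (⟪z, y k⟫ - ψ k) := by
    intro k
    rw [inner_add_left, real_inner_smul_left, real_inner_smul_left]
    linear_combination (ψ k) * hab
  rw [e, e]
  exact add_le_add (mul_le_mul_of_nonneg_left (hx.2 j) ha)
    (mul_le_mul_of_nonneg_left (hz.2 j) hb)

theorem cell_interp {K : Set (Sp d)} (hK : Convex ℝ K) (y : ι → Sp d) (ψ ψ' : ι → ℝ) (i : ι)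
    {s : ℝ} (h0 : 0 ≤ s) (h1 : s ≤ 1) {a b : Sp d} (ha : a ∈ cell K y ψ i)
    (hb : b ∈ cell K y ψ' i) :
    (1 - s) • a + s • b ∈ cell K y (fun k => (1 - s) * ψ k + s * ψ' k) i := by
  refine ⟨hK ha.1 hb.1 (by linarith) h0 (by ring), fun j => ?_⟩
  have e : ∀ k, ⟪(1 - s) • a + s • b, y k⟫ - ((1 - s) * ψ k + s * ψ' k)
      = (1 - s) * (⟪a, y k⟫ - ψ k) + s * (⟪b, y k⟫ - ψ' k) := by
    intro k
    rw [inner_add_left, real_inner_smul_left, real_inner_smul_left]; ring
  rw [e, e]
  exact add_le_add (mul_le_mul_of_nonneg_left (ha.2 j) (by linarith))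
    (mul_le_mul_of_nonneg_left (hb.2 j) h0)

theorem phi_eq_on_cell {K : Set (Sp d)} (y : ι → Sp d) (ψ : ι → ℝ) {i : ι} {x : Sp d}
    (hx : x ∈ cell K y ψ i) : phi y ψ x = ⟪x, y i⟫ - ψ i :=
  le_antisymm (phi_le _ _ _ hx.2) (le_phi y ψ x i)

theorem iUnion_cell (K : Set (Sp d)) (y : ι → Sp d) (ψ : ι → ℝ) :
    ⋃ i, cell K y ψ i = K := by
  refine subset_antisymm (iUnion_subset fun i => cell_subset K y ψ i) fun x hx => ?_
  obtain ⟨i, hi⟩ := exists_phi_eq y ψ x
  exact mem_iUnion.2 ⟨i, hx, fun j => hi ▸ le_phi y ψ x j⟩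

theorem aedisjoint_cell (K : Set (Sp d)) {y : ι → Sp d} (hy : Function.Injective y)
    (ψ : ι → ℝ) : Pairwise (Function.onFun (AEDisjoint volume) (cell K y ψ)) := by
  intro i j hij
  refine measure_mono_null ?_ (volume_level (y i - y j) (sub_ne_zero.2 (hy.ne hij)) (ψ i - ψ j))
  intro x hx
  have h1 := hx.1.2 j
  have h2 := hx.2.2 i
  show ⟪x, y i - y j⟫ = ψ i - ψ j
  rw [inner_sub_right]; linarith

theorem integral_eq_sum_cell {K : Set (Sp d)} (hK : IsCompact K) {y : ι → Sp d}
    (hy : Function.Injective y) (ψ : ι → ℝ) {F : Sp d → ℝ} (hF : Continuous F) :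
    ∫ x in K, F x = ∑ i, ∫ x in cell K y ψ i, F x := by
  conv_lhs => rw [← iUnion_cell K y ψ]
  rw [integral_iUnion_ae (fun i => (isCompact_cell hK y ψ i).measurableSet.nullMeasurableSet)
    (aedisjoint_cell K hy ψ) (by
      rw [iUnion_cell]; exact hF.continuousOn.integrableOn_compact hK), tsum_fintype]

/-- The dual functional. -/
noncomputable def Phi (K : Set (Sp d)) (w : Sp d → ℝ) (M : ι → ℝ) (y : ι → Sp d) (ψ : ι → ℝ) :
    ℝ :=
  ∑ i, M i * ψ i + ∫ x in K, w x * phi y ψ x

/-- Admissible data: a nonnegative continuous density with total mass `∑ M`. -/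
structure Data (K : Set (Sp d)) (w : Sp d → ℝ) (M : ι → ℝ) : Prop where
  hK : IsCompact K
  hw : Continuous w
  w_nonneg : ∀ x, 0 ≤ w x
  M_pos : ∀ i, 0 < M i
  mass : ∫ x in K, w x = ∑ i, M i

variable {K : Set (Sp d)} {w : Sp d → ℝ} {M : ι → ℝ} {y : ι → Sp d}

theorem Data.intOn (D : Data K w M) {F : Sp d → ℝ} (hF : Continuous F) :
    IntegrableOn (fun x => w x * F x) K :=
  (D.hw.mul hF).continuousOn.integrableOn_compact D.hK

theorem Phi_add_const (D : Data K w M) (y : ι → Sp d) (ψ : ι → ℝ) (c : ℝ) :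
    Phi K w M y (fun i => ψ i + c) = Phi K w M y ψ := by
  simp only [Phi, phi_add_const, mul_sub, mul_add]
  rw [integral_sub (D.intOn (continuous_phi_right y ψ)) (D.intOn continuous_const),
    integral_mul_const, D.mass, Finset.sum_add_distrib, ← Finset.sum_mul]
  ring

theorem continuous_Phi (D : Data K w M) (y : ι → Sp d) : Continuous (Phi K w M y) := by
  refine Continuous.add (by fun_prop) ?_
  exact continuous_parametric_integral_of_continuous
    ((D.hw.comp continuous_snd).mul (continuous_phi y)) D.hK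

/-- The box in which normalised minimisers live. -/
def box (M : ι → ℝ) (B : ℝ) : Set (ι → ℝ) := Icc 0 (fun i => B / M i)

theorem Phi_ge_of_zero (D : Data K w M) (y : ι → Sp d) {ψ : ι → ℝ} (hψ : 0 ≤ ψ) {k : ι}
    (hk : ψ k = 0) {S : ℝ} (hS : ∀ x ∈ K, ∀ i, |⟪x, y i⟫| ≤ S) (j : ι) :
    M j * ψ j - S * ∑ i, M i ≤ Phi K w M y ψ := by
  have h1 : M j * ψ j ≤ ∑ i, M i * ψ i :=
    Finset.single_le_sum (f := fun i => M i * ψ i) (fun i _ => mul_nonneg (D.M_pos i).le (hψ i))
      (Finset.mem_univ j)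
  have h2 : ∫ x in K, w x * (-S) ≤ ∫ x in K, w x * phi y ψ x := by
    refine setIntegral_mono_on (D.intOn continuous_const) (D.intOn (continuous_phi_right y ψ))
      D.hK.measurableSet fun x hx => mul_le_mul_of_nonneg_left ?_ (D.w_nonneg x)
    have := le_phi y ψ x k
    rw [hk] at this
    linarith [abs_le.1 (hS x hx k)]
  rw [integral_mul_const, D.mass] at h2
  simp only [Phi]
  linarith

theorem exists_bound (D : Data K w M) (y : ι → Sp d) :
    ∃ S : ℝ, 0 ≤ S ∧ ∀ x ∈ K, ∀ i, |⟪x, y i⟫| ≤ S := by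
  obtain ⟨R, hR⟩ := D.hK.isBounded.exists_norm_le
  refine ⟨max R 0 * ∑ i, ‖y i‖, by positivity, fun x hx i => ?_⟩
  refine (abs_real_inner_le_norm _ _).trans (mul_le_mul ((hR x hx).trans (le_max_left _ _))
    (Finset.single_le_sum (f := fun i => ‖y i‖) (fun i _ => norm_nonneg _) (Finset.mem_univ i))
    (norm_nonneg _) (le_max_right _ _))

/-- Every `ψ` can be normalised into the box without increasing `Phi`. -/
theorem exists_in_box (D : Data K w M) (y : ι → Sp d) {S : ℝ} (hS0 : 0 ≤ S)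
    (hS : ∀ x ∈ K, ∀ i, |⟪x, y i⟫| ≤ S) (ψ : ι → ℝ) :
    ∃ ψ' ∈ box M (2 * S * ∑ i, M i), Phi K w M y ψ' ≤ Phi K w M y ψ := by
  obtain ⟨k, -, hk⟩ := Finset.exists_min_image Finset.univ ψ Finset.univ_nonempty
  set ψ' : ι → ℝ := fun i => ψ i + -ψ k with hψ'
  have h0 : 0 ≤ ψ' := fun i => by
    simp only [hψ', Pi.zero_apply]; linarith [hk i (Finset.mem_univ i)]
  have heq := Phi_add_const D y ψ (-ψ k)
  have hzero : Phi K w M y 0 ≤ S * ∑ i, M i := by
    simp only [Phi, Pi.zero_apply, mul_zero, Finset.sum_const_zero, zero_add]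
    calc ∫ x in K, w x * phi y 0 x ≤ ∫ x in K, w x * S := by
          refine setIntegral_mono_on (D.intOn (continuous_phi_right y 0))
            (D.intOn continuous_const) D.hK.measurableSet
            fun x hx => mul_le_mul_of_nonneg_left (phi_le _ _ _ fun i => ?_) (D.w_nonneg x)
          simpa using (abs_le.1 (hS x hx i)).2
      _ = S * ∑ i, M i := by rw [integral_mul_const, D.mass, mul_comm]
  have hM : ∀ i, 0 ≤ 2 * S * (∑ i, M i) / M i := fun i =>
    div_nonneg (mul_nonneg (by linarith) (Finset.sum_nonneg fun i _ => (D.M_pos i).le))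
      (D.M_pos i).le
  by_cases h : Phi K w M y 0 ≤ Phi K w M y ψ
  · exact ⟨0, ⟨le_rfl, hM⟩, h⟩
  · refine ⟨ψ', ⟨h0, fun j => ?_⟩, heq.le⟩
    show ψ' j ≤ _
    rw [le_div_iff₀ (D.M_pos j)]
    have h1 := Phi_ge_of_zero D y h0 (k := k) (by simp [hψ']) hS j
    rw [heq] at h1
    linarith [not_le.1 h, mul_comm (ψ' j) (M j)]

theorem exists_min (D : Data K w M) (y : ι → Sp d) :
    ∃ ψ, ∀ ψ', Phi K w M y ψ ≤ Phi K w M y ψ' := by
  obtain ⟨S, hS0, hS⟩ := exists_bound D y
  obtain ⟨ψ1, hψ1, -⟩ := exists_in_box D y hS0 hS 0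
  obtain ⟨ψ, -, hψ⟩ := (isCompact_Icc (a := (0 : ι → ℝ))
    (b := fun i => 2 * S * (∑ i, M i) / M i)).exists_isMinOn ⟨ψ1, hψ1⟩
    (continuous_Phi D y).continuousOn
  refine ⟨ψ, fun ψ' => ?_⟩
  obtain ⟨ψ2, h2, h2'⟩ := exists_in_box D y hS0 hS ψ'
  exact (hψ h2).trans h2'

/-- A minimiser of the dual functional. -/
noncomputable def opt (K : Set (Sp d)) (w : Sp d → ℝ) (M : ι → ℝ) (y : ι → Sp d) : ι → ℝ :=
  open scoped Classical in
  if h : ∃ ψ, ∀ ψ', Phi K w M y ψ ≤ Phi K w M y ψ' then h.choose else 0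

theorem opt_spec (D : Data K w M) (y : ι → Sp d) (ψ' : ι → ℝ) :
    Phi K w M y (opt K w M y) ≤ Phi K w M y ψ' := by
  rw [opt, dif_pos (exists_min D y)]
  exact (exists_min D y).choose_spec ψ'

theorem mass_cell (D : Data K w M) (hy : Function.Injective y) {ψ : ι → ℝ}
    (hψ : ∀ ψ', Phi K w M y ψ ≤ Phi K w M y ψ') (i : ι) :
    ∫ x in cell K y ψ i, w x = M i := by
  classical
  have hle : ∀ i, M i ≤ ∫ x in cell K y ψ i, w x := by
    intro i
    set T : ℕ → Set (Sp d) := fun n =>
      K ∩ {x | phi y ψ x ≤ ⟪x, y i⟫ - ψ i + (1 : ℝ) / (n + 1)} with hT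
    have hTm : ∀ n, IsCompact (T n) := fun n =>
      D.hK.inter_right (isClosed_le (continuous_phi_right y ψ) (by fun_prop))
    have hanti : Antitone T := by
      intro n m hnm x hx
      have h' : phi y ψ x ≤ ⟪x, y i⟫ - ψ i + (1 : ℝ) / (m + 1) := hx.2
      have : (1 : ℝ) / (m + 1) ≤ 1 / (n + 1) :=
        one_div_le_one_div_of_le (by positivity) (by exact_mod_cast Nat.succ_le_succ hnm)
      exact ⟨hx.1, show phi y ψ x ≤ ⟪x, y i⟫ - ψ i + (1 : ℝ) / (n + 1) by linarith⟩
    have hInter : ⋂ n, T n = cell K y ψ i := by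
      ext x
      simp only [hT, mem_iInter, mem_inter_iff, mem_ofPred_eq, cell]
      constructor
      · intro h
        refine ⟨(h 0).1, fun j => le_of_forall_pos_le_add fun η hη => ?_⟩
        obtain ⟨n, hn⟩ := exists_nat_one_div_lt hη
        linarith [le_phi y ψ x j, (h n).2]
      · intro h n
        refine ⟨h.1, ?_⟩
        have : phi y ψ x ≤ ⟪x, y i⟫ - ψ i := phi_le _ _ _ h.2
        have : (0 : ℝ) < 1 / ((n : ℝ) + 1) := by positivity
        linarith
    have hn : ∀ n, M i ≤ ∫ x in T n, w x := by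
      intro n
      set δ : ℝ := 1 / (n + 1) with hδ
      have hδ0 : 0 < δ := by positivity
      set ψ' : ι → ℝ := fun k => ψ k - if k = i then δ else 0 with hψ'
      have h1 := hψ ψ'
      have hsum : ∑ k, M k * ψ' k = ∑ k, M k * ψ k - M i * δ := by
        simp [hψ', mul_sub, Finset.sum_sub_distrib]
      have hpt : ∀ x ∈ K,
          w x * phi y ψ' x ≤ w x * phi y ψ x + (T n).indicator (fun x => w x * δ) x := by
        intro x hx
        by_cases hxT : x ∈ T n
        · rw [Set.indicator_of_mem hxT, ← mul_add]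
          refine mul_le_mul_of_nonneg_left (phi_le _ _ _ fun k => ?_) (D.w_nonneg x)
          have := le_phi y ψ x k
          simp only [hψ']; split_ifs <;> linarith
        · rw [Set.indicator_of_notMem hxT, add_zero]
          refine mul_le_mul_of_nonneg_left (phi_le _ _ _ fun k => ?_) (D.w_nonneg x)
          have := le_phi y ψ x k
          simp only [hψ']; split_ifs with hk
          · subst hk
            have : ¬ (phi y ψ x ≤ ⟪x, y k⟫ - ψ k + 1 / ((n : ℝ) + 1)) := fun h => hxT ⟨hx, h⟩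
            linarith
          · linarith
      have hi1 : IntegrableOn ((T n).indicator fun x => w x * δ) K :=
        (D.intOn (F := fun _ => δ) continuous_const).indicator (hTm n).measurableSet
      have h2 : ∫ x in K, w x * phi y ψ' x
          ≤ (∫ x in K, w x * phi y ψ x) + (∫ x in T n, w x) * δ := by
        refine (setIntegral_mono_on (D.intOn (continuous_phi_right y ψ'))
          ((D.intOn (continuous_phi_right y ψ)).add hi1) D.hK.measurableSet hpt).trans_eq ?_
        rw [integral_add' (D.intOn (continuous_phi_right y ψ)) hi1,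
          setIntegral_indicator (hTm n).measurableSet,
          inter_eq_self_of_subset_right (by exact inter_subset_left), integral_mul_const]
      simp only [Phi, hsum] at h1
      nlinarith
    have hlim : Filter.Tendsto (fun n => ∫ x in T n, w x) Filter.atTop
        (nhds (∫ x in cell K y ψ i, w x)) := by
      rw [← hInter]
      exact tendsto_setIntegral_of_antitone (fun n => (hTm n).measurableSet) hanti
        ⟨0, D.hw.continuousOn.integrableOn_compact (hTm 0)⟩
    exact ge_of_tendsto' hlim hn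
  have hsum : ∑ i, ∫ x in cell K y ψ i, w x = ∑ i, M i := by
    rw [← integral_eq_sum_cell D.hK hy ψ D.hw, D.mass]
  exact ((Finset.sum_eq_sum_iff_of_le (fun i _ => hle i)).1 hsum.symm i (Finset.mem_univ i)).symm

/-- Unnormalised barycentre of the `i`-th optimal cell, paired with a vector. -/
noncomputable def pair (K : Set (Sp d)) (w : Sp d → ℝ) (M : ι → ℝ) (y : ι → Sp d) (i : ι)
    (v : Sp d) : ℝ :=
  ∫ x in cell K y (opt K w M y) i, w x * ⟪x, v⟫

theorem Phi_ge_pair (D : Data K w M) (hy : Function.Injective y) (y' : ι → Sp d) (ψ' : ι → ℝ) :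
    ∑ i, pair K w M y i (y' i) ≤ Phi K w M y' ψ' := by
  have hmass := mass_cell D hy (opt_spec D y)
  rw [Phi, integral_eq_sum_cell D.hK hy (opt K w M y) (F := fun x => w x * phi y' ψ' x)
    (D.hw.mul (continuous_phi_right y' ψ')), ← Finset.sum_add_distrib]
  refine Finset.sum_le_sum fun i _ => ?_
  have hc := isCompact_cell D.hK y (opt K w M y) i
  have hi : ∀ {F : Sp d → ℝ}, Continuous F →
      IntegrableOn (fun x => w x * F x) (cell K y (opt K w M y) i) := fun hF =>
    (D.hw.mul hF).continuousOn.integrableOn_compact hc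
  rw [pair, ← hmass i, ← integral_mul_const, ← integral_add (hi continuous_const)
    (hi (continuous_phi_right y' ψ'))]
  refine setIntegral_mono_on (hi (by fun_prop))
    ((hi continuous_const).add (hi (continuous_phi_right y' ψ'))) hc.measurableSet fun x _ => ?_
  rw [← mul_add]
  exact mul_le_mul_of_nonneg_left (by linarith [le_phi y' ψ' x i]) (D.w_nonneg x)

/-- The value of the semi-discrete maximal correlation problem. -/
noncomputable def mc (K : Set (Sp d)) (w : Sp d → ℝ) (M : ι → ℝ) (y : ι → Sp d) : ℝ :=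
  Phi K w M y (opt K w M y)

theorem mc_le (D : Data K w M) (y : ι → Sp d) (ψ : ι → ℝ) : mc K w M y ≤ Phi K w M y ψ :=
  opt_spec D y ψ

theorem mc_eq_pair (D : Data K w M) (hy : Function.Injective y) :
    mc K w M y = ∑ i, pair K w M y i (y i) := by
  have hmass := mass_cell D hy (opt_spec D y)
  rw [mc, Phi, integral_eq_sum_cell D.hK hy (opt K w M y) (F := fun x => w x * phi y (opt K w M y) x)
    (D.hw.mul (continuous_phi_right y _)), ← Finset.sum_add_distrib]
  refine Finset.sum_congr rfl fun i _ => ?_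
  have hc := isCompact_cell D.hK y (opt K w M y) i
  have hi : ∀ {F : Sp d → ℝ}, Continuous F →
      IntegrableOn (fun x => w x * F x) (cell K y (opt K w M y) i) := fun hF =>
    (D.hw.mul hF).continuousOn.integrableOn_compact hc
  rw [pair, ← hmass i, ← integral_mul_const, ← integral_add (hi continuous_const)
    (hi (continuous_phi_right y _))]
  refine setIntegral_congr_fun hc.measurableSet fun x hx => ?_
  show w x * opt K w M y i + w x * phi y (opt K w M y) x = w x * ⟪x, y i⟫
  rw [phi_eq_on_cell y _ hx]; ring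

theorem pair_le_mc (D : Data K w M) (hy : Function.Injective y) (y' : ι → Sp d) :
    ∑ i, pair K w M y i (y' i) ≤ mc K w M y' :=
  Phi_ge_pair D hy y' _

end Vale.Agent.P074.Semi
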