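import Mathlib
import Vale.Agent.P074.Defs
import Vale.Agent.P074.BM
import Vale.Agent.P074.Semi

/-!
The slab inequality: a one-coordinate stability estimate for barycentres along a Minkowski
interpolation of two cells.
-/

open MeasureTheory Set
open scoped ENNReal NNReal RealInnerProductSpace

namespace Vale.Agent.P074.Slab

variable {d : ℕ}

/-- The integral of `h` on the part of `C` below level `t` in coordinate `j`. -/
noncomputable def cum (C : Set (Sp d)) (h : Sp d → ℝ) (j : Fin d) (t : ℝ) : ℝ :=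
  ∫ x in C ∩ {x | x j ≤ t}, h x

/-- A slab of `C`. -/
def slab (C : Set (Sp d)) (j : Fin d) (a b : ℝ) : Set (Sp d) :=
  C ∩ {x | a ≤ x j ∧ x j ≤ b}

theorem coord_null (j : Fin d) (c : ℝ) : volume {x : Sp d | x j = c} = 0 := by
  have h := Semi.volume_level (EuclideanSpace.single j (1 : ℝ)) (by simp) c
  simpa [EuclideanSpace.inner_single_right] using h

theorem isCompact_slab {C : Set (Sp d)} (hC : IsCompact C) (j : Fin d) (a b : ℝ) :
    IsCompact (slab C j a b) := by
  have hc : Continuous fun x : Sp d => x j := by fun_prop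
  exact hC.inter_right ((isClosed_le continuous_const hc).inter (isClosed_le hc continuous_const))

theorem abs_coord_le {R : ℝ} {x : Sp d} (hx : ‖x‖ ≤ R) (j : Fin d) : |x j| ≤ R :=
  le_trans (by simpa [Real.norm_eq_abs] using PiLp.norm_apply_le x j) hx

theorem slab_integral {C : Set (Sp d)} (hC : IsCompact C) {h : Sp d → ℝ} (hh : Continuous h)
    (j : Fin d) {a b : ℝ} (hab : a ≤ b) :
    ∫ x in slab C j a b, h x = cum C h j b - cum C h j a := by
  have hi : ∀ t, IntegrableOn h (C ∩ {x | x j ≤ t}) := fun t =>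
    hh.continuousOn.integrableOn_compact (hC.inter_right (isClosed_le (by fun_prop) continuous_const))
  have hu : C ∩ {x | x j ≤ b} = (C ∩ {x | x j ≤ a}) ∪ slab C j a b := by
    ext x
    simp only [slab, mem_inter_iff, mem_union, mem_ofPred_eq]
    constructor
    · rintro ⟨h1, h2⟩
      rcases le_total (x j) a with h3 | h3
      · exact Or.inl ⟨h1, h3⟩
      · exact Or.inr ⟨h1, h3, h2⟩
    · rintro (⟨h1, h2⟩ | ⟨h1, h2, h3⟩)
      · exact ⟨h1, h2.trans hab⟩
      · exact ⟨h1, h3⟩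
  have hd : AEDisjoint volume (C ∩ {x | x j ≤ a}) (slab C j a b) :=
    measure_mono_null (fun x hx => le_antisymm hx.1.2 hx.2.2.1) (coord_null j a)
  rw [cum, cum, hu, setIntegral_union₀ hd (isCompact_slab hC j a b).measurableSet.nullMeasurableSet
    (hi a) (hh.continuousOn.integrableOn_compact (isCompact_slab hC j a b))]
  ring

theorem continuous_cum {C : Set (Sp d)} (hC : IsCompact C) {h : Sp d → ℝ} (hh : Continuous h)
    (j : Fin d) : Continuous (cum C h j) := by
  have hm : ∀ t, MeasurableSet {x : Sp d | x j ≤ t} := fun t =>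
    (isClosed_le (by fun_prop) continuous_const).measurableSet
  have he : cum C h j = fun t => ∫ x in C, {x : Sp d | x j ≤ t}.indicator h x := by
    funext t
    rw [cum, setIntegral_indicator (hm t)]
  rw [he]
  refine continuous_iff_continuousAt.2 fun t => ?_
  refine continuousAt_of_dominated (bound := fun x => |h x|) ?_ ?_ ?_ ?_
  · exact Filter.Eventually.of_forall fun s =>
      (hh.measurable.indicator (hm s)).aestronglyMeasurable
  · refine Filter.Eventually.of_forall fun s => ae_of_all _ fun x => ?_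
    exact norm_indicator_le_norm_self _ _
  · exact hh.abs.continuousOn.integrableOn_compact hC
  · have hne : ∀ᵐ x : Sp d ∂volume.restrict C, x j ≠ t :=
      ae_restrict_of_ae (measure_eq_zero_iff_ae_notMem.1 (coord_null j t))
    filter_upwards [hne] with x hx
    rcases lt_or_gt_of_ne hx with hlt | hlt
    · refine (continuousAt_const (y := h x)).congr ?_
      filter_upwards [eventually_gt_nhds hlt] with s hs
      exact (Set.indicator_of_mem (show x ∈ {x : Sp d | x j ≤ s} from hs.le) h).symm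
    · refine (continuousAt_const (y := (0 : ℝ))).congr ?_
      filter_upwards [eventually_lt_nhds hlt] with s hs
      exact (Set.indicator_of_notMem (show x ∉ {x : Sp d | x j ≤ s} from not_le.2 hs) h).symm

theorem cum_bot {C : Set (Sp d)} {h : Sp d → ℝ} {R : ℝ} (hR : ∀ x ∈ C, ‖x‖ ≤ R) (j : Fin d) :
    cum C h j (-R) = 0 := by
  refine setIntegral_measure_zero _ (measure_mono_null (fun x hx => ?_) (coord_null j (-R)))
  exact le_antisymm hx.2 (abs_le.1 (abs_coord_le (hR x hx.1) j)).1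

theorem cum_top {C : Set (Sp d)} {h : Sp d → ℝ} {R : ℝ} (hR : ∀ x ∈ C, ‖x‖ ≤ R) (j : Fin d) :
    cum C h j R = ∫ x in C, h x := by
  rw [cum, inter_eq_self_of_subset_left]
  exact fun x hx => (abs_le.1 (abs_coord_le (hR x hx) j)).2

theorem exists_cuts {C : Set (Sp d)} (hC : IsCompact C) {R : ℝ} (hR0 : 0 ≤ R)
    (hR : ∀ x ∈ C, ‖x‖ ≤ R) (j : Fin d) {w : Sp d → ℝ} (hw : Continuous w) (hw0 : ∀ x, 0 ≤ w x)
    (hM : 0 < ∫ x in C, w x) {N : ℕ} (hN : 0 < N) :
    ∃ τ : ℕ → ℝ, τ 0 = -R ∧ τ N = R ∧ (∀ k < N, τ k ≤ τ (k + 1)) ∧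
      (∀ k ≤ N, |τ k| ≤ R) ∧
      ∀ k < N, ∫ x in slab C j (τ k) (τ (k + 1)), w x = (∫ x in C, w x) / N := by
  set M := ∫ x in C, w x with hMdef
  have hN' : (0 : ℝ) < N := by exact_mod_cast hN
  have hmono : Monotone (cum C w j) := by
    intro a b hab
    have := slab_integral hC hw j hab
    have h0 : 0 ≤ ∫ x in slab C j a b, w x :=
      setIntegral_nonneg (isCompact_slab hC j a b).measurableSet fun x _ => hw0 x
    linarith
  have hex : ∀ k ≤ N, ∃ t ∈ Icc (-R) R, cum C w j t = k * M / N := by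
    intro k hk
    have hk' : (k : ℝ) ≤ N := by exact_mod_cast hk
    refine intermediate_value_Icc (by linarith) (continuous_cum hC hw j).continuousOn ?_
    rw [cum_bot hR, cum_top hR, ← hMdef]
    refine ⟨by positivity, ?_⟩
    rw [div_le_iff₀ hN', mul_comm M]
    exact mul_le_mul_of_nonneg_right hk' hM.le
  choose t ht htv using hex
  refine ⟨fun k => if h : k < N then (if k = 0 then -R else t k h.le) else R, ?_, ?_, ?_, ?_, ?_⟩
  · simp [hN]
  · simp
  all_goals
    set τ := fun k => if h : k < N then (if k = 0 then -R else t k h.le) else R with hτ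
    have hv : ∀ k ≤ N, cum C w j (τ k) = k * M / N := by
      intro k hk
      simp only [hτ]
      split_ifs with h1 h2
      · subst h2; simp [cum_bot hR]
      · exact htv k _
      · have : k = N := le_antisymm hk (not_lt.1 h1)
        subst this
        rw [cum_top hR, ← hMdef]; field_simp
    have hmem : ∀ k, τ k ∈ Icc (-R) R := by
      intro k
      simp only [hτ]
      split_ifs with h1 h2
      · exact ⟨le_rfl, by linarith⟩
      · exact ht k _
      · exact ⟨by linarith, le_rfl⟩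
    have hle : ∀ k < N, τ k ≤ τ (k + 1) := by
      intro k hk
      by_contra hlt
      have h1 := hmono (not_le.1 hlt).le
      rw [hv k hk.le, hv (k + 1) hk] at h1
      have : (k : ℝ) * M / N < ((k + 1 : ℕ) : ℝ) * M / N := by
        push_cast
        gcongr
        linarith
      linarith
  · exact hle
  · exact fun k _ => abs_le.2 (hmem k)
  · intro k hk
    rw [slab_integral hC hw j (hle k hk), hv k hk.le, hv (k + 1) hk]
    push_cast; ring

theorem sum_slab {C : Set (Sp d)} (hC : IsCompact C) {R : ℝ} (hR : ∀ x ∈ C, ‖x‖ ≤ R)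
    (j : Fin d) {h : Sp d → ℝ} (hh : Continuous h) {τ : ℕ → ℝ} {N : ℕ} (h0 : τ 0 = -R)
    (hN : τ N = R) (hle : ∀ k < N, τ k ≤ τ (k + 1)) :
    ∑ k ∈ Finset.range N, ∫ x in slab C j (τ k) (τ (k + 1)), h x = ∫ x in C, h x := by
  rw [Finset.sum_congr rfl fun k hk => slab_integral hC hh j (hle k (Finset.mem_range.1 hk)),
    Finset.sum_range_sub (fun k => cum C h j (τ k)), h0, hN, cum_bot hR, cum_top hR, sub_zero]

theorem band_integral {D : Set (Sp d)} (hD : IsCompact D) {p q : Sp d → ℝ} (hp : Continuous p)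
    (hq : Continuous q) (hp0 : ∀ x, 0 ≤ p x) {c ε : ℝ} (h : ∀ x ∈ D, |q x - c| ≤ ε) :
    |(∫ x in D, p x * q x) - c * ∫ x in D, p x| ≤ ε * ∫ x in D, p x := by
  have h1 : IntegrableOn (fun x => p x * q x) D := (hp.mul hq).continuousOn.integrableOn_compact hD
  have h2 : IntegrableOn (fun x => c * p x) D := (hp.const_mul c).continuousOn.integrableOn_compact hD
  rw [← integral_const_mul, ← integral_sub h1 h2, ← integral_const_mul]
  refine abs_integral_le_integral_abs.trans (setIntegral_mono_on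
    (Continuous.continuousOn (by fun_prop) |>.integrableOn_compact hD)
    ((hp.const_mul ε).continuousOn.integrableOn_compact hD) hD.measurableSet fun x hx => ?_)
  rw [show p x * q x - c * p x = p x * (q x - c) by ring, abs_mul, abs_of_nonneg (hp0 x),
    mul_comm ε]
  exact mul_le_mul_of_nonneg_left (h x hx) (hp0 x)

theorem real_volume_bm {A B C : Set (Sp d)} (hA : IsCompact A) (hB : IsCompact B)
    (hC : IsCompact C) {s : ℝ} (h0 : 0 < s) (h1 : s < 1)
    (hsub : ∀ a ∈ A, ∀ b ∈ B, (1 - s) • a + s • b ∈ C) :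
    volume.real A ^ (1 - s) * volume.real B ^ s ≤ volume.real C := by
  have h := ENNReal.toReal_mono hC.measure_lt_top.ne (BM.bm_euclidean h0 h1 hA hB hC hsub)
  rwa [ENNReal.toReal_mul, ← ENNReal.toReal_rpow, ← ENNReal.toReal_rpow] at h

theorem bm_lin {m v s : ℝ} (hm : 0 < m) (hv : 0 < v) (hs : 0 ≤ s) :
    m * (1 + s * (1 - m / v)) ≤ m ^ (1 - s) * v ^ s := by
  have e : m ^ (1 - s) * v ^ s = m * Real.exp (Real.log (v / m) * s) := by
    rw [← Real.rpow_def_of_pos (div_pos hv hm), Real.div_rpow hv.le hm.le, Real.rpow_sub hm,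
      Real.rpow_one]
    ring
  rw [e]
  refine mul_le_mul_of_nonneg_left ?_ hm.le
  have h1 := Real.one_sub_inv_le_log_of_pos (div_pos hv hm)
  rw [inv_div] at h1
  nlinarith [Real.add_one_le_exp (Real.log (v / m) * s)]

/-- The arithmetic core of the estimate for one slab. -/
theorem slab_arith {R s m v G I u τ w w' L : ℝ} (hR : 0 ≤ R) (hu : |u| ≤ R) (hτ : |τ| ≤ R)
    (hs0 : 0 < s) (hs : s < 1 / 2) (hm : 0 < m) (hv : 0 < v) (hvG : v + G = m)
    (hG : |G| ≤ v / 2) (hGI : G ^ 2 ≤ v * I) (hw : 0 ≤ w) (hw' : 0 ≤ w')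
    (hL : m * (1 - s * (G / v)) *
      ((R ^ 2 - ((1 - s) * u + s * τ) ^ 2) / 2 - R * (w + w')) ≤ L) :
    m * ((R ^ 2 - u ^ 2) / 2)
      + s * (v * ((R ^ 2 - τ ^ 2) / 2) - m * ((R ^ 2 - u ^ 2) / 2))
      + s * (1 / 4 - s / 2) * (m * (τ - u) ^ 2) - 5 / 2 * s * R ^ 2 * I
      - 2 * s ^ 2 * m * R ^ 2 - 2 * m * R * (w + w') ≤ L := by
  refine le_trans ?_ hL
  obtain ⟨hu1, hu2⟩ := abs_le.1 hu
  obtain ⟨ht1, ht2⟩ := abs_le.1 hτ
  obtain ⟨hG1, hG2⟩ := abs_le.1 hG
  set gb := G / v with hgb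
  have hgbv : gb * v = G := div_mul_cancel₀ _ hv.ne'
  have hgb1 : |gb| ≤ 1 / 2 := by
    rw [hgb, abs_div, abs_of_pos hv, div_le_iff₀ hv]; linarith
  obtain ⟨hg1, hg2⟩ := abs_le.1 hgb1
  set at_ := (R ^ 2 - u ^ 2) / 2 with hat
  set aτ := (R ^ 2 - τ ^ 2) / 2 with haτ
  have hu' : u ^ 2 ≤ R ^ 2 := sq_le_sq' hu1 hu2
  have ht' : τ ^ 2 ≤ R ^ 2 := sq_le_sq' ht1 ht2
  have hat0 : 0 ≤ at_ := by rw [hat]; linarith
  have hat1 : at_ ≤ R ^ 2 / 2 := by rw [hat]; linarith [sq_nonneg u]
  have hat0' : 0 ≤ aτ := by rw [haτ]; linarith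
  have hat1' : aτ ≤ R ^ 2 / 2 := by rw [haτ]; linarith [sq_nonneg τ]
  have hI0 : 0 ≤ I := nonneg_of_mul_nonneg_right (le_trans (sq_nonneg G) hGI) hv
  have hσ : (R ^ 2 - ((1 - s) * u + s * τ) ^ 2) / 2
      = (1 - s) * at_ + s * aτ + s * (1 - s) * (τ - u) ^ 2 / 2 := by
    rw [hat, haτ]; ring
  rw [hσ]
  have hmg : m * gb = G + G * gb := by
    calc m * gb = (v + G) * gb := by rw [hvG]
      _ = G + G * gb := by linear_combination hgbv
  have h1 : G * gb * at_ ≤ I * (R ^ 2 / 2) := by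
    have hGg0 : 0 ≤ G * gb := by rw [← hgbv]; linarith [mul_nonneg hv.le (mul_self_nonneg gb)]
    have hGg : G * gb ≤ I := by
      rw [hgb, mul_div_assoc', div_le_iff₀ hv]; linarith
    exact mul_le_mul hGg hat1 hat0 hI0
  have hΔ : |aτ - at_| ≤ R * |τ - u| := by
    have he : aτ - at_ = (u - τ) * ((u + τ) / 2) := by rw [hat, haτ]; ring
    rw [he, abs_mul, abs_sub_comm u τ, mul_comm R]
    exact mul_le_mul_of_nonneg_left (abs_le.2 ⟨by linarith, by linarith⟩) (abs_nonneg _)
  have h2 : -(m * (τ - u) ^ 2 / 4) - 2 * R ^ 2 * I ≤ G * (aτ - at_) := by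
    have hb : |G * (aτ - at_)| ≤ |G| * (R * |τ - u|) := by
      rw [abs_mul]; exact mul_le_mul_of_nonneg_left hΔ (abs_nonneg _)
    have hI : G ^ 2 ≤ 2 * m * I := by
      have : v * I ≤ 2 * m * I := mul_le_mul_of_nonneg_right (by linarith) hI0
      linarith
    have hsq : |G| * (R * |τ - u|) ≤ m * (τ - u) ^ 2 / 4 + 2 * R ^ 2 * I := by
      have key : 4 * m * (|G| * (R * |τ - u|)) ≤ 4 * m * (m * (τ - u) ^ 2 / 4 + 2 * R ^ 2 * I) := by
        have e : 4 * m * (m * (τ - u) ^ 2 / 4 + 2 * R ^ 2 * I)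
            = m ^ 2 * |τ - u| ^ 2 + 4 * R ^ 2 * (2 * m * I) := by rw [sq_abs]; ring
        rw [e]
        have h4 := mul_le_mul_of_nonneg_left hI
          (mul_nonneg (show (0 : ℝ) ≤ 4 by norm_num) (sq_nonneg R))
        have h5 : G ^ 2 = |G| ^ 2 := (sq_abs G).symm
        rw [h5] at h4
        nlinarith only [sq_nonneg (m * |τ - u| - 2 * R * |G|), h4]
      exact le_of_mul_le_mul_left key (by positivity)
    linarith [(abs_le.1 hb).1]
  have h3 : gb * (aτ - at_ + (1 - s) * (τ - u) ^ 2 / 2) ≤ 2 * R ^ 2 := by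
    have hd : (τ - u) ^ 2 ≤ (2 * R) ^ 2 := sq_le_sq' (by linarith) (by linarith)
    have hd1 : (1 - s) * (τ - u) ^ 2 ≤ (τ - u) ^ 2 :=
      mul_le_of_le_one_left (sq_nonneg _) (by linarith)
    have hd0 : 0 ≤ (1 - s) * (τ - u) ^ 2 := mul_nonneg (by linarith) (sq_nonneg _)
    have hb : |aτ - at_ + (1 - s) * (τ - u) ^ 2 / 2| ≤ 5 / 2 * R ^ 2 := by
      rw [abs_le]
      constructor <;> linarith [sq_nonneg R]
    have hp : |gb * (aτ - at_ + (1 - s) * (τ - u) ^ 2 / 2)| ≤ 1 / 2 * (5 / 2 * R ^ 2) := by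
      rw [abs_mul]; exact mul_le_mul hgb1 hb (abs_nonneg _) (by norm_num)
    linarith [(abs_le.1 hp).2, sq_nonneg R]
  have h4 : m * (1 - s * gb) * (R * (w + w')) ≤ 2 * m * R * (w + w') := by
    have h5 : s * (-gb) ≤ 1 / 2 * (1 / 2) :=
      (mul_le_mul_of_nonneg_left (by linarith) hs0.le).trans
        (mul_le_mul_of_nonneg_right hs.le (by norm_num))
    have h6 := mul_le_mul_of_nonneg_left (show 1 - s * gb ≤ 2 by linarith)
      (mul_nonneg (mul_nonneg hm.le hR) (add_nonneg hw hw'))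
    linarith
  have expand : m * (1 - s * gb) * ((1 - s) * at_ + s * aτ + s * (1 - s) * (τ - u) ^ 2 / 2
        - R * (w + w'))
      = m * at_ + s * (v * aτ - m * at_) + s * (G * (aτ - at_)) - s * (G * gb * at_)
        + s * (1 - s) * (m * (τ - u) ^ 2) / 2
        - s ^ 2 * m * (gb * (aτ - at_ + (1 - s) * (τ - u) ^ 2 / 2))
        - m * (1 - s * gb) * (R * (w + w')) := by
    have hv' : v = m - G := by linarith
    linear_combination (-(s * at_)) * hmg - s * aτ * hv'
  rw [expand]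
  have e2 := mul_le_mul_of_nonneg_left h2 hs0.le
  have e1 := mul_le_mul_of_nonneg_left h1 hs0.le
  have e3 := mul_le_mul_of_nonneg_left h3 (mul_nonneg (sq_nonneg s) hm.le)
  linear_combination e2 + e1 + e3 + h4

theorem slab_piece {D D' : Set (Sp d)} (hD : IsCompact D) (hD' : IsCompact D') (j : Fin d)
    {R u τ w w' : ℝ} (hR0 : 0 ≤ R) (hDR : ∀ x ∈ D, ‖x‖ ≤ R) (hD'R : ∀ x ∈ D', ‖x‖ ≤ R)
    (hDb : ∀ x ∈ D, u ≤ x j ∧ x j ≤ u + w) (hD'b : ∀ x ∈ D', τ ≤ x j ∧ x j ≤ τ + w')
    (hu : |u| ≤ R) (hτ : |τ| ≤ R) (hw : 0 ≤ w) (hw' : 0 ≤ w') {g : Sp d → ℝ} (hg : Continuous g)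
    (hg2 : ∀ x, |g x| ≤ 1 / 2) {s : ℝ} (hs0 : 0 < s) (hs : s < 1 / 2) (hm : 0 < volume.real D)
    (hmass : ∫ x in D', (1 + g x) = volume.real D) :
    volume.real D * ((R ^ 2 - u ^ 2) / 2)
      + s * (volume.real D' * ((R ^ 2 - τ ^ 2) / 2) - volume.real D * ((R ^ 2 - u ^ 2) / 2))
      + s * (1 / 4 - s / 2) * (volume.real D * (τ - u) ^ 2)
      - 5 / 2 * s * R ^ 2 * (∫ x in D', g x ^ 2)
      - 2 * s ^ 2 * volume.real D * R ^ 2 - 2 * volume.real D * R * (w + w')
    ≤ ∫ x in (fun p : Sp d × Sp d => (1 - s) • p.1 + s • p.2) '' (D ×ˢ D'),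
        (R ^ 2 - x j ^ 2) / 2 := by
  set F := (fun p : Sp d × Sp d => (1 - s) • p.1 + s • p.2) '' (D ×ˢ D') with hF
  have hFc : IsCompact F := (hD.prod hD').image (by fun_prop)
  set m := volume.real D with hmdef
  set v := volume.real D' with hvdef
  set G := ∫ x in D', g x with hGdef
  have hgi : IntegrableOn g D' := hg.continuousOn.integrableOn_compact hD'
  have h1i : ∀ c : ℝ, IntegrableOn (fun _ : Sp d => c) D' := fun c =>
    continuous_const.continuousOn.integrableOn_compact hD'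
  have hvG : v + G = m := by
    rw [← hmass, integral_add (h1i 1) hgi, setIntegral_const, smul_eq_mul, mul_one]
  have hG : |G| ≤ v / 2 := by
    refine abs_integral_le_integral_abs.trans ?_
    refine (setIntegral_mono_on (hg.abs.continuousOn.integrableOn_compact hD') (h1i (1 / 2))
      hD'.measurableSet fun x _ => hg2 x).trans_eq ?_
    rw [setIntegral_const, smul_eq_mul]; ring
  have hv : 0 < v := by
    linarith [(abs_le.1 hG).2]
  have hGI : G ^ 2 ≤ v * ∫ x in D', g x ^ 2 := by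
    have h0 : 0 ≤ ∫ x in D', (g x - G / v) ^ 2 :=
      setIntegral_nonneg hD'.measurableSet fun x _ => sq_nonneg _
    have e : ∀ x, (g x - G / v) ^ 2 = g x ^ 2 - 2 * (G / v) * g x + (G / v) ^ 2 := fun x => by ring
    simp only [e] at h0
    have hi2 : IntegrableOn (fun x => g x ^ 2) D' := (hg.pow 2).continuousOn.integrableOn_compact hD'
    have hi3 : IntegrableOn (fun x => 2 * (G / v) * g x) D' := hgi.const_mul _
    have hi4 : IntegrableOn (fun x => g x ^ 2 - 2 * (G / v) * g x) D' := hi2.sub hi3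
    rw [integral_add hi4 (h1i _), integral_sub hi2 hi3,
      integral_const_mul, setIntegral_const, smul_eq_mul, ← hGdef, ← hvdef] at h0
    have : v * (G / v) ^ 2 = G ^ 2 / v := by field_simp
    rw [this] at h0
    have h3 : G ^ 2 / v ≤ ∫ x in D', g x ^ 2 := by
      have : 2 * (G / v) * G = 2 * (G ^ 2 / v) := by ring
      linarith
    rw [div_le_iff₀ hv] at h3
    linarith
  refine slab_arith hR0 hu hτ hs0 hs hm hv hvG hG hGI hw hw' ?_
  have hvol : m * (1 - s * (G / v)) ≤ volume.real F := by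
    refine le_trans (le_of_eq ?_) ((bm_lin hm hv hs0.le).trans
      (real_volume_bm hD hD' hFc hs0 (by linarith)
        fun a ha b hb => ⟨(a, b), ⟨ha, hb⟩, rfl⟩))
    rw [← hvG]; field_simp; ring
  have hpos : 0 ≤ m * (1 - s * (G / v)) := by
    refine mul_nonneg hm.le ?_
    have : G / v ≤ 1 / 2 := by rw [div_le_iff₀ hv]; linarith [(abs_le.1 hG).2]
    have := mul_le_mul_of_nonneg_left this hs0.le
    linarith
  set A := (R ^ 2 - ((1 - s) * u + s * τ) ^ 2) / 2 - R * (w + w') with hA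
  have hpt : ∀ x ∈ F, max A 0 ≤ (R ^ 2 - x j ^ 2) / 2 := by
    rintro x ⟨⟨a, b⟩, ⟨ha, hb⟩, rfl⟩
    obtain ⟨a1, a2⟩ := hDb a ha
    obtain ⟨b1, b2⟩ := hD'b b hb
    obtain ⟨a3, a4⟩ := abs_le.1 (abs_coord_le (hDR a ha) j)
    obtain ⟨b3, b4⟩ := abs_le.1 (abs_coord_le (hD'R b hb) j)
    obtain ⟨u1, u2⟩ := abs_le.1 hu
    obtain ⟨t1, t2⟩ := abs_le.1 hτ
    have hs' : (0 : ℝ) ≤ 1 - s := by linarith
    simp only [PiLp.add_apply, PiLp.smul_apply, smul_eq_mul]
    set z := (1 - s) * a j + s * b j with hz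
    set σ := (1 - s) * u + s * τ with hσ
    have L : ∀ {p q : ℝ}, p ≤ q → (1 - s) * p ≤ (1 - s) * q := fun h =>
      mul_le_mul_of_nonneg_left h hs'
    have M' : ∀ {p q : ℝ}, p ≤ q → s * p ≤ s * q := fun h => mul_le_mul_of_nonneg_left h hs0.le
    have z1 : -R ≤ z := by rw [hz]; linarith [L a3, M' b3]
    have z2 : z ≤ R := by rw [hz]; linarith [L a4, M' b4]
    have s1 : -R ≤ σ := by rw [hσ]; linarith [L u1, M' t1]
    have s2 : σ ≤ R := by rw [hσ]; linarith [L u2, M' t2]
    have d1 : σ ≤ z := by rw [hσ, hz]; linarith [L a1, M' b1]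
    have d2 : z - σ ≤ w + w' := by
      rw [hσ, hz]
      linarith [L a2, M' b2, mul_nonneg hs0.le hw, mul_nonneg hs' hw']
    have hz2 : z ^ 2 ≤ R ^ 2 := sq_le_sq' z1 z2
    refine max_le ?_ (by linarith)
    rw [hA]
    nlinarith only [mul_le_mul_of_nonneg_left d2 hR0,
      mul_nonneg (sub_nonneg.2 d1) (show 0 ≤ 2 * R - (z + σ) by linarith)]
  have hint : volume.real F * max A 0 ≤ ∫ x in F, (R ^ 2 - x j ^ 2) / 2 := by
    rw [← smul_eq_mul, ← setIntegral_const]
    exact setIntegral_mono_on (continuous_const.continuousOn.integrableOn_compact hFc)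
      (Continuous.continuousOn (by fun_prop) |>.integrableOn_compact hFc) hFc.measurableSet hpt
  calc m * (1 - s * (G / v)) * A ≤ m * (1 - s * (G / v)) * max A 0 :=
        mul_le_mul_of_nonneg_left (le_max_left _ _) hpos
    _ ≤ volume.real F * max A 0 := mul_le_mul_of_nonneg_right hvol (le_max_right _ _)
    _ ≤ _ := hint

/-- The weight at level `u`. -/
noncomputable def a' (R u : ℝ) : ℝ := (R ^ 2 - u ^ 2) / 2

/-- The slab inequality. -/
theorem slab_ineq {C C' E : Set (Sp d)} (hC : IsCompact C) (hC' : IsCompact C') (hE : IsCompact E)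
    (j : Fin d) {R : ℝ} (hR0 : 0 ≤ R) (hCR : ∀ x ∈ C, ‖x‖ ≤ R) (hC'R : ∀ x ∈ C', ‖x‖ ≤ R)
    (hER : ∀ x ∈ E, ‖x‖ ≤ R) {g : Sp d → ℝ} (hg : Continuous g) (hg2 : ∀ x, |g x| ≤ 1 / 2)
    {s : ℝ} (hs0 : 0 < s) (hs : s < 1 / 2)
    (hsub : ∀ a ∈ C, ∀ b ∈ C', (1 - s) • a + s • b ∈ E) (hM : 0 < volume.real C)
    (hmass : ∫ x in C', (1 + g x) = volume.real C) :
    s * ((1 / 4 - s / 2) * ((∫ x in C', (1 + g x) * x j) - ∫ x in C, x j) ^ 2 / volume.real C
        + ((∫ x in C', (R ^ 2 - x j ^ 2) / 2) - ∫ x in C, (R ^ 2 - x j ^ 2) / 2)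
        - 5 / 2 * R ^ 2 * ∫ x in C', g x ^ 2)
      - 2 * s ^ 2 * volume.real C * R ^ 2
    ≤ (∫ x in E, (R ^ 2 - x j ^ 2) / 2) - ∫ x in C, (R ^ 2 - x j ^ 2) / 2 := by
  set M := volume.real C with hMdef
  set a : Sp d → ℝ := fun x => (R ^ 2 - x j ^ 2) / 2 with ha
  have hac : Continuous a := by fun_prop
  set β := ∫ x in C, x j with hβ
  set β' := ∫ x in C', (1 + g x) * x j with hβ'
  have hone : ∫ x in C, (1 : ℝ) = M := by rw [setIntegral_const, smul_eq_mul, mul_one]
  have hgp : Continuous fun x => 1 + g x := continuous_const.add hg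
  have hgp0 : ∀ x, 0 ≤ 1 + g x := fun x => by linarith [(abs_le.1 (hg2 x)).1]
  -- the estimate up to `O(1/N)`
  have main : ∀ N : ℕ, 0 < N →
      s * ((1 / 4 - s / 2) * (β' - β) ^ 2 / M + ((∫ x in C', a x) - ∫ x in C, a x)
          - 5 / 2 * R ^ 2 * ∫ x in C', g x ^ 2) - 2 * s ^ 2 * M * R ^ 2
        ≤ (∫ x in E, a x) - (∫ x in C, a x) + 30 * R ^ 2 * M / N := by
    intro N hN
    have hN' : (0 : ℝ) < N := by exact_mod_cast hN
    obtain ⟨t, t0, tN, tle, tR, tm⟩ := exists_cuts hC hR0 hCR j (w := fun _ => (1 : ℝ))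
      continuous_const (fun _ => zero_le_one) (by rw [hone]; exact hM) hN
    obtain ⟨τ, τ0, τN, τle, τR, τm⟩ := exists_cuts hC' hR0 hC'R j hgp hgp0
      (by rw [hmass]; exact hM) hN
    rw [hone] at tm
    rw [hmass] at τm
    set m := M / N with hm
    have hm0 : 0 < m := div_pos hM hN'
    set D : ℕ → Set (Sp d) := fun k => slab C j (t k) (t (k + 1)) with hD
    set D' : ℕ → Set (Sp d) := fun k => slab C' j (τ k) (τ (k + 1)) with hD'
    have hDc : ∀ k, IsCompact (D k) := fun k => isCompact_slab hC j _ _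
    have hD'c : ∀ k, IsCompact (D' k) := fun k => isCompact_slab hC' j _ _
    have hvD : ∀ k < N, volume.real (D k) = m := fun k hk => by
      rw [← tm k hk, setIntegral_const, smul_eq_mul, mul_one]
    have hvD'2 : ∀ k < N, volume.real (D' k) ≤ 2 * m := fun k hk => by
      rw [← τm k hk, ← integral_const_mul]
      calc volume.real (D' k) = ∫ x in D' k, (1 : ℝ) := by
            rw [setIntegral_const, smul_eq_mul, mul_one]
        _ ≤ _ := setIntegral_mono_on (continuous_const.continuousOn.integrableOn_compact (hD'c k))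
          ((hgp.const_mul 2).continuousOn.integrableOn_compact (hD'c k))
          (hD'c k).measurableSet fun x _ => by linarith [(abs_le.1 (hg2 x)).1]
    set F : ℕ → Set (Sp d) :=
      fun k => (fun p : Sp d × Sp d => (1 - s) • p.1 + s • p.2) '' (D k ×ˢ D' k) with hF
    set σ : ℕ → ℝ := fun k => (1 - s) * t k + s * τ k with hσ
    have hFsub : ∀ k, F k ⊆ slab E j (σ k) (σ (k + 1)) := by
      rintro k x ⟨⟨p, q⟩, ⟨hp, hq⟩, rfl⟩
      refine ⟨hsub p hp.1 q hq.1, ?_⟩
      show σ k ≤ ((1 - s) • p + s • q) j ∧ ((1 - s) • p + s • q) j ≤ σ (k + 1)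
      simp only [PiLp.add_apply, PiLp.smul_apply, smul_eq_mul, hσ]
      have hs' : (0 : ℝ) ≤ 1 - s := by linarith
      exact ⟨add_le_add (mul_le_mul_of_nonneg_left hp.2.1 hs')
        (mul_le_mul_of_nonneg_left hq.2.1 hs0.le),
        add_le_add (mul_le_mul_of_nonneg_left hp.2.2 hs')
        (mul_le_mul_of_nonneg_left hq.2.2 hs0.le)⟩
    have ha0 : ∀ x ∈ E, 0 ≤ a x := fun x hx => by
      obtain ⟨h1, h2⟩ := abs_le.1 (abs_coord_le (hER x hx) j)
      simp only [ha]; nlinarith
    have hsum : ∑ k ∈ Finset.range N, ∫ x in F k, a x ≤ ∫ x in E, a x := by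
      rw [← sum_slab hE hER j hac (τ := σ) (N := N) (by simp only [hσ, t0, τ0]; ring)
        (by simp only [hσ, tN, τN]; ring) fun k hk => add_le_add
          (mul_le_mul_of_nonneg_left (tle k hk) (by linarith))
          (mul_le_mul_of_nonneg_left (τle k hk) hs0.le)]
      refine Finset.sum_le_sum fun k _ => setIntegral_mono_set
        (hac.continuousOn.integrableOn_compact (isCompact_slab hE j _ _))
        ((ae_restrict_mem (isCompact_slab hE j _ _).measurableSet).mono fun x hx => ha0 x hx.1)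
        (hFsub k).eventuallyLE
    have hpiece : ∀ k ∈ Finset.range N, m * a' R (t k)
          + s * (volume.real (D' k) * a' R (τ k) - m * a' R (t k))
          + s * (1 / 4 - s / 2) * (m * (τ k - t k) ^ 2)
          - 5 / 2 * s * R ^ 2 * (∫ x in D' k, g x ^ 2) - 2 * s ^ 2 * m * R ^ 2
          - 2 * m * R * ((t (k + 1) - t k) + (τ (k + 1) - τ k)) ≤ ∫ x in F k, a x := by
      intro k hk
      rw [Finset.mem_range] at hk
      have := slab_piece (hDc k) (hD'c k) j (R := R) (u := t k) (τ := τ k)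
        (w := t (k + 1) - t k) (w' := τ (k + 1) - τ k) hR0 (fun x hx => hCR x hx.1)
        (fun x hx => hC'R x hx.1) (fun x hx => ⟨hx.2.1, by linarith [hx.2.2]⟩)
        (fun x hx => ⟨hx.2.1, by linarith [hx.2.2]⟩) (tR k hk.le) (τR k hk.le)
        (by linarith [tle k hk]) (by linarith [τle k hk]) hg hg2 hs0 hs
        (by rw [hvD k hk]; exact hm0) (by rw [τm k hk, hvD k hk])
      rw [hvD k hk] at this
      exact this
    have key := (Finset.sum_le_sum hpiece).trans hsum
    simp only [Finset.sum_add_distrib, Finset.sum_sub_distrib, ← Finset.mul_sum] at key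
    rw [← Finset.sum_sub_distrib, ← Finset.sum_sub_distrib, Finset.sum_range_sub t,
      Finset.sum_range_sub τ, t0, tN, τ0, τN, sum_slab hC' hC'R j (h := fun x => g x ^ 2) (by fun_prop) τ0 τN τle] at key
    simp only [Finset.sum_const, Finset.card_range, nsmul_eq_mul] at key
    -- Riemann sums
    have habs : ∀ k < N, ∀ x ∈ D k, |x j - t k| ≤ t (k + 1) - t k := fun k _ x hx => by
      rw [abs_le]; constructor <;> linarith [hx.2.1, hx.2.2]
    have habs' : ∀ k < N, ∀ x ∈ D' k, |x j - τ k| ≤ τ (k + 1) - τ k := fun k _ x hx => by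
      rw [abs_le]; constructor <;> linarith [hx.2.1, hx.2.2]
    have hadiff : ∀ u z δ : ℝ, |u| ≤ R → |z| ≤ R → |z - u| ≤ δ →
        |(R ^ 2 - z ^ 2) / 2 - a' R u| ≤ R * δ := fun u z δ hu hz hd => by
      have he : (R ^ 2 - z ^ 2) / 2 - a' R u = (z - u) * (-((u + z) / 2)) := by
        simp only [a']; ring
      rw [he, abs_mul, abs_neg, mul_comm R]
      obtain ⟨u1, u2⟩ := abs_le.1 hu
      obtain ⟨z1, z2⟩ := abs_le.1 hz
      exact mul_le_mul hd (abs_le.2 ⟨by linarith, by linarith⟩) (abs_nonneg _)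
        ((abs_nonneg _).trans hd)
    have e1 : (∫ x in C, a x) - 2 * R ^ 2 * m ≤ ∑ k ∈ Finset.range N, m * a' R (t k) ∧
        ∑ k ∈ Finset.range N, m * a' R (t k) ≤ (∫ x in C, a x) + 2 * R ^ 2 * m := by
      have h := Finset.abs_sum_le_sum_abs (fun k => (∫ x in D k, a x) - m * a' R (t k))
        (Finset.range N)
      have h' : ∀ k ∈ Finset.range N, |(∫ x in D k, a x) - m * a' R (t k)|
          ≤ R * m * (t (k + 1) - t k) := by
        intro k hk
        rw [Finset.mem_range] at hk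
        have hb := band_integral (hDc k) (p := fun _ => (1 : ℝ)) continuous_const hac
          (fun _ => zero_le_one) (c := a' R (t k)) (ε := R * (t (k + 1) - t k))
          fun x hx => hadiff _ _ _ (tR k hk.le) (abs_coord_le (hCR x hx.1) j) (habs k hk x hx)
        rw [setIntegral_const, smul_eq_mul, mul_one, hvD k hk] at hb
        simp only [one_mul] at hb
        rw [mul_comm m]
        linarith
      have := h.trans (Finset.sum_le_sum h')
      rw [← Finset.mul_sum, Finset.sum_range_sub t, t0, tN, Finset.sum_sub_distrib,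
        sum_slab hC hCR j hac t0 tN tle, abs_le] at this
      constructor <;> linarith
    have e2 : (∫ x in C', a x) - 4 * R ^ 2 * m
        ≤ ∑ k ∈ Finset.range N, volume.real (D' k) * a' R (τ k) := by
      have h' : ∀ k ∈ Finset.range N, (∫ x in D' k, a x) - 2 * R * m * (τ (k + 1) - τ k)
          ≤ volume.real (D' k) * a' R (τ k) := by
        intro k hk
        rw [Finset.mem_range] at hk
        have hb := band_integral (hD'c k) (p := fun _ => (1 : ℝ)) continuous_const hac
          (fun _ => zero_le_one) (c := a' R (τ k)) (ε := R * (τ (k + 1) - τ k))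
          fun x hx => hadiff _ _ _ (τR k hk.le) (abs_coord_le (hC'R x hx.1) j) (habs' k hk x hx)
        rw [setIntegral_const, smul_eq_mul, mul_one] at hb
        simp only [one_mul] at hb
        have := mul_le_mul_of_nonneg_left (hvD'2 k hk)
          (mul_nonneg hR0 (sub_nonneg.2 (τle k hk)))
        linarith [(abs_le.1 hb).2]
      have := Finset.sum_le_sum h'
      rw [Finset.sum_sub_distrib, ← Finset.mul_sum, Finset.sum_range_sub τ, τ0, τN,
        sum_slab hC' hC'R j hac τ0 τN τle] at this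
      linarith
    have eX : |β' - β| ≤ m * ∑ k ∈ Finset.range N, |τ k - t k| + 4 * R * m := by
      have h' : ∀ k ∈ Finset.range N,
          |(∫ x in D' k, (1 + g x) * x j) - ∫ x in D k, x j|
            ≤ m * |τ k - t k| + m * (t (k + 1) - t k) + m * (τ (k + 1) - τ k) := by
        intro k hk
        rw [Finset.mem_range] at hk
        have hb := band_integral (hDc k) (p := fun _ => (1 : ℝ)) (q := fun x => x j)
          continuous_const (by fun_prop) (fun _ => zero_le_one) (habs k hk)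
        rw [setIntegral_const, smul_eq_mul, mul_one, hvD k hk] at hb
        simp only [one_mul] at hb
        have hb' := band_integral (hD'c k) (q := fun x => x j) hgp (by fun_prop) hgp0
          (habs' k hk)
        rw [τm k hk] at hb'
        rw [abs_le] at hb hb' ⊢
        have h1 := mul_le_mul_of_nonneg_left (le_abs_self (τ k - t k)) hm0.le
        have h2 := mul_le_mul_of_nonneg_left (neg_abs_le (τ k - t k)) hm0.le
        constructor <;> linarith
      have := (Finset.abs_sum_le_sum_abs _ _).trans (Finset.sum_le_sum h')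
      rw [Finset.sum_add_distrib, Finset.sum_add_distrib, ← Finset.mul_sum, ← Finset.mul_sum,
        ← Finset.mul_sum, Finset.sum_range_sub t, Finset.sum_range_sub τ, t0, tN, τ0, τN,
        Finset.sum_sub_distrib,
        sum_slab hC' hC'R j (h := fun x => (1 + g x) * x j) (by fun_prop) τ0 τN τle,
        sum_slab hC hCR j (h := fun x => x j) (by fun_prop) t0 tN tle] at this
      linarith
    set P := ∑ k ∈ Finset.range N, |τ k - t k| with hP
    have hCS : P ^ 2 ≤ N * ∑ k ∈ Finset.range N, (τ k - t k) ^ 2 := by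
      have := sq_sum_le_card_mul_sum_sq (s := Finset.range N) (f := fun k => |τ k - t k|)
      simpa [sq_abs] using this
    have hPb : P ≤ N * (2 * R) := by
      refine (Finset.sum_le_card_nsmul _ _ (2 * R) fun k hk => ?_).trans_eq (by simp)
      obtain ⟨h1, h2⟩ := abs_le.1 (tR k (Finset.mem_range.1 hk).le)
      obtain ⟨h3, h4⟩ := abs_le.1 (τR k (Finset.mem_range.1 hk).le)
      rw [abs_le]; constructor <;> linarith
    have hP0 : 0 ≤ P := Finset.sum_nonneg fun k _ => abs_nonneg _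
    have hMm : (N : ℝ) * m = M := by rw [hm]; field_simp
    have hX2 : (β' - β) ^ 2 / M ≤ m * ∑ k ∈ Finset.range N, (τ k - t k) ^ 2 + 32 * R ^ 2 * m := by
      rw [div_le_iff₀ hM]
      have h1 : (β' - β) ^ 2 ≤ (m * P + 4 * R * m) ^ 2 := by
        rw [← sq_abs]; exact pow_le_pow_left₀ (abs_nonneg _) eX 2
      have h2 := mul_le_mul_of_nonneg_left hCS (sq_nonneg m)
      have h3 := mul_le_mul_of_nonneg_left hPb (show (0 : ℝ) ≤ 8 * R * m ^ 2 by positivity)
      have h4 : m ≤ M := by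
        rw [← hMm]; exact le_mul_of_one_le_left hm0.le (by exact_mod_cast hN)
      have h5 := mul_le_mul_of_nonneg_left h4 (show (0 : ℝ) ≤ 16 * R ^ 2 * m by positivity)
      rw [← hMm]
      rw [← hMm] at h5
      linarith
    have hcoef : 0 ≤ s * (1 / 4 - s / 2) := mul_nonneg hs0.le (by linarith)
    have k1 := mul_le_mul_of_nonneg_left hX2 hcoef
    have k2 := mul_le_mul_of_nonneg_left e2 hs0.le
    have k3 := mul_le_mul_of_nonneg_left e1.2 hs0.le
    have k4 : s * (1 / 4 - s / 2) * (32 * R ^ 2 * m) ≤ 1 / 8 * (32 * R ^ 2 * m) :=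
      mul_le_mul_of_nonneg_right (by nlinarith) (by positivity)
    have k5 : s * (6 * R ^ 2 * m) ≤ 1 / 2 * (6 * R ^ 2 * m) :=
      mul_le_mul_of_nonneg_right hs.le (by positivity)
    have hd : 30 * R ^ 2 * M / N = 30 * R ^ 2 * m := by rw [hm]; ring
    rw [hd]
    have hz : (1 / 4 - s / 2) * (β' - β) ^ 2 / M = (1 / 4 - s / 2) * ((β' - β) ^ 2 / M) := by ring
    rw [hz]
    have hNs : (N : ℝ) * (2 * s ^ 2 * m * R ^ 2) = 2 * s ^ 2 * M * R ^ 2 := by rw [← hMm]; ring
    have hR2 : 0 ≤ R ^ 2 * m := by positivity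
    rw [← Finset.mul_sum] at e1
    have k6 := mul_le_mul_of_nonneg_left e1.2 hs0.le
    linarith [e1.1]
  refine le_of_forall_pos_le_add fun η hη => ?_
  obtain ⟨N, hN⟩ := exists_nat_gt (30 * R ^ 2 * M / η)
  have hN0 : 0 < N := by
    have : (0 : ℝ) < N := lt_of_le_of_lt (by positivity) hN
    exact_mod_cast this
  refine (main N hN0).trans (add_le_add_right ?_ _)
  rw [div_le_iff₀ (by exact_mod_cast hN0)]
  rw [div_lt_iff₀ hη] at hN
  linarith

end Vale.Agent.P074.Slab
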