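import Mathlib
import Vale.Agent.P074.Defs
import Vale.Agent.P074.Slab

/-!
Interpolation: the gradient of a difference of two Lipschitz convex functions is controlled by
its `L²` norm.
-/

open MeasureTheory Set Filter
open scoped ENNReal NNReal RealInnerProductSpace Topology

namespace Vale.Agent.P074.GradBound

theorem sum_parts {f P : ℕ → ℝ} (hP : Monotone P) {M : ℝ} (N : ℕ) (hf : ∀ k ≤ N, |f k| ≤ M) :
    ∑ k ∈ Finset.range N, (f (k + 1) - f k) * P k
      ≤ f N * P N - f 0 * P 0 + M * (P N - P 0) := by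
  induction N with
  | zero => simp
  | succ n ih =>
    rw [Finset.sum_range_succ]
    have h1 := ih fun k hk => hf k (hk.trans n.le_succ)
    have h2 : 0 ≤ (f (n + 1) + M) * (P (n + 1) - P n) :=
      mul_nonneg (by linarith [(abs_le.1 (hf (n + 1) le_rfl)).1])
        (sub_nonneg.2 (hP n.le_succ))
    linarith

theorem sum_parts_le {f P : ℕ → ℝ} (hP : Monotone P) {M A : ℝ} (hA : ∀ k, |P k| ≤ A) (N : ℕ)
    (hf : ∀ k ≤ N, |f k| ≤ M) :
    ∑ k ∈ Finset.range N, (f (k + 1) - f k) * P k ≤ 4 * A * M := by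
  have h := sum_parts hP N hf
  have hM : 0 ≤ M := (abs_nonneg _).trans (hf 0 (Nat.zero_le _))
  have hA0 : 0 ≤ A := (abs_nonneg _).trans (hA 0)
  have h1 : f N * P N ≤ M * A := (le_abs_self _).trans (by
    rw [abs_mul]; exact mul_le_mul (hf N le_rfl) (hA N) (abs_nonneg _) hM)
  have h2 : -(f 0 * P 0) ≤ M * A := (neg_le_abs _).trans (by
    rw [abs_mul]; exact mul_le_mul (hf 0 (Nat.zero_le _)) (hA 0) (abs_nonneg _) hM)
  have h3 : M * (P N - P 0) ≤ M * (2 * A) :=
    mul_le_mul_of_nonneg_left (by linarith [(abs_le.1 (hA N)).2, (abs_le.1 (hA 0)).1]) hM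
  linarith

/-- Hypotheses on a convex Lipschitz function. -/
structure CL {E : Type*} [NormedAddCommGroup E] [NormedSpace ℝ E] (L : ℝ) (p : E → ℝ) : Prop where
  conv : ConvexOn ℝ univ p
  lip : ∀ a b, |p a - p b| ≤ L * ‖a - b‖

theorem CL.continuous {E : Type*} [NormedAddCommGroup E] [NormedSpace ℝ E] {L : ℝ} {p : E → ℝ}
    (h : CL L p) (hL : 0 ≤ L) : Continuous p :=
  (LipschitzWith.of_dist_le_mul (K := ⟨L, hL⟩) fun a b => by
    rw [Real.dist_eq, dist_eq_norm]; exact h.lip a b).continuous

theorem grid_bound {p q : ℝ → ℝ} {L c M h x : ℝ} (hp : CL L p) (hq : CL L q) (hh : 0 ≤ h) (N : ℕ)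
    (hM : ∀ k ≤ N, |p (x + k * h) - q (x + k * h) - c| ≤ M) :
    ∑ k ∈ Finset.range N, ((p (x + (k + 1 : ℕ) * h) - q (x + (k + 1 : ℕ) * h) - c)
      - (p (x + k * h) - q (x + k * h) - c)) ^ 2 ≤ 8 * L * h * M := by
  have mono : ∀ r : ℝ → ℝ, CL L r →
      Monotone fun k : ℕ => r (x + (k + 1 : ℕ) * h) - r (x + k * h) := by
    intro r hr
    refine monotone_nat_of_le_succ fun k => ?_
    have := hr.conv.2 (mem_univ (x + k * h)) (mem_univ (x + (k + 2 : ℕ) * h))
      (show (0 : ℝ) ≤ 1 / 2 by norm_num) (show (0 : ℝ) ≤ 1 / 2 by norm_num) (by norm_num)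
    rw [smul_eq_mul, smul_eq_mul, smul_eq_mul, smul_eq_mul,
      show (1 / 2 : ℝ) * (x + k * h) + 1 / 2 * (x + (k + 2 : ℕ) * h) = x + (k + 1 : ℕ) * h by
        push_cast; ring] at this
    rw [show k + 1 + 1 = k + 2 from rfl]
    linarith
  have bd : ∀ r : ℝ → ℝ, CL L r → ∀ k : ℕ,
      |r (x + (k + 1 : ℕ) * h) - r (x + k * h)| ≤ L * h := by
    intro r hr k
    refine (hr.lip _ _).trans_eq ?_
    rw [Real.norm_eq_abs, show x + (k + 1 : ℕ) * h - (x + k * h) = h by push_cast; ring,
      abs_of_nonneg hh]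
  set f : ℕ → ℝ := fun k => p (x + k * h) - q (x + k * h) - c with hf
  have h1 := sum_parts_le (mono p hp) (bd p hp) (f := f) N hM
  have h2 := sum_parts_le (mono q hq) (bd q hq) (f := fun k => -f k) N
    fun k hk => by rw [abs_neg]; exact hM k hk
  refine le_trans (le_of_eq ?_) ((add_le_add h1 h2).trans_eq (by ring))
  rw [← Finset.sum_add_distrib]
  exact Finset.sum_congr rfl fun k _ => by simp only [hf]; ring

theorem line_sup {p q : ℝ → ℝ} {L a b c M : ℝ} (hL : 0 ≤ L) (hp : CL L p) (hq : CL L q)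
    (hab : a < b) (hM : ∀ t ∈ Icc a b, |p t - q t - c| ≤ M) {g : ℝ → ℝ} (hg : Measurable g)
    (hd : ∀ᵐ t : ℝ, t ∈ Icc a b → HasDerivAt (fun t => p t - q t - c) (g t) t) :
    ∫ t in Icc a b, g t ^ 2 ≤ 8 * L * M ∧ ∫ t in Icc a b, g t ^ 2 ≤ 4 * L ^ 2 * (b - a) := by
  set f : ℝ → ℝ := fun t => p t - q t - c with hf
  have hfc : Continuous f := ((hp.continuous hL).sub (hq.continuous hL)).sub continuous_const
  set h : ℕ → ℝ := fun n => (b - a) / (n + 1) with hh
  have hh0 : ∀ n, 0 < h n := fun n => div_pos (by linarith) (by positivity)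
  set G : ℕ → ℝ → ℝ := fun n t => ((f (t + h n) - f t) / h n) ^ 2 with hG
  have hGc : ∀ n, Continuous (G n) := fun n => by fun_prop
  have hGb : ∀ n t, |G n t| ≤ 4 * L ^ 2 := by
    intro n t
    have h1 : |f (t + h n) - f t| ≤ 2 * L * h n := by
      have a1 := hp.lip (t + h n) t
      have a2 := hq.lip (t + h n) t
      rw [show t + h n - t = h n by ring, Real.norm_eq_abs, abs_of_pos (hh0 n)] at a1 a2
      rw [abs_le] at a1 a2 ⊢
      simp only [hf]
      constructor <;> linarith
    rw [abs_of_nonneg (sq_nonneg _)]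
    have h2 : |(f (t + h n) - f t) / h n| ≤ 2 * L := by
      rw [abs_div, abs_of_pos (hh0 n), div_le_iff₀ (hh0 n)]; exact h1
    calc ((f (t + h n) - f t) / h n) ^ 2 = |(f (t + h n) - f t) / h n| ^ 2 := (sq_abs _).symm
      _ ≤ (2 * L) ^ 2 := pow_le_pow_left₀ (abs_nonneg _) h2 2
      _ = _ := by ring
  have hbound : ∀ n : ℕ, ∫ t in Icc a (a + n * h n), G n t ≤ 8 * L * M := by
    intro n
    rw [integral_Icc_eq_integral_Ioc, ← intervalIntegral.integral_of_le
      (by have := hh0 n; have : (0:ℝ) ≤ n * h n := by positivity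
          linarith)]
    have hsum := intervalIntegral.sum_integral_adjacent_intervals (f := G n) (μ := volume)
      (a := fun k : ℕ => a + k * h n) (n := n) fun k _ => (hGc n).intervalIntegrable _ _
    simp only [Nat.cast_zero, zero_mul, add_zero] at hsum
    rw [← hsum]
    have hshift : ∀ k : ℕ, ∫ t in (a + k * h n)..(a + (k + 1 : ℕ) * h n), G n t
        = ∫ s in (0 : ℝ)..h n, G n (s + (a + k * h n)) := by
      intro k
      rw [intervalIntegral.integral_comp_add_right]
      congr 1 <;> push_cast <;> ring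
    have hi : ∀ k : ℕ, Continuous fun s => G n (s + (a + k * h n)) := fun k =>
      (hGc n).comp (by fun_prop)
    rw [Finset.sum_congr rfl fun k _ => hshift k, ← intervalIntegral.integral_finsetSum
      fun k _ => (hi k).intervalIntegrable _ _]
    refine (intervalIntegral.integral_mono_on (hh0 n).le
      ((continuous_finsetSum _ fun k _ => hi k).intervalIntegrable _ _)
      (continuous_const (y := 8 * L * M / h n) |>.intervalIntegrable _ _) ?_).trans_eq ?_
    · intro s hs
      have hmem : ∀ k ≤ n, (a + s) + (k : ℝ) * h n ∈ Icc a b := by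
        intro k hk
        have hk' : (k : ℝ) ≤ n := by exact_mod_cast hk
        have h1 : ((n : ℝ) + 1) * h n = b - a := by simp only [hh]; field_simp
        have h2 := mul_le_mul_of_nonneg_right hk' (hh0 n).le
        have h3 : (0 : ℝ) ≤ k * h n := by have := hh0 n; positivity
        exact ⟨by linarith [hs.1], by linarith [hs.2]⟩
      have key := grid_bound (x := a + s) (c := c) hp hq (hh0 n).le n fun k hk => hM _ (hmem k hk)
      have e : ∀ k : ℕ, G n (s + (a + k * h n))
          = ((f (a + s + (k + 1 : ℕ) * h n)) - f (a + s + k * h n)) ^ 2 / h n ^ 2 := by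
        intro k
        simp only [hG, div_pow]
        congr 4
        · push_cast; ring
        · ring
      simp only [e, ← Finset.sum_div]
      rw [div_le_div_iff₀ (pow_pos (hh0 n) 2) (hh0 n)]
      have := mul_le_mul_of_nonneg_right key (hh0 n).le
      simp only [hf] at this ⊢
      linarith
    · rw [intervalIntegral.integral_const, smul_eq_mul, sub_zero,
        mul_div_cancel₀ _ (hh0 n).ne']
  have hh_lim : Tendsto h atTop (𝓝[≠] 0) := by
    refine tendsto_nhdsWithin_iff.2 ⟨?_, .of_forall fun n => (hh0 n).ne'⟩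
    have := (tendsto_one_div_add_atTop_nhds_zero_nat (𝕜 := ℝ)).const_mul (b - a)
    rw [mul_zero] at this
    exact this.congr fun n => by simp only [hh]; ring
  have hab' : ∀ᵐ t : ℝ, t ≠ b := measure_eq_zero_iff_ae_notMem.1 (measure_singleton b)
  have hlim : Tendsto (fun n : ℕ => ∫ t in Icc a b, (Icc a (a + n * h n)).indicator (G n) t)
      atTop (𝓝 (∫ t in Icc a b, g t ^ 2)) := by
    refine tendsto_integral_of_dominated_convergence (fun _ => 4 * L ^ 2)
      (fun n => ((hGc n).measurable.indicator measurableSet_Icc).aestronglyMeasurable)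
      (continuous_const.integrableOn_Icc) (fun n => ae_of_all _ fun t => ?_) ?_
    · exact (norm_indicator_le_norm_self _ _).trans (by rw [Real.norm_eq_abs]; exact hGb n t)
    · filter_upwards [ae_restrict_mem measurableSet_Icc, ae_restrict_of_ae hd,
        ae_restrict_of_ae hab'] with t ht hdt htb
      have h1 := ((hasDerivAt_iff_tendsto_slope_zero.1 (hdt ht)).comp hh_lim).pow 2
      refine h1.congr' ?_
      have hlt : t < b := lt_of_le_of_ne ht.2 htb
      have hev : ∀ᶠ n : ℕ in atTop, h n < b - t :=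
        (tendsto_nhdsWithin_iff.1 hh_lim).1.eventually_lt_const (sub_pos.2 hlt)
      filter_upwards [hev] with n hn
      have e : a + n * h n = b - h n := by simp only [hh]; field_simp; ring
      rw [Set.indicator_of_mem (show t ∈ Icc a (a + n * h n) from ⟨ht.1, by linarith⟩)]
      simp only [hG, Function.comp_apply, smul_eq_mul]
      ring
  have hle : ∀ n : ℕ, ∫ t in Icc a b, (Icc a (a + n * h n)).indicator (G n) t
      = ∫ t in Icc a (a + n * h n), G n t := by
    intro n
    rw [setIntegral_indicator measurableSet_Icc, inter_eq_self_of_subset_right]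
    refine Icc_subset_Icc_right ?_
    have e : ((n : ℝ) + 1) * h n = b - a := by simp only [hh]; field_simp
    have := hh0 n
    linarith
  refine ⟨le_of_tendsto' hlim fun n => (hle n).trans_le (hbound n), le_of_tendsto' hlim fun n => ?_⟩
  have hvol : volume.real (Icc a b) = b - a := by
    rw [Measure.real, Real.volume_Icc, ENNReal.toReal_ofReal (by linarith)]
  refine (Real.le_norm_self _).trans ((norm_setIntegral_le_of_norm_le_const (C := 4 * L ^ 2)
    measure_Icc_lt_top fun t _ => ?_).trans_eq (by rw [hvol]))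
  exact (norm_indicator_le_norm_self _ _).trans (by rw [Real.norm_eq_abs]; exact hGb n t)

theorem le_cube {M l : ℝ} (hM : 0 ≤ M) (hl : 0 < l) : M ≤ M ^ 3 / l ^ 2 + l := by
  rcases le_total M l with h | h
  · have : 0 ≤ M ^ 3 / l ^ 2 := by positivity
    linarith
  · have : M ≤ M ^ 3 / l ^ 2 := by
      rw [le_div_iff₀ (by positivity)]
      calc M * l ^ 2 ≤ M * M ^ 2 := by gcongr
        _ = M ^ 3 := by ring
    linarith

/-- The one-dimensional inequality. -/
theorem line_bound {p q : ℝ → ℝ} {L : ℝ} (hL : 1 ≤ L) (hp : CL L p) (hq : CL L q) (a b c : ℝ)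
    {g : ℝ → ℝ} (hg : Measurable g)
    (hd : ∀ᵐ t : ℝ, t ∈ Icc a b → HasDerivAt (fun t => p t - q t - c) (g t) t)
    {l : ℝ} (hl : 0 < l) :
    ∫ t in Icc a b, g t ^ 2
      ≤ 200 * L ^ 2 * ((∫ t in Icc a b, (p t - q t - c) ^ 2) / l ^ 2 + l) := by
  have hL0 : 0 ≤ L := by linarith
  set f : ℝ → ℝ := fun t => p t - q t - c with hf
  have hfc : Continuous f := ((hp.continuous hL0).sub (hq.continuous hL0)).sub continuous_const
  have hF0 : 0 ≤ ∫ t in Icc a b, f t ^ 2 :=
    setIntegral_nonneg measurableSet_Icc fun t _ => sq_nonneg _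
  rcases le_or_gt b a with hba | hab
  · have h0 : volume (Icc a b) = 0 := by rw [Real.volume_Icc]; simp [hba]
    rw [setIntegral_measure_zero _ h0]
    positivity
  obtain ⟨t0, ht0, hmax⟩ := isCompact_Icc.exists_isMaxOn (nonempty_Icc.2 hab.le)
    hfc.abs.continuousOn
  set M := |f t0| with hMdef
  have hM0 : 0 ≤ M := abs_nonneg _
  obtain ⟨h1, h2⟩ := line_sup hL0 hp hq hab (fun t ht => hmax ht) hg hd
  -- a subinterval on which `|f| ≥ M / 2`
  set δ := min (M / (4 * L)) ((b - a) / 2) with hδ
  have hδ0 : 0 ≤ δ := le_min (by positivity) (by linarith)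
  have hδ1 : δ ≤ M / (4 * L) := min_le_left _ _
  have hδ2 : δ ≤ (b - a) / 2 := min_le_right _ _
  obtain ⟨u, hu, hsub⟩ : ∃ u, (∀ t ∈ Icc u (u + δ), |t - t0| ≤ δ) ∧ Icc u (u + δ) ⊆ Icc a b := by
    rcases le_total t0 ((a + b) / 2) with h | h
    · exact ⟨t0, fun t ht => abs_le.2 ⟨by linarith [ht.1], by linarith [ht.2]⟩,
        Icc_subset_Icc ht0.1 (by linarith)⟩
    · exact ⟨t0 - δ, fun t ht => abs_le.2 ⟨by linarith [ht.1], by linarith [ht.2]⟩,
        Icc_subset_Icc (by linarith) (by linarith [ht0.2])⟩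
  have hlow : δ * (M / 2) ^ 2 ≤ ∫ t in Icc a b, f t ^ 2 := by
    have hvol : volume.real (Icc u (u + δ)) = δ := by
      rw [Measure.real, Real.volume_Icc, ENNReal.toReal_ofReal (by linarith)]; ring
    calc δ * (M / 2) ^ 2 = ∫ t in Icc u (u + δ), (M / 2) ^ 2 := by
          rw [setIntegral_const, hvol, smul_eq_mul]
      _ ≤ ∫ t in Icc u (u + δ), f t ^ 2 := by
          refine setIntegral_mono_on continuous_const.integrableOn_Icc
            (hfc.pow 2).integrableOn_Icc measurableSet_Icc fun t ht => ?_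
          rw [← sq_abs (f t)]
          refine pow_le_pow_left₀ (by positivity) ?_ 2
          have a1 := hp.lip t t0
          have a2 := hq.lip t t0
          have a3 : L * ‖t - t0‖ ≤ L * (M / (4 * L)) :=
            mul_le_mul_of_nonneg_left ((Real.norm_eq_abs _).trans_le ((hu t ht).trans hδ1)) hL0
          have a4 : L * (M / (4 * L)) = M / 4 := by field_simp
          have a5 : |f t0| - |f t| ≤ |f t0 - f t| := abs_sub_abs_le_abs_sub _ _
          have a6 : |f t0 - f t| ≤ M / 2 := by
            rw [abs_le] at a1 a2 ⊢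
            simp only [hf]
            constructor <;> linarith
          linarith
      _ ≤ _ := setIntegral_mono_set (hfc.pow 2).integrableOn_Icc
          (ae_of_all _ fun t => sq_nonneg _) hsub.eventuallyLE
  set F := ∫ t in Icc a b, f t ^ 2 with hF
  have hFl : 0 ≤ F / l ^ 2 := by positivity
  have hLL : L ≤ L ^ 2 := le_self_pow₀ hL two_ne_zero
  have hL1 : (1 : ℝ) ≤ L ^ 2 := one_le_pow₀ hL
  rcases le_total (M / (4 * L)) ((b - a) / 2) with h | h
  · -- long interval
    rw [hδ, min_eq_left h] at hlow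
    have hM3 : M ^ 3 ≤ 16 * L * F := by
      have := mul_le_mul_of_nonneg_left hlow (show 0 ≤ 16 * L by linarith)
      have e : 16 * L * (M / (4 * L) * (M / 2) ^ 2) = M ^ 3 := by field_simp; ring
      linarith
    calc ∫ t in Icc a b, g t ^ 2 ≤ 8 * L * M := h1
      _ ≤ 8 * L * (16 * L * F / l ^ 2 + l) := by
          refine mul_le_mul_of_nonneg_left ((le_cube hM0 hl).trans ?_) (by linarith)
          gcongr
      _ = 128 * L ^ 2 * (F / l ^ 2) + 8 * L * l := by ring
      _ ≤ _ := by
          rw [mul_add]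
          refine add_le_add (mul_le_mul_of_nonneg_right (by linarith) hFl) ?_
          exact mul_le_mul_of_nonneg_right (by linarith) hl.le
  · -- short interval
    rw [hδ, min_eq_right h] at hlow
    have hl3 : (b - a) ^ 3 ≤ 2 * F := by
      have hb : b - a ≤ M / (2 * L) := by
        have : M / (4 * L) = M / (2 * L) / 2 := by ring
        linarith
      have hb' : b - a ≤ M / 2 := hb.trans (by
        rw [div_le_div_iff₀ (by linarith) two_pos]
        have := mul_le_mul_of_nonneg_left hL hM0
        linarith)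
      have := mul_le_mul_of_nonneg_left (pow_le_pow_left₀ (by linarith) hb' 2)
        (show 0 ≤ b - a by linarith)
      linarith
    calc ∫ t in Icc a b, g t ^ 2 ≤ 4 * L ^ 2 * (b - a) := h2
      _ ≤ 4 * L ^ 2 * (2 * F / l ^ 2 + l) := by
          refine mul_le_mul_of_nonneg_left ((le_cube (by linarith) hl).trans ?_) (by positivity)
          gcongr
      _ = 8 * L ^ 2 * (F / l ^ 2) + 4 * L ^ 2 * l := by ring
      _ ≤ _ := by
          rw [mul_add]
          refine add_le_add (mul_le_mul_of_nonneg_right (by linarith) hFl) ?_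
          exact mul_le_mul_of_nonneg_right (by linarith) hl.le

variable {n : ℕ}

/-- The point with `j`-th coordinate `p.1` and remaining coordinates `p.2`. -/
noncomputable def pt (j : Fin (n + 1)) (p : ℝ × (Fin n → ℝ)) : Sp (n + 1) :=
  WithLp.toLp 2 (Fin.insertNth j p.1 p.2)

theorem pt_line (j : Fin (n + 1)) (x' : Fin n → ℝ) (t : ℝ) :
    pt j (t, x') = pt j (0, x') + t • EuclideanSpace.single j (1 : ℝ) := by
  ext i
  rcases Fin.eq_self_or_eq_succAbove j i with rfl | ⟨k, rfl⟩
  · simp [pt]
  · simp [pt, Fin.succAbove_ne]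

theorem pt_measurePreserving (j : Fin (n + 1)) :
    MeasurePreserving (pt j) volume volume ∧ MeasurableEmbedding (pt j) := by
  have h1 := (volume_preserving_piFinSuccAbove (fun _ : Fin (n + 1) => ℝ) j).symm
  have h2 := PiLp.volume_preserving_toLp (Fin (n + 1))
  have e : pt j = (WithLp.toLp 2 : (Fin (n + 1) → ℝ) → Sp (n + 1)) ∘
      (MeasurableEquiv.piFinSuccAbove (fun _ : Fin (n + 1) => ℝ) j).symm := by
    funext p
    simp [pt, MeasurableEquiv.piFinSuccAbove, Fin.insertNthEquiv]
  rw [e]
  exact ⟨h2.comp h1, (MeasurableEquiv.toLp 2 (Fin (n + 1) → ℝ)).measurableEmbedding.comp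
    (MeasurableEquiv.measurableEmbedding _)⟩

theorem coord_bound {K : Set (Sp (n + 1))} (hK : IsCompact K) (hconv : Convex ℝ K) {R : ℝ}
    (hR : ∀ x ∈ K, ‖x‖ ≤ R) {L : ℝ} (hL : 1 ≤ L) {p q : Sp (n + 1) → ℝ} (hp : CL L p)
    (hq : CL L q) (c : ℝ) (j : Fin (n + 1)) {l : ℝ} (hl : 0 < l) :
    ∫ x in K, (fderiv ℝ p x (EuclideanSpace.single j 1) - fderiv ℝ q x (EuclideanSpace.single j 1))
        ^ 2
      ≤ 200 * L ^ 2 * ((∫ x in K, (p x - q x - c) ^ 2) / l ^ 2
          + l * volume.real (Icc (fun _ => -R) (fun _ => R) : Set (Fin n → ℝ))) := by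
  have hL0 : 0 ≤ L := by linarith
  set e : Sp (n + 1) := EuclideanSpace.single j 1 with he
  set D : Sp (n + 1) → ℝ := fun x => (fderiv ℝ p x e - fderiv ℝ q x e) ^ 2 with hD
  set F : Sp (n + 1) → ℝ := fun x => (p x - q x - c) ^ 2 with hF
  obtain ⟨hmp, hemb⟩ := pt_measurePreserving j
  have hlipp : LipschitzWith ⟨L, hL0⟩ p := LipschitzWith.of_dist_le_mul fun a b => by
    rw [Real.dist_eq, dist_eq_norm]; exact hp.lip a b
  have hlipq : LipschitzWith ⟨L, hL0⟩ q := LipschitzWith.of_dist_le_mul fun a b => by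
    rw [Real.dist_eq, dist_eq_norm]; exact hq.lip a b
  have hDm : Measurable D :=
    (((measurable_fderiv_apply_const ℝ p e).sub (measurable_fderiv_apply_const ℝ q e))).pow_const 2
  have hDb : ∀ x, |D x| ≤ (2 * L) ^ 2 := fun x => by
    have b1 : |fderiv ℝ p x e| ≤ L := by
      refine ((Real.norm_eq_abs _).symm.trans_le ((fderiv ℝ p x).le_opNorm e)).trans ?_
      rw [he, PiLp.norm_single, norm_one, mul_one]
      exact norm_fderiv_le_of_lipschitz ℝ hlipp
    have b2 : |fderiv ℝ q x e| ≤ L := by
      refine ((Real.norm_eq_abs _).symm.trans_le ((fderiv ℝ q x).le_opNorm e)).trans ?_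
      rw [he, PiLp.norm_single, norm_one, mul_one]
      exact norm_fderiv_le_of_lipschitz ℝ hlipq
    rw [abs_of_nonneg (sq_nonneg _)]
    rw [abs_le] at b1 b2
    exact sq_le_sq' (by linarith) (by linarith)
  have hFc : Continuous F :=
    (((hp.continuous hL0).sub (hq.continuous hL0)).sub continuous_const).pow 2
  have hDi : IntegrableOn D K := Integrable.mono' (g := fun _ => (2 * L) ^ 2)
    (continuous_const.continuousOn.integrableOn_compact hK) hDm.aestronglyMeasurable
    (ae_of_all _ fun x => by rw [Real.norm_eq_abs]; exact hDb x)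
  have hFi : IntegrableOn F K := hFc.continuousOn.integrableOn_compact hK
  have toLines : ∀ H : Sp (n + 1) → ℝ, IntegrableOn H K →
      Integrable (fun x' : Fin n → ℝ => ∫ t in (fun t => pt j (t, x')) ⁻¹' K, H (pt j (t, x'))) ∧
      ∫ x in K, H x = ∫ x' : Fin n → ℝ, ∫ t in (fun t => pt j (t, x')) ⁻¹' K, H (pt j (t, x')) := by
    intro H hH
    have hi : Integrable (fun z => K.indicator H (pt j z)) :=
      (hmp.integrable_comp_emb hemb).2 (hH.integrable_indicator hK.measurableSet)
    rw [Measure.volume_eq_prod] at hi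
    have hin : ∀ x', ∫ t, K.indicator H (pt j (t, x'))
        = ∫ t in (fun t => pt j (t, x')) ⁻¹' K, H (pt j (t, x')) := fun x' => by
      have hm : MeasurableSet ((fun t : ℝ => pt j (t, x')) ⁻¹' K) :=
        (hemb.measurable.comp (measurable_id.prodMk measurable_const)) hK.measurableSet
      rw [← integral_indicator hm]
      rfl
    refine ⟨hi.integral_prod_right.congr (ae_of_all _ hin), ?_⟩
    rw [← integral_indicator hK.measurableSet, ← hmp.integral_comp hemb, Measure.volume_eq_prod,
      integral_prod_symm _ hi]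
    exact integral_congr_ae (ae_of_all _ hin)
  obtain ⟨iD, eD⟩ := toLines D hDi
  obtain ⟨iF, eF⟩ := toLines F hFi
  set box : Set (Fin n → ℝ) := Icc (fun _ => -R) (fun _ => R) with hbox
  have hdiff : ∀ᵐ x' : Fin n → ℝ, ∀ᵐ t : ℝ,
      DifferentiableAt ℝ p (pt j (t, x')) ∧ DifferentiableAt ℝ q (pt j (t, x')) := by
    have h := hmp.quasiMeasurePreserving.ae
      ((hlipp.ae_differentiableAt (μ := (volume : Measure (Sp (n + 1))))).and
        hlipq.ae_differentiableAt)
    rw [Measure.volume_eq_prod] at h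
    exact Measure.ae_ae_of_ae_prod (Measure.measurePreserving_swap.quasiMeasurePreserving.ae h)
  have hrhs : ∫ x' : Fin n → ℝ, (200 * L ^ 2 *
        ((∫ t in (fun t => pt j (t, x')) ⁻¹' K, F (pt j (t, x'))) / l ^ 2
          + box.indicator (fun _ => l) x'))
      = 200 * L ^ 2 * ((∫ x in K, F x) / l ^ 2 + l * volume.real box) := by
    have h1 : Integrable (fun x' => box.indicator (fun _ => l) x') :=
      (continuous_const.continuousOn.integrableOn_compact isCompact_Icc).integrable_indicator
        measurableSet_Icc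
    rw [integral_const_mul, integral_add (iF.div_const _) h1, integral_div, ← eF,
      integral_indicator_const _ measurableSet_Icc, smul_eq_mul, mul_comm l]
  rw [eD, ← hrhs]
  refine integral_mono_ae iD (((iF.div_const _).add
    ((continuous_const.continuousOn.integrableOn_compact isCompact_Icc).integrable_indicator
      measurableSet_Icc)).const_mul _) ?_
  filter_upwards [hdiff] with x' hx'
  set ln : ℝ → Sp (n + 1) := fun t => pt j (t, x') with hln
  have hlne : ∀ t, ln t = pt j (0, x') + t • e := fun t => pt_line j x' t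
  have hlc : Continuous ln := by
    rw [show ln = fun t => pt j (0, x') + t • e from funext hlne]; fun_prop
  rcases (ln ⁻¹' K).eq_empty_or_nonempty with hempty | hne
  · simp only [hempty, Measure.restrict_empty, integral_zero_measure]
    have : 0 ≤ box.indicator (fun _ => l) x' := Set.indicator_nonneg (fun _ _ => hl.le) _
    positivity
  · obtain ⟨t1, ht1⟩ := hne
    have hin : x' ∈ box := by
      have hx := hR _ ht1
      refine ⟨fun k => ?_, fun k => ?_⟩ <;>
        have h := Slab.abs_coord_le hx (j.succAbove k) <;>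
        simp only [hln, pt, Fin.insertNth_apply_succAbove, abs_le] at h
      · exact h.1
      · exact h.2
    have hcv : Convex ℝ (ln ⁻¹' K) := by
      intro s hs t ht a b ha hb hab
      show ln _ ∈ K
      have : ln (a • s + b • t) = a • ln s + b • ln t := by
        rw [hlne, hlne s, hlne t, smul_add, smul_add, smul_smul, smul_smul, smul_eq_mul,
          smul_eq_mul, add_smul]
        have : a • pt j (0, x') + b • pt j (0, x') = pt j (0, x') := by rw [← add_smul, hab, one_smul]
        rw [add_add_add_comm, this]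
      rw [this]
      exact hconv hs ht ha hb hab
    have hbd : ∀ t ∈ ln ⁻¹' K, |t| ≤ R := fun t ht => by
      have h := Slab.abs_coord_le (hR _ ht) j
      simpa [hln, pt] using h
    have hcp : IsCompact (ln ⁻¹' K) := Metric.isCompact_of_isClosed_isBounded
      (hK.isClosed.preimage hlc) ((Metric.isBounded_Icc (-R) R).subset fun t ht => abs_le.1 (hbd t ht))
    rw [Set.indicator_of_mem hin]
    have hIcc := eq_Icc_of_connected_compact
      ⟨⟨t1, ht1⟩, hcv.isPreconnected⟩ hcp
    rw [hIcc]
    have hres : ∀ r : Sp (n + 1) → ℝ, CL L r → CL L fun t => r (ln t) := fun r hr =>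
      ⟨⟨convex_univ, fun s _ t _ a b ha hb hab => by
        have h := hr.conv.2 (mem_univ (ln s)) (mem_univ (ln t)) ha hb hab
        have : ln (a • s + b • t) = a • ln s + b • ln t := by
          rw [hlne, hlne s, hlne t, smul_add, smul_add, smul_smul, smul_smul, smul_eq_mul,
            smul_eq_mul, add_smul]
          have : a • pt j (0, x') + b • pt j (0, x') = pt j (0, x') := by
            rw [← add_smul, hab, one_smul]
          rw [add_add_add_comm, this]
        rw [← this] at h
        exact h⟩, fun s t => by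
        refine (hr.lip _ _).trans_eq ?_
        rw [hlne, hlne, add_sub_add_left_eq_sub, ← sub_smul, norm_smul, he, PiLp.norm_single,
          norm_one, mul_one]⟩
    refine line_bound hL (hres p hp) (hres q hq) _ _ c
      (g := fun t => fderiv ℝ p (ln t) e - fderiv ℝ q (ln t) e)
      (((measurable_fderiv_apply_const ℝ p e).comp hlc.measurable).sub
        ((measurable_fderiv_apply_const ℝ q e).comp hlc.measurable)) ?_ hl
    filter_upwards [hx'] with t ht _
    have hl' : HasDerivAt ln e t := by
      rw [show ln = fun t => pt j (0, x') + t • e from funext hlne]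
      simpa using ((hasDerivAt_id t).smul_const e).const_add (pt j (0, x'))
    exact ((ht.1.hasFDerivAt.comp_hasDerivAt t hl').sub
      (ht.2.hasFDerivAt.comp_hasDerivAt t hl')).sub_const c

/-- The gradient, defined through the Fréchet derivative. -/
noncomputable def grad {d : ℕ} (p : Sp d → ℝ) (x : Sp d) : Sp d :=
  (InnerProductSpace.toDual ℝ (Sp d)).symm (fderiv ℝ p x)

theorem inner_grad {d : ℕ} (p : Sp d → ℝ) (x v : Sp d) : ⟪grad p x, v⟫ = fderiv ℝ p x v :=
  InnerProductSpace.toDual_symm_apply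

/-- The interpolation inequality. -/
theorem interp {d : ℕ} {K : Set (Sp d)} (hK : IsCompact K) (hconv : Convex ℝ K) {R : ℝ}
    (hR : ∀ x ∈ K, ‖x‖ ≤ R) {L : ℝ} (hL : 1 ≤ L) :
    ∃ C : ℝ, 0 ≤ C ∧ ∀ p q : Sp d → ℝ, CL L p → CL L q → ∀ c l : ℝ, 0 < l →
      ∫ x in K, ‖grad p x - grad q x‖ ^ 2 ≤ C * ((∫ x in K, (p x - q x - c) ^ 2) / l ^ 2 + l) := by
  have key : ∀ p q : Sp d → ℝ, ∀ x, ‖grad p x - grad q x‖ ^ 2 = ∑ j,
      (fderiv ℝ p x (EuclideanSpace.single j 1) - fderiv ℝ q x (EuclideanSpace.single j 1)) ^ 2 := by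
    intro p q x
    rw [EuclideanSpace.norm_sq_eq]
    refine Finset.sum_congr rfl fun j _ => ?_
    rw [← inner_grad p, ← inner_grad q, EuclideanSpace.inner_single_right,
      EuclideanSpace.inner_single_right, one_mul, one_mul, Real.norm_eq_abs, sq_abs,
      PiLp.sub_apply]
    simp
  rcases d with _ | n
  · refine ⟨0, le_rfl, fun p q _ _ c l _ => ?_⟩
    simp [key]
  set B := volume.real (Icc (fun _ => -R) (fun _ => R) : Set (Fin n → ℝ)) with hB
  have hB0 : 0 ≤ B := measureReal_nonneg
  refine ⟨200 * L ^ 2 * (n + 1) * (1 + B), by positivity, fun p q hp hq c l hl => ?_⟩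
  have hL0 : 0 ≤ L := by linarith
  simp only [key]
  rw [integral_finsetSum]
  · refine (Finset.sum_le_sum fun j _ => coord_bound hK hconv hR hL hp hq c j hl).trans ?_
    rw [Finset.sum_const, Finset.card_univ, Fintype.card_fin, nsmul_eq_mul, ← hB]
    push_cast
    have hF : 0 ≤ (∫ x in K, (p x - q x - c) ^ 2) / l ^ 2 :=
      div_nonneg (setIntegral_nonneg hK.measurableSet fun x _ => sq_nonneg _) (by positivity)
    have h0 : 0 ≤ 200 * L ^ 2 * ((n : ℝ) + 1) := by positivity
    have := mul_le_mul_of_nonneg_left (show (∫ x in K, (p x - q x - c) ^ 2) / l ^ 2 + l * B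
        ≤ (1 + B) * ((∫ x in K, (p x - q x - c) ^ 2) / l ^ 2 + l) by
      linarith [mul_nonneg hB0 hF]) h0
    linarith
  · intro j _
    refine Integrable.mono' (g := fun _ => (2 * L) ^ 2)
      (continuous_const.continuousOn.integrableOn_compact hK)
      (((measurable_fderiv_apply_const ℝ p _).sub
        (measurable_fderiv_apply_const ℝ q _)).pow_const 2).aestronglyMeasurable
      (ae_of_all _ fun x => ?_)
    have hb : ∀ r, CL L r → |fderiv ℝ r x (EuclideanSpace.single j 1)| ≤ L := fun r hr => by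
      refine ((Real.norm_eq_abs _).symm.trans_le ((fderiv ℝ r x).le_opNorm _)).trans ?_
      rw [PiLp.norm_single, norm_one, mul_one]
      exact norm_fderiv_le_of_lipschitz ℝ (C := ⟨L, hL0⟩) (LipschitzWith.of_dist_le_mul fun a b => by
        rw [Real.dist_eq, dist_eq_norm]; exact hr.lip a b)
    have b1 := abs_le.1 (hb p hp)
    have b2 := abs_le.1 (hb q hq)
    rw [Real.norm_eq_abs, abs_of_nonneg (sq_nonneg _)]
    exact sq_le_sq' (by linarith) (by linarith)

end Vale.Agent.P074.GradBound
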