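import Mathlib
import Vale.Agent.P074.Slab

/-!
`L²`-Lipschitz stability of Kantorovich potentials with respect to moving atoms.
-/

open MeasureTheory Set
open scoped ENNReal NNReal RealInnerProductSpace

namespace Vale.Agent.P074.Lip

open Semi

set_option linter.unusedSectionVars false

variable {d : ℕ} {ι : Type*} [Fintype ι] [Nonempty ι]

/-- A convex body in the ball of radius `R` with masses summing to its volume. -/
structure Setting (K : Set (Sp d)) (R : ℝ) (M : ι → ℝ) : Prop where
  hK : IsCompact K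
  hconv : Convex ℝ K
  hint : (interior K).Nonempty
  hR0 : 0 ≤ R
  hR : ∀ x ∈ K, ‖x‖ ≤ R
  M_pos : ∀ i, 0 < M i
  hsum : ∑ i, M i = volume.real K

variable {K : Set (Sp d)} {R : ℝ} {M : ι → ℝ} {y z : ι → Sp d}

/-- The constant density. -/
def one (_ : Sp d) : ℝ := 1

theorem Setting.data (S : Setting K R M) : Data K (one : Sp d → ℝ) M :=
  ⟨S.hK, continuous_const, fun _ => zero_le_one, S.M_pos, by
    simp only [one]; rw [setIntegral_const, smul_eq_mul, mul_one, S.hsum]⟩

theorem Setting.data_add (S : Setting K R M) {g : Sp d → ℝ} (hg : Continuous g)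
    (hg2 : ∀ x, |g x| ≤ 1 / 2) (hg0 : ∫ x in K, g x = 0) :
    Data K (fun x => 1 + g x) M :=
  ⟨S.hK, continuous_const.add hg, fun x => by linarith [(abs_le.1 (hg2 x)).1], S.M_pos, by
    rw [integral_add (continuous_const.continuousOn.integrableOn_compact S.hK)
      (hg.continuousOn.integrableOn_compact S.hK), hg0, setIntegral_const, smul_eq_mul, mul_one,
      add_zero, S.hsum]⟩

/-- The `j`-th coordinate of the unnormalised barycentre of the `i`-th cell. -/
noncomputable def bary (K : Set (Sp d)) (w : Sp d → ℝ) (M : ι → ℝ) (y : ι → Sp d) (i : ι)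
    (j : Fin d) : ℝ :=
  ∫ x in cell K y (opt K w M y) i, w x * x j

theorem pair_eq_sum {w : Sp d → ℝ} (D : Data K w M) (y : ι → Sp d) (i : ι) (v : Sp d) :
    pair K w M y i v = ∑ j, bary K w M y i j * v j := by
  have hc := isCompact_cell D.hK y (opt K w M y) i
  have hw := D.hw
  simp only [pair, bary, ← integral_mul_const]
  rw [← integral_finsetSum _ fun j _ =>
    Continuous.continuousOn (by fun_prop) |>.integrableOn_compact hc]
  refine integral_congr_ae (ae_of_all _ fun x => ?_)
  simp only [PiLp.inner_apply, RCLike.inner_apply, conj_trivial, Finset.mul_sum]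
  exact Finset.sum_congr rfl fun j _ => by ring

theorem coord_sum (S : Setting K R M) (hy : Function.Injective y) {g : Sp d → ℝ}
    (hg : Continuous g) (hg2 : ∀ x, |g x| ≤ 1 / 2) (hg0 : ∫ x in K, g x = 0) (j : Fin d) :
    ∑ i, (bary K (fun x => 1 + g x) M y i j - bary K one M y i j) ^ 2 / M i
      ≤ 10 * R ^ 2 * ∫ x in K, g x ^ 2 := by
  have D := S.data
  have D' := S.data_add hg hg2 hg0
  set ψ := opt K (one : Sp d → ℝ) M y with hψ
  set ψ' := opt K (fun x => 1 + g x) M y with hψ'
  have hvol : ∀ i, volume.real (cell K y ψ i) = M i := fun i => by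
    rw [← mass_cell D hy (opt_spec D y) i]
    simp only [one]
    rw [setIntegral_const, smul_eq_mul, mul_one]
  have hac : Continuous fun x : Sp d => (R ^ 2 - x j ^ 2) / 2 := by fun_prop
  set X := fun i => bary K (fun x => 1 + g x) M y i j - bary K one M y i j with hX
  have hs : ∀ s : ℝ, 0 < s → s < 1 / 2 →
      s * ((1 / 4 - s / 2) * (∑ i, X i ^ 2 / M i) - 5 / 2 * R ^ 2 * ∫ x in K, g x ^ 2)
        - 2 * s ^ 2 * volume.real K * R ^ 2 ≤ 0 := by
    intro s hs0 hs
    set ψs : ι → ℝ := fun k => (1 - s) * ψ k + s * ψ' k with hψs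
    have h : ∀ i, _ := fun i => Slab.slab_ineq (isCompact_cell S.hK y ψ i)
      (isCompact_cell S.hK y ψ' i) (isCompact_cell S.hK y ψs i) j S.hR0
      (fun x hx => S.hR x hx.1) (fun x hx => S.hR x hx.1) (fun x hx => S.hR x hx.1) hg hg2 hs0 hs
      (fun a ha b hb => cell_interp S.hconv y ψ ψ' i hs0.le (by linarith) ha hb)
      (by rw [hvol]; exact S.M_pos i)
      (by rw [hvol]; exact mass_cell D' hy (opt_spec D' y) i)
    have hb : ∀ i, (∫ x in cell K y ψ' i, (1 + g x) * x j) - ∫ x in cell K y ψ i, x j = X i := by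
      intro i; simp only [hX, bary, one, one_mul, ← hψ']; rw [← hψ]
    simp only [hvol, hb] at h
    have hsum := Finset.sum_le_sum (s := Finset.univ) fun i _ => h i
    have hc : ∀ i, (1 / 4 - s / 2) * X i ^ 2 / M i = (1 / 4 - s / 2) * (X i ^ 2 / M i) :=
      fun i => by ring
    simp only [hc, Finset.sum_sub_distrib, Finset.sum_add_distrib, ← Finset.mul_sum,
      ← Finset.sum_mul] at hsum
    rw [← integral_eq_sum_cell S.hK hy ψs hac, ← integral_eq_sum_cell S.hK hy ψ hac,
      ← integral_eq_sum_cell S.hK hy ψ' hac,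
      ← integral_eq_sum_cell S.hK hy ψ' (F := fun x => g x ^ 2) (by fun_prop), S.hsum] at hsum
    linarith
  set T := ∑ i, X i ^ 2 / M i with hT
  set I := ∫ x in K, g x ^ 2 with hI
  have hT0 : 0 ≤ T := Finset.sum_nonneg fun i _ => div_nonneg (sq_nonneg _) (S.M_pos i).le
  suffices h4 : T / 4 ≤ 5 / 2 * R ^ 2 * I by linarith
  refine le_of_forall_pos_le_add fun η hη => ?_
  set L := T / 2 + 2 * volume.real K * R ^ 2 + 1 with hL
  have hL0 : 0 < L := by
    have : 0 ≤ volume.real K := measureReal_nonneg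
    positivity
  have hs1 : 0 < min (1 / 4) (η / L) := lt_min (by norm_num) (div_pos hη hL0)
  set s := min (1 / 4) (η / L) with hsdef
  have hsη : s * L ≤ η := (le_div_iff₀ hL0).1 (min_le_right _ _)
  have h1 := hs s hs1 (lt_of_le_of_lt (min_le_left _ _) (by norm_num))
  have h2 : (1 / 4 - s / 2) * T - 5 / 2 * R ^ 2 * I - 2 * s * volume.real K * R ^ 2 ≤ 0 := by
    by_contra hh
    have := mul_pos hs1 (not_le.1 hh)
    linarith
  have h3 : s * L = s * (T / 2) + 2 * s * volume.real K * R ^ 2 + s := by rw [hL]; ring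
  linarith

/-- Moving the density moves barycentres little. -/
theorem pair_sum_le (S : Setting K R M) (hy : Function.Injective y) {g : Sp d → ℝ}
    (hg : Continuous g) (hg2 : ∀ x, |g x| ≤ 1 / 2) (hg0 : ∫ x in K, g x = 0) (V : ι → Sp d)
    {l : ℝ} (hl : 0 < l) :
    ∑ i, pair K (fun x => 1 + g x) M y i (V i) - ∑ i, pair K one M y i (V i)
      ≤ 5 * d * R ^ 2 * (∫ x in K, g x ^ 2) / l + l / 2 * ∑ i, M i * ‖V i‖ ^ 2 := by
  simp only [pair_eq_sum S.data, pair_eq_sum (S.data_add hg hg2 hg0), ← Finset.sum_sub_distrib,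
    ← sub_mul]
  set X := fun i j => bary K (fun x => 1 + g x) M y i j - bary K one M y i j with hX
  calc ∑ i, ∑ j, X i j * V i j
      ≤ ∑ i, ∑ j, (X i j ^ 2 / M i / (2 * l) + l / 2 * (M i * V i j ^ 2)) := by
        refine Finset.sum_le_sum fun i _ => Finset.sum_le_sum fun j _ => ?_
        have hm := S.M_pos i
        rw [← sub_nonneg]
        have : X i j ^ 2 / M i / (2 * l) + l / 2 * (M i * V i j ^ 2) - X i j * V i j
            = (X i j - l * M i * V i j) ^ 2 / (2 * l * M i) := by field_simp; ring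
        rw [this]; positivity
    _ = (∑ j, ∑ i, X i j ^ 2 / M i) / (2 * l) + l / 2 * ∑ i, M i * ‖V i‖ ^ 2 := by
        simp only [Finset.sum_add_distrib, EuclideanSpace.norm_sq_eq, Real.norm_eq_abs, sq_abs,
          Finset.mul_sum, Finset.sum_div]
        rw [Finset.sum_comm (f := fun i j => X i j ^ 2 / M i / (2 * l))]
    _ ≤ _ := by
        refine add_le_add ?_ le_rfl
        rw [div_le_div_iff₀ (by positivity) hl]
        have := Finset.sum_le_sum (s := Finset.univ) fun j _ => coord_sum S hy hg hg2 hg0 j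
        rw [Finset.sum_const, Finset.card_univ, Fintype.card_fin, nsmul_eq_mul] at this
        have := mul_le_mul_of_nonneg_right this hl.le
        linarith

theorem pair_diff {w : Sp d → ℝ} (D : Data K w M) (x : ι → Sp d) (y y' V : ι → Sp d) (r : ℝ)
    (h : ∀ i, y' i - y i = r • V i) :
    ∑ i, pair K w M x i (y' i) - ∑ i, pair K w M x i (y i)
      = r * ∑ i, pair K w M x i (V i) := by
  simp only [pair_eq_sum D, ← Finset.sum_sub_distrib, Finset.mul_sum]
  refine Finset.sum_congr rfl fun i _ => Finset.sum_congr rfl fun j _ => ?_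
  have := congrArg (fun v : Sp d => v j) (h i)
  simp only [PiLp.sub_apply, PiLp.smul_apply, smul_eq_mul] at this
  rw [← mul_sub, this]; ring

theorem collision_finite (hy : Function.Injective y) (z : ι → Sp d) :
    {t : ℝ | ¬ Function.Injective fun i => y i + t • (z i - y i)}.Finite := by
  classical
  refine (Set.finite_iUnion (f := fun p : {p : ι × ι // p.1 ≠ p.2} =>
    {t : ℝ | y p.1.1 + t • (z p.1.1 - y p.1.1) = y p.1.2 + t • (z p.1.2 - y p.1.2)})
      fun p => Set.Subsingleton.finite ?_).subset ?_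
  · intro t ht t' ht'
    by_contra hne
    simp only [mem_ofPred_eq] at ht ht'
    have h1 : (t - t') • ((z p.1.1 - y p.1.1) - (z p.1.2 - y p.1.2)) = 0 := by
      rw [sub_smul, smul_sub, smul_sub]
      linear_combination (norm := module) ht - ht'
    have h2 := (smul_eq_zero.1 h1).resolve_left (sub_ne_zero.2 hne)
    rw [sub_eq_zero] at h2
    rw [h2] at ht
    exact hy.ne p.2 (add_right_cancel ht)
  · intro t ht
    simp only [mem_ofPred_eq, Function.Injective, not_forall] at ht
    obtain ⟨i, j, h, hne⟩ := ht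
    exact mem_iUnion.2 ⟨⟨(i, j), hne⟩, h⟩

/-- The path lemma. -/
theorem path_le (S : Setting K R M) (hy : Function.Injective y) (hz : Function.Injective z)
    {g : Sp d → ℝ} (hg : Continuous g) (hg2 : ∀ x, |g x| ≤ 1 / 2) (hg0 : ∫ x in K, g x = 0)
    {l : ℝ} (hl : 0 < l) :
    (mc K (fun x => 1 + g x) M z - mc K one M z) - (mc K (fun x => 1 + g x) M y - mc K one M y)
      ≤ 5 * d * R ^ 2 * (∫ x in K, g x ^ 2) / l + l / 2 * ∑ i, M i * ‖z i - y i‖ ^ 2 := by
  set B := 5 * d * R ^ 2 * (∫ x in K, g x ^ 2) / l + l / 2 * ∑ i, M i * ‖z i - y i‖ ^ 2 with hB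
  set V : ι → Sp d := fun i => z i - y i with hV
  set p : ℝ → ι → Sp d := fun t i => y i + t • V i with hp
  have D := S.data
  have D' := S.data_add hg hg2 hg0
  set w := fun x : Sp d => 1 + g x with hw
  set P := fun t => ∑ i, pair K one M (p t) i (V i) with hP
  set G := fun t => mc K w M (p t) - mc K one M (p t) with hG
  have hdiff : ∀ t t' : ℝ, ∀ i, p t' i - p t i = (t' - t) • V i := fun t t' i => by
    simp only [hp]; rw [sub_smul]; abel
  have hstep : ∀ t t', t ≤ t' → Function.Injective (p t) → Function.Injective (p t') →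
      (0 ≤ (t' - t) * (P t' - P t)) ∧ G t' - G t ≤ (t' - t) * B + (t' - t) * (P t' - P t) := by
    intro t t' htt ht ht'
    have a1 := pair_le_mc D ht (p t')
    have a2 := mc_eq_pair D ht
    have a3 := pair_diff D (p t) (p t) (p t') V _ (hdiff t t')
    have b1 := pair_le_mc D ht' (p t)
    have b2 := mc_eq_pair D ht'
    have b3 := pair_diff D (p t') (p t) (p t') V _ (hdiff t t')
    have c1 := pair_le_mc D' ht' (p t)
    have c2 := mc_eq_pair D' ht'
    have c3 := pair_diff D' (p t') (p t) (p t') V _ (hdiff t t')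
    have c4 := mul_le_mul_of_nonneg_left (pair_sum_le S ht' hg hg2 hg0 V hl) (sub_nonneg.2 htt)
    simp only [hP, hG, hB, hV, hw] at a1 a2 a3 b1 b2 b3 c1 c2 c3 c4 ⊢
    constructor <;> linarith
  have p0 : p 0 = y := by funext i; simp [hp]
  have p1 : p 1 = z := by funext i; simp [hp, hV]
  have key : ∀ N : ℕ, 0 < N → G 1 - G 0 ≤ B + 2 / N * (P 1 - P 0) := by
    intro N hN
    have hN' : (0 : ℝ) < N := by exact_mod_cast hN
    have hex : ∀ k : ℕ, ∃ t ∈ Ioo ((k : ℝ) / N) (((k : ℝ) + 1 / 2) / N),
        Function.Injective (p t) := by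
      intro k
      obtain ⟨t, ht, ht'⟩ := ((Set.Ioo_infinite (show (k : ℝ) / N < ((k : ℝ) + 1 / 2) / N by
        gcongr; linarith)).sdiff (collision_finite hy z)).nonempty
      exact ⟨t, ht, not_not.1 ht'⟩
    choose t ht hti using hex
    set τ : ℕ → ℝ := fun k => if k = 0 then 0 else if k = N then 1 else t k with hτ
    have hτi : ∀ k, Function.Injective (p (τ k)) := by
      intro k; simp only [hτ]; split_ifs
      · rwa [p0]
      · rwa [p1]
      · exact hti k
    have hτb : ∀ k ≤ N, (k : ℝ) / N ≤ τ k ∧ τ k ≤ ((k : ℝ) + 1 / 2) / N := by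
      intro k hk; simp only [hτ]
      split_ifs with h1 h2
      · subst h1; simp; positivity
      · subst h2; rw [div_self hN'.ne', le_div_iff₀ hN']; exact ⟨le_rfl, by linarith⟩
      · exact ⟨(ht k).1.le, (ht k).2.le⟩
    have hτmono : ∀ k < N, τ k < τ (k + 1) ∧ τ (k + 1) - τ k ≤ 2 / N := by
      intro k hk
      obtain ⟨h1, h2⟩ := hτb k hk.le
      obtain ⟨h3, h4⟩ := hτb (k + 1) hk
      push_cast at h3 h4
      have e1 : ((k : ℝ) + 1 / 2) / N < ((k : ℝ) + 1) / N := by gcongr; norm_num
      have e2 : ((k : ℝ) + 1 + 1 / 2) / N - (k : ℝ) / N = (3 / 2) / N := by ring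
      have e3 : (3 / 2 : ℝ) / N ≤ 2 / N := by gcongr; norm_num
      exact ⟨by linarith, by linarith⟩
    have hk' : ∀ k ∈ Finset.range N, G (τ (k + 1)) - G (τ k)
        ≤ (τ (k + 1) - τ k) * B + 2 / N * (P (τ (k + 1)) - P (τ k)) := by
      intro k hk
      obtain ⟨hlt, hle⟩ := hτmono k (Finset.mem_range.1 hk)
      obtain ⟨h1, h2⟩ := hstep _ _ hlt.le (hτi k) (hτi (k + 1))
      have h3 : 0 ≤ P (τ (k + 1)) - P (τ k) := nonneg_of_mul_nonneg_right h1 (by linarith)
      have h4 := mul_le_mul_of_nonneg_right hle h3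
      linarith
    have := Finset.sum_le_sum hk'
    rw [Finset.sum_range_sub (fun k => G (τ k)), Finset.sum_add_distrib, ← Finset.sum_mul,
      ← Finset.mul_sum, Finset.sum_range_sub τ, Finset.sum_range_sub (fun k => P (τ k))] at this
    have t0 : τ 0 = 0 := by simp [hτ]
    have tN : τ N = 1 := by simp [hτ, hN.ne']
    rw [t0, tN] at this
    linarith
  have e : G 1 - G 0 = (mc K w M z - mc K one M z) - (mc K w M y - mc K one M y) := by
    simp only [hG, p0, p1]
  rw [← e]
  refine le_of_forall_pos_le_add fun η hη => ?_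
  obtain ⟨N, hN⟩ := exists_nat_gt (2 * |P 1 - P 0| / η)
  have hN' : (0 : ℝ) < N := lt_of_le_of_lt (by positivity) hN
  refine (key N (by exact_mod_cast hN')).trans (add_le_add le_rfl ?_)
  rw [div_mul_eq_mul_div, div_le_iff₀ hN']
  rw [div_lt_iff₀ hη] at hN
  linarith [le_abs_self (P 1 - P 0)]

theorem phi_mid_le (y : ι → Sp d) (ψ ψ' : ι → ℝ) (x : Sp d) :
    phi y (fun i => (ψ i + ψ' i) / 2) x ≤ (phi y ψ x + phi y ψ' x) / 2 :=
  phi_le _ _ _ fun i => by linarith [le_phi y ψ x i, le_phi y ψ' x i]

/-- Potentials are unique up to constants. -/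
theorem phi_unique (S : Setting K R M) {ψ ψ' : ι → ℝ}
    (hψ : ∀ θ, Phi K one M y ψ ≤ Phi K one M y θ)
    (hψ' : ∀ θ, Phi K one M y ψ' ≤ Phi K one M y θ) :
    ∃ c, ∀ x ∈ K, phi y ψ x = phi y ψ' x + c := by
  have D := S.data
  set m : ι → ℝ := fun i => (ψ i + ψ' i) / 2 with hm
  set f : Sp d → ℝ := fun x => (phi y ψ x + phi y ψ' x) / 2 - phi y m x with hf
  have hfc : Continuous f := by
    have := continuous_phi_right y ψ
    have := continuous_phi_right y ψ'
    have := continuous_phi_right y m
    fun_prop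
  have hf0 : ∀ x, 0 ≤ f x := fun x => sub_nonneg.2 (phi_mid_le y ψ ψ' x)
  have hint : ∫ x in K, f x = 0 := by
    have h1 := hψ m
    have h2 := hψ' m
    have i1 : IntegrableOn (phi y ψ) K :=
      (continuous_phi_right y ψ).continuousOn.integrableOn_compact S.hK
    have i2 : IntegrableOn (phi y ψ') K :=
      (continuous_phi_right y ψ').continuousOn.integrableOn_compact S.hK
    have i3 : IntegrableOn (phi y m) K :=
      (continuous_phi_right y m).continuousOn.integrableOn_compact S.hK
    have i12 : IntegrableOn (fun x => phi y ψ x + phi y ψ' x) K := i1.add i2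
    have i4 : IntegrableOn (fun x => (phi y ψ x + phi y ψ' x) / 2) K := i12.div_const 2
    have e : ∫ x in K, f x = ((∫ x in K, phi y ψ x) + ∫ x in K, phi y ψ' x) / 2
        - ∫ x in K, phi y m x := by
      rw [integral_sub i4 i3, integral_div, integral_add i1 i2]
    have hs : ∑ i, M i * m i = (∑ i, M i * ψ i + ∑ i, M i * ψ' i) / 2 := by
      rw [← Finset.sum_add_distrib, Finset.sum_div]
      exact Finset.sum_congr rfl fun i _ => by simp only [hm]; ring
    have h0 : 0 ≤ ∫ x in K, f x := setIntegral_nonneg S.hK.measurableSet fun x _ => hf0 x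
    simp only [Phi, one, one_mul] at h1 h2
    linarith
  have hzero : EqOn f 0 (interior K) := by
    refine Measure.eqOn_open_of_ae_eq (μ := (volume : Measure (Sp d))) ?_ isOpen_interior hfc.continuousOn continuousOn_const
    refine ae_restrict_of_ae_restrict_of_subset interior_subset ?_
    exact (setIntegral_eq_zero_iff_of_nonneg_ae (ae_of_all _ hf0)
      (hfc.continuousOn.integrableOn_compact S.hK)).1 hint
  have hzK : ∀ x ∈ K, f x = 0 := fun x hx => by
    have hx' : x ∈ closure (interior K) := by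
      rw [S.hconv.closure_interior_eq_closure_of_nonempty_interior S.hint]
      exact subset_closure hx
    exact hzero.closure hfc continuous_const hx'
  set h : Sp d → ℝ := fun x => phi y ψ x - phi y ψ' x with hh
  have hhc : Continuous h := (continuous_phi_right y ψ).sub (continuous_phi_right y ψ')
  have hfin : (h '' K).Finite := by
    refine (Set.finite_range fun i => ψ' i - ψ i).subset ?_
    rintro _ ⟨x, hx, rfl⟩
    obtain ⟨i, hi⟩ := exists_phi_eq y m x
    have h1 := hzK x hx
    simp only [hf] at h1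
    rw [hi] at h1
    simp only [hm] at h1
    have a1 := le_phi y ψ x i
    have a2 := le_phi y ψ' x i
    exact ⟨i, by simp only [hh]; linarith⟩
  obtain ⟨x0, hx0⟩ := S.hint
  refine ⟨h x0, fun x hx => ?_⟩
  have hpre : IsPreconnected (h '' K) := S.hconv.isPreconnected.image _ hhc.continuousOn
  have : h x = h x0 := by
    by_contra hne
    rcases lt_or_gt_of_ne hne with hlt | hlt
    · exact (Set.Icc_infinite hlt) (hfin.subset (hpre.Icc_subset (mem_image_of_mem h hx)
        (mem_image_of_mem h (interior_subset hx0))))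
    · exact (Set.Icc_infinite hlt) (hfin.subset (hpre.Icc_subset
        (mem_image_of_mem h (interior_subset hx0)) (mem_image_of_mem h hx)))
  simp only [hh] at this ⊢
  linarith

/-- First variation of the value in the density. -/
theorem deriv_le (S : Setting K R M) (hy : Function.Injective y) (hz : Function.Injective z)
    {u : Sp d → ℝ} (hu : Continuous u) {B : ℝ} (huB : ∀ x, |u x| ≤ B) (hu0 : ∫ x in K, u x = 0)
    {l : ℝ} (hl : 0 < l) :
    (∫ x in K, u x * phi z (opt K one M z) x) - ∫ x in K, u x * phi y (opt K one M y) x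
      ≤ 5 * d * R ^ 2 * (∫ x in K, u x ^ 2) / l + l / 2 * ∑ i, M i * ‖z i - y i‖ ^ 2 := by
  have D := S.data
  have hB : 0 ≤ B := (abs_nonneg _).trans (huB 0)
  set ε : ℕ → ℝ := fun n => 1 / (2 * (B + 1) * ((n : ℝ) + 1)) with hε
  have hε0 : ∀ n, 0 < ε n := fun n => by positivity
  have hεu : ∀ n x, |ε n * u x| ≤ 1 / 2 := fun n x => by
    rw [abs_mul, abs_of_pos (hε0 n)]
    refine (mul_le_mul_of_nonneg_left (huB x) (hε0 n).le).trans ?_
    simp only [hε]
    rw [div_mul_eq_mul_div, one_mul, div_le_iff₀ (by positivity)]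
    have : 0 ≤ (B + 1) * (n : ℝ) := by positivity
    linarith
  have hmean : ∀ n, ∫ x in K, ε n * u x = 0 := fun n => by
    rw [integral_const_mul, hu0, mul_zero]
  set w : ℕ → Sp d → ℝ := fun n x => 1 + ε n * u x with hw
  have Dn : ∀ n, Data K (w n) M := fun n => S.data_add (hu.const_mul _) (hεu n) (hmean n)
  have hU : ∀ x' : ι → Sp d, Continuous fun θ : ι → ℝ => ∫ x in K, u x * phi x' θ x := fun x' =>
    continuous_parametric_integral_of_continuous
      ((hu.comp continuous_snd).mul (continuous_phi x')) S.hK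
  have hPhi : ∀ (n : ℕ) (x' : ι → Sp d) (θ : ι → ℝ),
      Phi K (w n) M x' θ = Phi K one M x' θ + ε n * ∫ x in K, u x * phi x' θ x := by
    intro n x' θ
    have i1 : IntegrableOn (phi x' θ) K :=
      (continuous_phi_right x' θ).continuousOn.integrableOn_compact S.hK
    have i2 : IntegrableOn (fun x => ε n * (u x * phi x' θ x)) K :=
      ((hu.mul (continuous_phi_right x' θ)).const_mul _).continuousOn.integrableOn_compact S.hK
    simp only [Phi, hw, one, one_mul, ← integral_const_mul]
    rw [add_assoc, ← integral_add i1 i2]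
    congr 1
    exact integral_congr_ae (ae_of_all _ fun x => by ring)
  obtain ⟨Sb, hS0, hS⟩ := exists_bound D z
  have hbox : ∀ n, ∃ θ ∈ box M (2 * Sb * ∑ i, M i),
      Phi K (w n) M z θ ≤ mc K (w n) M z := fun n =>
    exists_in_box (Dn n) z hS0 hS _
  choose θ hθbox hθ using hbox
  obtain ⟨θ', -, φs, hφs, hlim⟩ := (isCompact_Icc (a := (0 : ι → ℝ))
    (b := fun i => 2 * Sb * (∑ i, M i) / M i)).tendsto_subseq hθbox
  have hεlim : Filter.Tendsto (fun n => ε (φs n)) Filter.atTop (nhds 0) := by
    suffices h : Filter.Tendsto ε Filter.atTop (nhds 0) from h.comp hφs.tendsto_atTop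
    have h := (tendsto_one_div_add_atTop_nhds_zero_nat (𝕜 := ℝ)).const_mul (1 / (2 * (B + 1)))
    rw [mul_zero] at h
    refine h.congr fun n => ?_
    simp only [hε]; field_simp
  have hmin : ∀ η, Phi K one M z θ' ≤ Phi K one M z η := by
    intro η
    have h1 : Filter.Tendsto (fun n => Phi K one M z (θ (φs n))
        + ε (φs n) * ∫ x in K, u x * phi z (θ (φs n)) x) Filter.atTop
        (nhds (Phi K one M z θ')) := by
      have a := ((continuous_Phi D z).tendsto θ').comp hlim
      have b := hεlim.mul (((hU z).tendsto θ').comp hlim)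
      simpa using a.add b
    have h2 : Filter.Tendsto (fun n => Phi K one M z η
        + ε (φs n) * ∫ x in K, u x * phi z η x) Filter.atTop (nhds (Phi K one M z η)) := by
      simpa using (hεlim.mul_const (∫ x in K, u x * phi z η x)).const_add (Phi K one M z η)
    refine le_of_tendsto_of_tendsto' h1 h2 fun n => ?_
    rw [← hPhi, ← hPhi]
    exact (hθ _).trans (opt_spec (Dn _) z η)
  obtain ⟨c, hc⟩ := phi_unique S hmin (opt_spec D z)
  have hval : ∫ x in K, u x * phi z θ' x = ∫ x in K, u x * phi z (opt K one M z) x := by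
    rw [setIntegral_congr_fun S.hK.measurableSet
      (g := fun x => u x * phi z (opt K one M z) x + c * u x)
      fun x hx => by simp only [hc x hx]; ring]
    have j1 : IntegrableOn (fun x => u x * phi z (opt K one M z) x) K :=
      (hu.mul (continuous_phi_right z _)).continuousOn.integrableOn_compact S.hK
    have j2 : IntegrableOn (fun x => c * u x) K :=
      (hu.const_mul c).continuousOn.integrableOn_compact S.hK
    rw [integral_add j1 j2, integral_const_mul, hu0, mul_zero, add_zero]
  rw [← hval]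
  refine le_of_tendsto' ((((hU z).tendsto θ').comp hlim).sub_const _) fun n => ?_
  set k := φs n
  have e1 : Phi K (w k) M z (θ k) ≤ mc K (w k) M z := hθ k
  rw [hPhi] at e1
  have e2 := mc_le (Dn k) y (opt K one M y)
  rw [hPhi] at e2
  have e3 : mc K one M z ≤ Phi K one M z (θ k) := mc_le D z _
  have e4 : mc K one M y = Phi K one M y (opt K one M y) := rfl
  have e5 := path_le S hy hz (hu.const_mul (ε k)) (hεu k) (hmean k) (mul_pos (hε0 k) hl)
  have e6 : ∫ x in K, (ε k * u x) ^ 2 = ε k ^ 2 * ∫ x in K, u x ^ 2 := by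
    rw [← integral_const_mul]
    exact integral_congr_ae (ae_of_all _ fun x => by ring)
  rw [e6] at e5
  refine le_of_mul_le_mul_left ?_ (hε0 k)
  have e7 : ε k * (5 * d * R ^ 2 * (∫ x in K, u x ^ 2) / l
      + l / 2 * ∑ i, M i * ‖z i - y i‖ ^ 2)
      = 5 * d * R ^ 2 * (ε k ^ 2 * ∫ x in K, u x ^ 2) / (ε k * l)
        + ε k * l / 2 * ∑ i, M i * ‖z i - y i‖ ^ 2 := by
    have := (hε0 k).ne'
    field_simp
  simp only [Function.comp_apply]
  simp only [hw] at e1 e2
  linarith

/-- `L²` stability of potentials. -/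
theorem potential_stability (S : Setting K R M) (hy : Function.Injective y)
    (hz : Function.Injective z) {c : ℝ}
    (hc : ∫ x in K, (phi z (opt K one M z) x - phi y (opt K one M y) x - c) = 0) :
    ∫ x in K, (phi z (opt K one M z) x - phi y (opt K one M y) x - c) ^ 2
      ≤ 10 * d * R ^ 2 * ∑ i, M i * ‖z i - y i‖ ^ 2 := by
  set ψz := opt K (one : Sp d → ℝ) M z with hψz
  set ψy := opt K (one : Sp d → ℝ) M y with hψy
  set f := fun x => phi z ψz x - phi y ψy x - c with hf
  have hfc : Continuous f :=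
    ((continuous_phi_right z ψz).sub (continuous_phi_right y ψy)).sub continuous_const
  obtain ⟨B, hB⟩ := S.hK.exists_bound_of_continuousOn hfc.continuousOn
  set B' := max B 0 with hB'
  set u := fun x => max (-B') (min B' (f x)) with hu
  have huc : Continuous u := continuous_const.max (continuous_const.min hfc)
  have huB : ∀ x, |u x| ≤ B' := fun x => abs_le.2 ⟨le_max_left _ _,
    max_le (by linarith [le_max_right B 0]) (min_le_left _ _)⟩
  have hueq : ∀ x ∈ K, u x = f x := fun x hx => by
    have h := abs_le.1 ((Real.norm_eq_abs _ ▸ hB x hx).trans (le_max_left B 0))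
    simp only [hu]
    rw [min_eq_right h.2, max_eq_right h.1]
  have hcongr : ∀ F : ℝ → Sp d → ℝ, ∫ x in K, F (u x) x = ∫ x in K, F (f x) x := fun F =>
    setIntegral_congr_fun S.hK.measurableSet fun x hx => by simp only [hueq x hx]
  have hu0 : ∫ x in K, u x = 0 := (hcongr fun a _ => a).trans hc
  set W := ∑ i, M i * ‖z i - y i‖ ^ 2 with hW
  have hW0 : 0 ≤ W := Finset.sum_nonneg fun i _ => mul_nonneg (S.M_pos i).le (sq_nonneg _)
  set I := ∫ x in K, f x ^ 2 with hI
  have main : ∀ l, 0 < l → I ≤ 5 * d * R ^ 2 * I / l + l / 2 * W := by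
    intro l hl
    refine le_trans (le_of_eq ?_) ((deriv_le S hy hz huc huB hu0 hl).trans_eq
      (by rw [hcongr fun a _ => a ^ 2]))
    have j1 : IntegrableOn (fun x => f x * phi z ψz x) K :=
      (hfc.mul (continuous_phi_right z ψz)).continuousOn.integrableOn_compact S.hK
    have j2 : IntegrableOn (fun x => f x * phi y ψy x) K :=
      (hfc.mul (continuous_phi_right y ψy)).continuousOn.integrableOn_compact S.hK
    have j3 : IntegrableOn (fun x => f x ^ 2) K := (hfc.pow 2).continuousOn.integrableOn_compact S.hK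
    have j4 : IntegrableOn (fun x => c * f x) K :=
      (hfc.const_mul c).continuousOn.integrableOn_compact S.hK
    rw [hcongr fun a x => a * phi z ψz x, hcongr fun a x => a * phi y ψy x, ← integral_sub j1 j2]
    have h0 : ∫ x in K, c * f x = 0 := by rw [integral_const_mul, hc, mul_zero]
    rw [hI, ← add_zero (∫ x in K, f x ^ 2), ← h0,
      ← integral_add j3 j4]
    refine integral_congr_ae (ae_of_all _ fun x => ?_)
    simp only [hf]; ring
  by_cases h0 : 10 * (d : ℝ) * R ^ 2 = 0
  · have h5 : 5 * (d : ℝ) * R ^ 2 = 0 := by linarith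
    rw [h0, zero_mul]
    refine le_of_forall_pos_le_add fun η hη => ?_
    have hl : 0 < 2 * η / (W + 1) := by positivity
    have h6 := main _ hl
    rw [h5, zero_mul, zero_div, zero_add] at h6
    have h7 : 2 * η / (W + 1) / 2 * W ≤ η := by
      rw [div_mul_eq_mul_div, div_le_iff₀ two_pos, div_mul_eq_mul_div,
        div_le_iff₀ (by linarith)]
      linarith
    linarith
  · have hl : 0 < 10 * (d : ℝ) * R ^ 2 := lt_of_le_of_ne (by positivity) (Ne.symm h0)
    have := main _ hl
    have e : 5 * (d : ℝ) * R ^ 2 * I / (10 * d * R ^ 2) = I / 2 := by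
      rw [div_eq_iff hl.ne']; ring
    rw [e] at this
    linarith

end Vale.Agent.P074.Lip
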