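import Mathlib
import Vale.Agent.P074.Defs
import Vale.Agent.P074.Lip
import Vale.Agent.P074.GradBound

/-!
Passing to general targets: `1/3` is an admissible exponent, and optimal maps exist.
-/

open MeasureTheory Set Filter
open scoped ENNReal NNReal RealInnerProductSpace Topology BoundedContinuousFunction

namespace Vale.Agent.P074.Limit

open GradBound

variable {d : ℕ}

/-! ### Convex functions and their gradients -/

theorem fderiv_le_of_convex {p : Sp d → ℝ} (hp : ConvexOn ℝ univ p) {x : Sp d}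
    (hx : DifferentiableAt ℝ p x) (x' : Sp d) : p x + ⟪grad p x, x' - x⟫ ≤ p x' := by
  set v := x' - x with hv
  set h : ℝ → ℝ := fun t => p (x + t • v) with hh
  have hconv : ConvexOn ℝ univ h := by
    refine ⟨convex_univ, fun s _ t _ a b ha hb hab => ?_⟩
    have := hp.2 (mem_univ (x + s • v)) (mem_univ (x + t • v)) ha hb hab
    have e : a • (x + s • v) + b • (x + t • v) = x + (a • s + b • t) • v := by
      rw [smul_eq_mul, smul_eq_mul, add_smul, mul_smul, mul_smul, smul_add, smul_add,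
        add_add_add_comm, ← add_smul, hab, one_smul]
    rw [e] at this
    exact this
  have hd : HasDerivAt h (fderiv ℝ p x v) 0 := by
    have hl : HasDerivAt (fun t : ℝ => x + t • v) v 0 := by
      simpa using ((hasDerivAt_id (0 : ℝ)).smul_const v).const_add x
    have hx' : HasFDerivAt p (fderiv ℝ p x) (x + (0 : ℝ) • v) := by
      simpa using hx.hasFDerivAt
    exact hx'.comp_hasDerivAt 0 hl
  have h1 := hconv.le_slope_of_hasDerivAt (mem_univ 0) (mem_univ 1) zero_lt_one hd
  rw [slope_def_field] at h1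
  simp only [hh, one_smul, zero_smul, add_zero, hv, add_sub_cancel, sub_zero, div_one] at h1
  rw [GradBound.inner_grad]
  linarith

theorem grad_eq_of_min {p : Sp d → ℝ} {x g : Sp d} (hx : DifferentiableAt ℝ p x)
    (h : IsLocalMin (fun x' => p x' - ⟪g, x'⟫) x) : grad p x = g := by
  have h1 : HasFDerivAt (fun x' => p x' - ⟪g, x'⟫) (fderiv ℝ p x - innerSL ℝ g) x :=
    hx.hasFDerivAt.sub ((innerSL ℝ g).hasFDerivAt)
  have h2 := sub_eq_zero.1 (h.hasFDerivAt_eq_zero h1)
  refine ext_inner_right ℝ fun v => ?_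
  rw [inner_grad, h2]
  rfl

theorem measurable_grad (p : Sp d → ℝ) : Measurable (grad p) :=
  (InnerProductSpace.toDual ℝ (Sp d)).symm.continuous.measurable.comp (measurable_fderiv ℝ p)

theorem CL_lipschitz {L : ℝ} (hL : 0 ≤ L) {p : Sp d → ℝ} (hp : CL L p) :
    LipschitzWith ⟨L, hL⟩ p :=
  LipschitzWith.of_dist_le_mul fun a b => by rw [Real.dist_eq, dist_eq_norm]; exact hp.lip a b

theorem norm_grad_le {L : ℝ} (hL : 0 ≤ L) {p : Sp d → ℝ} (hp : CL L p) (x : Sp d) :
    ‖grad p x‖ ≤ L := by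
  rw [grad, LinearIsometryEquiv.norm_map]
  exact norm_fderiv_le_of_lipschitz ℝ (CL_lipschitz hL hp)

theorem ae_diff {L : ℝ} (hL : 0 ≤ L) {p : Sp d → ℝ} (hp : CL L p) :
    ∀ᵐ x : Sp d, DifferentiableAt ℝ p x :=
  (CL_lipschitz hL hp).ae_differentiableAt

/-- Gradients converge where the limit is differentiable. -/
theorem grad_tendsto {L : ℝ} (hL : 0 ≤ L) {p : ℕ → Sp d → ℝ} {g : Sp d → ℝ}
    (hp : ∀ n, CL L (p n)) (hlim : ∀ z, Tendsto (fun n => p n z) atTop (𝓝 (g z))) {x : Sp d}
    (hx : ∀ n, DifferentiableAt ℝ (p n) x) (hg : DifferentiableAt ℝ g x) :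
    Tendsto (fun n => grad (p n) x) atTop (𝓝 (grad g x)) := by
  refine tendsto_of_subseq_tendsto fun ns hns => ?_
  obtain ⟨a, -, σ, hσ, ha⟩ := (isCompact_closedBall (0 : Sp d) L).tendsto_subseq
    fun n => mem_closedBall_zero_iff.2 (norm_grad_le hL (hp (ns n)) x)
  refine ⟨σ, ?_⟩
  have hsub : ∀ z, g x + ⟪a, z - x⟫ ≤ g z := by
    intro z
    have h2 : Tendsto (fun n => ns (σ n)) atTop atTop := hns.comp hσ.tendsto_atTop
    refine le_of_tendsto_of_tendsto' (((hlim x).comp h2).add (ha.inner tendsto_const_nhds))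
      ((hlim z).comp h2) fun n => ?_
    exact fderiv_le_of_convex (hp _).conv (hx _) z
  have hga : grad g x = a := grad_eq_of_min hg (Filter.Eventually.of_forall fun z => by
    have := hsub z
    rw [inner_sub_right] at this
    linarith)
  rw [hga]
  exact ha

/-- A subsequence of bounded equi-Lipschitz convex functions converges pointwise. -/
theorem exists_subseq_lim {L A : ℝ} {p : ℕ → Sp d → ℝ} (hp : ∀ n, CL L (p n))
    (hb : ∀ n x, |p n x| ≤ L * ‖x‖ + A) :
    ∃ σ : ℕ → ℕ, StrictMono σ ∧ ∃ g : Sp d → ℝ, CL L g ∧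
      ∀ x, Tendsto (fun n => p (σ n) x) atTop (𝓝 (g x)) := by
  set e := TopologicalSpace.denseSeq (Sp d) with he
  have hk : IsCompact (univ.pi fun k : ℕ =>
      Icc (-(L * ‖e k‖ + A)) (L * ‖e k‖ + A)) :=
    isCompact_univ_pi fun k => isCompact_Icc
  obtain ⟨v, -, σ, hσ, hv⟩ := hk.tendsto_subseq (x := fun n k => p n (e k))
    fun n k _ => abs_le.1 (hb n (e k))
  have hek : ∀ k, CauchySeq fun n => p (σ n) (e k) := fun k =>
    ((tendsto_pi_nhds.1 hv k)).cauchySeq
  have hall : ∀ x, ∃ l, Tendsto (fun n => p (σ n) x) atTop (𝓝 l) := by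
    intro x
    refine cauchySeq_tendsto_of_complete (Metric.cauchySeq_iff.2 fun ε hε => ?_)
    obtain ⟨k, hk'⟩ : ∃ k, dist x (e k) < ε / (3 * (|L| + 1)) :=
      (TopologicalSpace.denseRange_denseSeq (Sp d)).exists_dist_lt x (by positivity)
    obtain ⟨N, hN⟩ := Metric.cauchySeq_iff.1 (hek k) (ε / 3) (by linarith)
    refine ⟨N, fun m hm n hn => ?_⟩
    have h0 := hN m hm n hn
    have hx : ∀ j, |p j x - p j (e k)| ≤ ε / 3 := by
      intro j
      refine ((hp j).lip _ _).trans ?_
      rw [← dist_eq_norm]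
      have h1 : L * dist x (e k) ≤ (|L| + 1) * dist x (e k) :=
        mul_le_mul_of_nonneg_right (by linarith [le_abs_self L]) dist_nonneg
      refine h1.trans ((mul_le_mul_of_nonneg_left hk'.le (by positivity)).trans_eq ?_)
      field_simp
    rw [Real.dist_eq] at h0 ⊢
    have a1 := abs_le.1 (hx (σ m))
    have a2 := abs_le.1 (hx (σ n))
    rw [abs_lt] at h0 ⊢
    constructor <;> linarith
  choose g hg using hall
  refine ⟨σ, hσ, g, ⟨⟨convex_univ, fun a _ b _ s t hs ht hst => ?_⟩, fun a b => ?_⟩, hg⟩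
  · refine le_of_tendsto_of_tendsto' (hg _) (((hg a).const_mul s).add ((hg b).const_mul t))
      fun n => ?_
    exact (hp _).conv.2 (mem_univ a) (mem_univ b) hs ht hst
  · exact le_of_tendsto' ((hg a).sub (hg b)).abs fun n => (hp _).lip a b

/-! ### Semi-discrete potentials -/

theorem phi_CL {ι : Type*} [Fintype ι] [Nonempty ι] {L : ℝ} (y : ι → Sp d)
    (hy : ∀ i, ‖y i‖ ≤ L) (ψ : ι → ℝ) : CL L (Semi.phi y ψ) := by
  refine ⟨⟨convex_univ, fun a _ b _ s t hs ht hst => ?_⟩, fun a b => ?_⟩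
  · refine Semi.phi_le _ _ _ fun i => ?_
    rw [inner_add_left, real_inner_smul_left, real_inner_smul_left, smul_eq_mul, smul_eq_mul]
    have h1 := mul_le_mul_of_nonneg_left (Semi.le_phi y ψ a i) hs
    have h2 := mul_le_mul_of_nonneg_left (Semi.le_phi y ψ b i) ht
    linear_combination h1 + h2 + (ψ i) * hst
  · have key : ∀ a b, Semi.phi y ψ a - Semi.phi y ψ b ≤ L * ‖a - b‖ := by
      intro a b
      obtain ⟨i, hi⟩ := Semi.exists_phi_eq y ψ a
      have h1 := Semi.le_phi y ψ b i
      have h2 : ⟪a - b, y i⟫ ≤ L * ‖a - b‖ := (real_inner_le_norm _ _).trans (by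
        rw [mul_comm]; exact mul_le_mul_of_nonneg_right (hy i) (norm_nonneg _))
      rw [inner_sub_left] at h2
      linarith
    have h1 := key a b
    have h2 := key b a
    rw [norm_sub_rev] at h2
    exact abs_le.2 ⟨by linarith, h1⟩

theorem integral_cells {ι : Type*} [Fintype ι] [Nonempty ι] {K : Set (Sp d)} {R : ℝ}
    {M : ι → ℝ} (S : Lip.Setting K R M) {y : ι → Sp d} (hy : Function.Injective y) {L : ℝ}
    (hL : 0 ≤ L) (hyL : ∀ i, ‖y i‖ ≤ L) (a : ℝ) {F : Sp d → ℝ} (hF : Continuous F) :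
    ∫ x in K, F (grad (Semi.phi y fun i => Semi.opt K Lip.one M y i + a) x) = ∑ i, M i * F (y i) := by
  set ψ := Semi.opt K (Lip.one : Sp d → ℝ) M y with hψ
  set P := Semi.phi y fun i => ψ i + a with hP
  have hPcl : CL L P := phi_CL y hyL _
  obtain ⟨B, hB⟩ := (isCompact_closedBall (0 : Sp d) L).exists_bound_of_continuousOn hF.continuousOn
  have hint : IntegrableOn (fun x => F (grad P x)) K :=
    Integrable.mono' (g := fun _ => B) (continuous_const.continuousOn.integrableOn_compact S.hK)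
      (hF.measurable.comp (measurable_grad P)).aestronglyMeasurable
      (ae_of_all _ fun x => hB _ (mem_closedBall_zero_iff.2 (norm_grad_le hL hPcl x)))
  calc ∫ x in K, F (grad P x) = ∫ x in ⋃ i, Semi.cell K y ψ i, F (grad P x) := by
        rw [Semi.iUnion_cell]
    _ = ∑ i, ∫ x in Semi.cell K y ψ i, F (grad P x) := by
        rw [integral_iUnion_ae
          (fun i => (Semi.isCompact_cell S.hK y ψ i).measurableSet.nullMeasurableSet)
          (Semi.aedisjoint_cell K hy ψ) (by rwa [Semi.iUnion_cell]), tsum_fintype]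
    _ = ∑ i, M i * F (y i) := by
        refine Finset.sum_congr rfl fun i _ => ?_
        have hm : volume.real (Semi.cell K y ψ i) = M i := by
          rw [← Semi.mass_cell S.data hy (Semi.opt_spec S.data y) i]
          simp only [Lip.one]
          rw [setIntegral_const, smul_eq_mul, mul_one]
        rw [← hm, ← smul_eq_mul, ← setIntegral_const]
        refine setIntegral_congr_ae (Semi.isCompact_cell S.hK y ψ i).measurableSet ?_
        filter_upwards [ae_diff hL hPcl] with x hx hxc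
        rw [grad_eq_of_min hx (g := y i) (Filter.Eventually.of_forall fun z => ?_)]
        have e1 : P x = ⟪x, y i⟫ - (ψ i + a) := by
          rw [hP, Semi.phi_add_const, Semi.phi_eq_on_cell y ψ hxc]; ring
        have e2 := Semi.le_phi y (fun i => ψ i + a) z i
        rw [← hP] at e2
        simp only [real_inner_comm x (y i), real_inner_comm z (y i)] at *
        linarith

/-! ### Approximation of couplings -/

/-- A finitely-valued map close to the identity on a product of balls. -/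
theorem exists_approx [NeZero d] {r : ℝ} (hr : 0 ≤ r) {δ : ℝ} (hδ : 0 < δ) (hδ1 : δ ≤ 1) :
    ∃ (N : ℕ) (idx : Sp d × Sp d → Fin (N + 1)) (c : Fin (N + 1) → Sp d × Sp d),
      Measurable idx ∧ Function.Injective (fun i => (c i).1) ∧
      Function.Injective (fun i => (c i).2) ∧ (∀ i, ‖(c i).1‖ ≤ r + 1 ∧ ‖(c i).2‖ ≤ r + 1) ∧
      ∀ p : Sp d × Sp d, ‖p.1‖ ≤ r → ‖p.2‖ ≤ r → dist (c (idx p)) p ≤ 2 * δ := by
  set S : Set (Sp d × Sp d) := Metric.closedBall 0 r ×ˢ Metric.closedBall 0 r with hS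
  obtain ⟨t, htS, htf, hcov⟩ :=
    ((isCompact_closedBall (0 : Sp d) r).prod (isCompact_closedBall (0 : Sp d) r)).finite_cover_balls
      hδ
  set l := htf.toFinset.toList with hl
  set N := l.length with hN
  set e : ℕ → Sp d × Sp d := fun k => l.getD k (0, 0) with he
  have hlt : ∀ q, q ∈ l ↔ q ∈ t := fun q => by
    rw [hl, Finset.mem_toList, Set.Finite.mem_toFinset]
  have heS : ∀ k, e k ∈ S := by
    intro k
    rcases lt_or_ge k N with h | h
    · rw [he]; simp only []; rw [List.getD_eq_getElem _ _ h]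
      exact htS ((hlt _).1 (List.getElem_mem h))
    · rw [he]; simp only []; rw [List.getD_eq_default _ _ h]
      exact ⟨Metric.mem_closedBall_self hr, Metric.mem_closedBall_self hr⟩
  set idx : Sp d × Sp d → Fin (N + 1) := fun p =>
    ⟨SimpleFunc.nearestPtInd e N p, Nat.lt_succ_of_le (SimpleFunc.nearestPtInd_le e N p)⟩ with hidx
  have hidxm : Measurable idx := by
    refine measurable_to_countable' fun i => ?_
    have : idx ⁻¹' {i} = (SimpleFunc.nearestPtInd e N) ⁻¹' {(i : ℕ)} := by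
      ext p; simp [hidx, Fin.ext_iff]
    rw [this]
    exact SimpleFunc.measurableSet_fiber _ _
  set v : Sp d := EuclideanSpace.single (0 : Fin d) (1 : ℝ) with hv
  have hv1 : ‖v‖ = 1 := by rw [hv, PiLp.norm_single, norm_one]
  have hfin : ∀ a : Fin (N + 1) → Sp d,
      {s : ℝ | ¬ Function.Injective fun i => a i + (s * (i : ℕ)) • v}.Finite := by
    intro a
    refine (Set.finite_iUnion (f := fun q : {q : Fin (N + 1) × Fin (N + 1) // q.1 ≠ q.2} =>
      {s : ℝ | a q.1.1 + (s * (q.1.1 : ℕ)) • v = a q.1.2 + (s * (q.1.2 : ℕ)) • v})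
      fun q => Set.Subsingleton.finite ?_).subset ?_
    · intro s hs s' hs'
      simp only [mem_ofPred_eq] at hs hs'
      have h1 : ((s - s') * (((q.1.1 : ℕ) : ℝ) - (q.1.2 : ℕ))) • v = 0 := by
        linear_combination (norm := module) hs - hs'
      have hv0 : v ≠ 0 := by rw [← norm_ne_zero_iff, hv1]; norm_num
      have h2 := (smul_eq_zero.1 h1).resolve_right hv0
      rcases mul_eq_zero.1 h2 with h | h
      · exact sub_eq_zero.1 h
      · exact absurd (Fin.ext (Nat.cast_injective (sub_eq_zero.1 h))) q.2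
    · intro s hs
      simp only [mem_ofPred_eq, Function.Injective, not_forall] at hs
      obtain ⟨i, j, h, hne⟩ := hs
      exact mem_iUnion.2 ⟨⟨(i, j), hne⟩, h⟩
  obtain ⟨s, hs, hs'⟩ := ((Set.Ioo_infinite (show (0 : ℝ) < δ / (N + 1) by positivity)).sdiff
    ((hfin fun i => (e i).1).union (hfin fun i => (e i).2))).nonempty
  simp only [mem_union, mem_ofPred_eq, not_or, not_not] at hs'
  have hsk : ∀ i : Fin (N + 1), ‖(s * (i : ℕ)) • v‖ ≤ δ := by
    intro i
    rw [norm_smul, hv1, mul_one, Real.norm_eq_abs, abs_of_nonneg (mul_nonneg hs.1.le (Nat.cast_nonneg _))]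
    refine (mul_le_mul hs.2.le (show ((i : ℕ) : ℝ) ≤ N + 1 by
      exact_mod_cast i.isLt.le) (Nat.cast_nonneg _) (by positivity)).trans_eq ?_
    field_simp
  refine ⟨N, idx, fun i => ((e i).1 + (s * (i : ℕ)) • v, (e i).2 + (s * (i : ℕ)) • v), hidxm,
    hs'.1, hs'.2, fun i => ⟨?_, ?_⟩, fun p hp1 hp2 => ?_⟩
  · exact (norm_add_le _ _).trans (add_le_add (mem_closedBall_zero_iff.1 (heS i).1)
      ((hsk i).trans hδ1))
  · exact (norm_add_le _ _).trans (add_le_add (mem_closedBall_zero_iff.1 (heS i).2)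
      ((hsk i).trans hδ1))
  · have hp : p ∈ S := ⟨mem_closedBall_zero_iff.2 hp1, mem_closedBall_zero_iff.2 hp2⟩
    obtain ⟨q, hqt, hq⟩ := mem_iUnion₂.1 (hcov hp)
    obtain ⟨k, hk, hkq⟩ := List.getElem_of_mem ((hlt q).2 hqt)
    have h1 := SimpleFunc.edist_nearestPt_le e p (N := N) (k := k) hk.le
    have hek : e k = q := by rw [he]; simp only []; rw [List.getD_eq_getElem _ _ hk, hkq]
    rw [hek] at h1
    have h2 : dist (e (idx p : ℕ)) p ≤ δ := by
      have h3 : SimpleFunc.nearestPt e N p = e (idx p : ℕ) := rfl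
      rw [h3, edist_dist, edist_dist, ENNReal.ofReal_le_ofReal_iff dist_nonneg] at h1
      exact h1.trans ((dist_comm q p).trans_le hq.le)
    refine (dist_triangle _ (e (idx p : ℕ)) _).trans ?_
    have h4 : dist ((e (idx p : ℕ)).1 + (s * (idx p : ℕ)) • v, (e (idx p : ℕ)).2 + (s * (idx p : ℕ)) • v)
        (e (idx p : ℕ)) ≤ δ := by
      rw [Prod.dist_eq, dist_eq_norm, dist_eq_norm, add_sub_cancel_left, add_sub_cancel_left,
        max_self]
      exact hsk _
    linarith

/-- A convex body with the data used below. -/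
structure Body (K : Set (Sp d)) (R : ℝ) : Prop where
  hK : IsCompact K
  hconv : Convex ℝ K
  hint : (interior K).Nonempty
  hR0 : 0 ≤ R
  hR : ∀ x ∈ K, ‖x‖ ≤ R

theorem Body.vol_pos {K : Set (Sp d)} {R : ℝ} (B : Body K R) : 0 < volume.real K :=
  ENNReal.toReal_pos ((isOpen_interior.measure_pos volume B.hint).trans_le
    (measure_mono interior_subset)).ne' B.hK.measure_lt_top.ne

theorem Body.mean_zero_bound {K : Set (Sp d)} {R : ℝ} (B : Body K R) {L : ℝ} (hL : 0 ≤ L)
    {p : Sp d → ℝ} (hp : CL L p) (h0 : ∫ x in K, p x = 0) (x : Sp d) :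
    |p x| ≤ L * ‖x‖ + L * R := by
  have hV := B.vol_pos
  have hc : IntegrableOn (fun _ : Sp d => p x) K :=
    continuous_const.continuousOn.integrableOn_compact B.hK
  have hi : IntegrableOn p K := (hp.continuous hL).continuousOn.integrableOn_compact B.hK
  have h1 : ∫ z in K, (p x - p z) = volume.real K * p x := by
    rw [integral_sub hc hi, h0, sub_zero, setIntegral_const, smul_eq_mul]
  have h2 : |∫ z in K, (p x - p z)| ≤ (L * ‖x‖ + L * R) * volume.real K := by
    rw [← Real.norm_eq_abs]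
    refine norm_setIntegral_le_of_norm_le_const B.hK.measure_lt_top fun z hz => ?_
    rw [Real.norm_eq_abs, ← mul_add]
    exact (hp.lip x z).trans (mul_le_mul_of_nonneg_left
      ((norm_sub_le _ _).trans (add_le_add le_rfl (B.hR z hz))) hL)
  rw [h1, abs_mul, abs_of_pos hV, mul_comm] at h2
  exact le_of_mul_le_mul_right h2 hV

/-- One step of the approximation. -/
theorem exists_step [NeZero d] {K : Set (Sp d)} {R : ℝ} (B : Body K R) {r : ℝ} (hr : 0 ≤ r)
    (π : Measure (Sp d × Sp d)) [IsProbabilityMeasure π] (n : ℕ) :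
    ∃ (p q : Sp d → ℝ) (Q : Sp d × Sp d → Sp d × Sp d), CL (r + 1) p ∧ CL (r + 1) q ∧
      (∫ x in K, p x = 0) ∧ (∫ x in K, q x = 0) ∧ Measurable Q ∧
      (∀ w, ‖(Q w).1‖ ≤ r + 1 ∧ ‖(Q w).2‖ ≤ r + 1) ∧
      (∀ w : Sp d × Sp d, ‖w.1‖ ≤ r → ‖w.2‖ ≤ r → dist (Q w) w ≤ 2 / ((n : ℝ) + 1)) ∧
      (∀ F : Sp d → ℝ, Continuous F →
        ∫ x in K, F (grad p x) = volume.real K * ∫ w, F (Q w).1 ∂π) ∧
      (∀ F : Sp d → ℝ, Continuous F →
        ∫ x in K, F (grad q x) = volume.real K * ∫ w, F (Q w).2 ∂π) ∧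
      ∫ x in K, (p x - q x) ^ 2
        ≤ 10 * d * R ^ 2 * (volume.real K * ∫ w, ‖(Q w).1 - (Q w).2‖ ^ 2 ∂π) := by
  classical
  have hV := B.vol_pos
  set V := volume.real K with hVdef
  obtain ⟨N, idx, c, hidx, hc1, hc2, hcb, hcd⟩ := exists_approx (d := d) hr
    (δ := 1 / ((n : ℝ) + 1)) (by positivity)
    (by rw [div_le_one (by positivity)]; linarith [Nat.cast_nonneg (α := ℝ) n])
  set P : Fin (N + 1) → ℝ := fun i => (π.map idx).real {i} with hP
  have hprob : IsProbabilityMeasure (π.map idx) :=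
    Measure.isProbabilityMeasure_map hidx.aemeasurable
  have hint : ∀ f : Fin (N + 1) → ℝ, ∫ w, f (idx w) ∂π = ∑ i, P i * f i := by
    intro f
    rw [← integral_map hidx.aemeasurable (by fun_prop), integral_fintype Integrable.of_finite]
    rfl
  have hP0 : ∀ i, 0 ≤ P i := fun i => measureReal_nonneg
  have hsub : ∀ f : Fin (N + 1) → ℝ,
      ∑ i : {i // 0 < P i}, V * P i.1 * f i.1 = V * ∫ w, f (idx w) ∂π := by
    intro f
    rw [hint, Finset.mul_sum]
    refine (Fintype.sum_of_injective Subtype.val Subtype.val_injective _ _ (fun i hi => ?_)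
      (fun i => ?_))
    · have : P i = 0 := le_antisymm (not_lt.1 fun h => hi ⟨⟨i, h⟩, rfl⟩) (hP0 i)
      simp [this]
    · ring
  have hsumP : ∑ i : {i // 0 < P i}, V * P i.1 = V := by
    simpa using hsub fun _ => 1
  have hne : Nonempty {i // 0 < P i} := by
    by_contra h
    rw [not_nonempty_iff] at h
    simp at hsumP
    linarith
  set M : {i // 0 < P i} → ℝ := fun i => V * P i.1 with hM
  set y : {i // 0 < P i} → Sp d := fun i => (c i.1).1 with hy
  set z : {i // 0 < P i} → Sp d := fun i => (c i.1).2 with hz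
  have hyi : Function.Injective y := hc1.comp Subtype.val_injective
  have hzi : Function.Injective z := hc2.comp Subtype.val_injective
  have S : Lip.Setting K R M :=
    ⟨B.hK, B.hconv, B.hint, B.hR0, B.hR, fun i => mul_pos hV i.2, hsumP⟩
  set oy := Semi.opt K (Lip.one : Sp d → ℝ) M y with hoy
  set oz := Semi.opt K (Lip.one : Sp d → ℝ) M z with hoz
  set cy := (∫ x in K, Semi.phi y oy x) / V with hcy
  set cz := (∫ x in K, Semi.phi z oz x) / V with hcz
  have hiy : IntegrableOn (Semi.phi y oy) K :=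
    (Semi.continuous_phi_right y oy).continuousOn.integrableOn_compact B.hK
  have hiz : IntegrableOn (Semi.phi z oz) K :=
    (Semi.continuous_phi_right z oz).continuousOn.integrableOn_compact B.hK
  have hic : ∀ a : ℝ, IntegrableOn (fun _ : Sp d => a) K :=
    fun a => continuous_const.continuousOn.integrableOn_compact B.hK
  have hconst : ∀ a : ℝ, ∫ _ in K, a = V * a := fun a => by
    rw [setIntegral_const, smul_eq_mul]
  refine ⟨Semi.phi y fun i => oy i + cy, Semi.phi z fun i => oz i + cz, fun w => c (idx w),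
    phi_CL y (fun i => (hcb i.1).1) _, phi_CL z (fun i => (hcb i.1).2) _, ?_, ?_,
    (Measurable.of_discrete (f := c)).comp hidx, fun w => hcb _, fun w h1 h2 => ?_, ?_, ?_, ?_⟩
  · simp only [Semi.phi_add_const]
    rw [integral_sub hiy (hic cy), hconst, hcy]; field_simp; ring
  · simp only [Semi.phi_add_const]
    rw [integral_sub hiz (hic cz), hconst, hcz]; field_simp; ring
  · exact (hcd w h1 h2).trans_eq (by ring)
  · intro F hF
    rw [integral_cells S hyi (by linarith) (fun i => (hcb i.1).1) cy hF]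
    exact hsub fun i => F (c i).1
  · intro F hF
    rw [integral_cells S hzi (by linarith) (fun i => (hcb i.1).2) cz hF]
    exact hsub fun i => F (c i).2
  · have h0 : ∫ x in K, (Semi.phi z oz x - Semi.phi y oy x - (cz - cy)) = 0 := by
      have i1 : IntegrableOn (fun x => Semi.phi z oz x - Semi.phi y oy x) K := hiz.sub hiy
      rw [integral_sub i1 (hic _), integral_sub hiz hiy, hconst, hcy, hcz]
      field_simp; ring
    have h1 := Lip.potential_stability S hyi hzi h0
    have h2 : ∑ i, M i * ‖z i - y i‖ ^ 2 = V * ∫ w, ‖(c (idx w)).1 - (c (idx w)).2‖ ^ 2 ∂π := by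
      rw [← hsub fun i => ‖(c i).1 - (c i).2‖ ^ 2]
      exact Finset.sum_congr rfl fun i _ => by simp only [hM, hy, hz]; rw [norm_sub_rev]
    rw [h2] at h1
    refine le_trans (le_of_eq (integral_congr_ae (ae_of_all _ fun x => ?_))) h1
    simp only [Semi.phi_add_const, hoy, hoz]
    ring

/-- The uniform measure integrates by averaging. -/
theorem integral_unif {K : Set (Sp d)} (f : Sp d → ℝ) :
    ∫ x, f x ∂(unif K) = (volume.real K)⁻¹ * ∫ x in K, f x := by
  rw [unif, integral_smul_measure, smul_eq_mul, ENNReal.toReal_inv]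
  rfl

theorem Body.isProb {K : Set (Sp d)} {R : ℝ} (B : Body K R) : IsProbabilityMeasure (unif K) := by
  refine ⟨?_⟩
  rw [unif, Measure.smul_apply, Measure.restrict_apply_univ, smul_eq_mul]
  exact ENNReal.inv_mul_cancel (ne_of_gt ((isOpen_interior.measure_pos volume B.hint).trans_le
    (measure_mono interior_subset))) B.hK.measure_lt_top.ne

/-- The data attached to a coupling. -/
theorem exists_potentials [NeZero d] {K : Set (Sp d)} {R : ℝ} (B : Body K R) {r : ℝ} (hr : 0 ≤ r)
    (π : Measure (Sp d × Sp d)) [IsProbabilityMeasure π]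
    (hπ : ∀ᵐ w ∂π, ‖w.1‖ ≤ r ∧ ‖w.2‖ ≤ r) :
    ∃ p q : Sp d → ℝ, CL (r + 1) p ∧ CL (r + 1) q ∧
      Measure.map (grad p) (unif K) = π.map Prod.fst ∧
      Measure.map (grad q) (unif K) = π.map Prod.snd ∧
      ∫ x in K, (p x - q x) ^ 2
        ≤ 10 * d * R ^ 2 * (volume.real K * ∫ w, ‖w.1 - w.2‖ ^ 2 ∂π) := by
  have hV := B.vol_pos
  set L := r + 1 with hL
  have hL0 : 0 ≤ L := by linarith
  choose p q Q hp hq hp0 hq0 hQm hQb hQd hFp hFq hst using fun n => exists_step B hr π n
  obtain ⟨σ, hσ, p', hp', hpl⟩ := exists_subseq_lim hp fun n x => B.mean_zero_bound hL0 (hp n) (hp0 n) x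
  obtain ⟨τ, hτ, q', hq', hql⟩ := exists_subseq_lim (fun n => hq (σ n))
    fun n x => B.mean_zero_bound hL0 (hq (σ n)) (hq0 (σ n)) x
  set φ := fun n => σ (τ n) with hφ
  have hφt : Tendsto φ atTop atTop := hσ.tendsto_atTop.comp hτ.tendsto_atTop
  have hpl' : ∀ x, Tendsto (fun n => p (φ n) x) atTop (𝓝 (p' x)) := fun x =>
    (hpl x).comp hτ.tendsto_atTop
  have hQl : ∀ᵐ w ∂π, Tendsto (fun n => Q (φ n) w) atTop (𝓝 w) := by
    filter_upwards [hπ] with w hw
    refine tendsto_iff_dist_tendsto_zero.2 (squeeze_zero (fun n => dist_nonneg)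
      (fun n => hQd (φ n) w hw.1 hw.2) ?_)
    have h := ((tendsto_one_div_add_atTop_nhds_zero_nat (𝕜 := ℝ)).const_mul 2).comp hφt
    rw [mul_zero] at h
    exact h.congr fun n => by simp only [Function.comp_apply]; ring
  have hlimQ : ∀ F : Sp d × Sp d → ℝ, Continuous F →
      Tendsto (fun n => ∫ w, F (Q (φ n) w) ∂π) atTop (𝓝 (∫ w, F w ∂π)) := by
    intro F hF
    obtain ⟨C, hC⟩ := ((isCompact_closedBall (0 : Sp d) L).prod
      (isCompact_closedBall (0 : Sp d) L)).exists_bound_of_continuousOn hF.continuousOn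
    refine tendsto_integral_of_dominated_convergence (fun _ => C)
      (fun n => (hF.measurable.comp (hQm _)).aestronglyMeasurable) (integrable_const C)
      (fun n => ae_of_all _ fun w => hC _ ⟨mem_closedBall_zero_iff.2 (hQb _ w).1,
        mem_closedBall_zero_iff.2 (hQb _ w).2⟩) ?_
    filter_upwards [hQl] with w hw
    exact (hF.tendsto w).comp hw
  have push : ∀ (f : ℕ → Sp d → ℝ) (g : Sp d → ℝ) (π' : Sp d × Sp d → Sp d),
      (∀ n, CL L (f n)) → CL L g → (∀ x, Tendsto (fun n => f n x) atTop (𝓝 (g x))) →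
      Continuous π' → (∀ n, ∀ F : Sp d → ℝ, Continuous F →
        ∫ x in K, F (grad (f n) x) = volume.real K * ∫ w, F (π' (Q (φ n) w)) ∂π) →
      Measure.map (grad g) (unif K) = π.map π' := by
    intro f g π' hf hg hl hπ' hF
    have := B.isProb
    have : IsProbabilityMeasure (Measure.map (grad g) (unif K)) :=
      Measure.isProbabilityMeasure_map (measurable_grad g).aemeasurable
    have : IsProbabilityMeasure (π.map π') :=
      Measure.isProbabilityMeasure_map hπ'.measurable.aemeasurable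
    refine ext_of_forall_integral_eq_of_IsFiniteMeasure fun F => ?_
    rw [integral_map (measurable_grad g).aemeasurable F.continuous.aestronglyMeasurable,
      integral_map hπ'.measurable.aemeasurable F.continuous.aestronglyMeasurable, integral_unif]
    have hd : ∀ᵐ x : Sp d, ∀ n, DifferentiableAt ℝ (f n) x :=
      ae_all_iff.2 fun n => ae_diff hL0 (hf n)
    have h1 : Tendsto (fun n => ∫ x in K, F (grad (f n) x)) atTop
        (𝓝 (∫ x in K, F (grad g x))) := by
      refine tendsto_integral_of_dominated_convergence (fun _ => ‖F‖)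
        (fun n => (F.continuous.measurable.comp (measurable_grad _)).aestronglyMeasurable)
        (continuous_const.continuousOn.integrableOn_compact B.hK)
        (fun n => ae_of_all _ fun x => F.norm_coe_le_norm _) ?_
      filter_upwards [ae_restrict_of_ae hd, ae_restrict_of_ae (ae_diff hL0 hg)] with x hx hgx
      exact (F.continuous.tendsto _).comp (grad_tendsto hL0 hf hl hx hgx)
    have h2 : Tendsto (fun n => ∫ x in K, F (grad (f n) x)) atTop
        (𝓝 (volume.real K * ∫ w, F (π' w) ∂π)) := by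
      simp only [hF _ F F.continuous]
      exact (hlimQ (fun w => F (π' w)) (F.continuous.comp hπ')).const_mul _
    rw [tendsto_nhds_unique h1 h2, inv_mul_cancel_left₀ hV.ne']
  refine ⟨p', q', hp', hq',
    push _ p' Prod.fst (fun n => hp _) hp' hpl' continuous_fst fun n F hF => hFp _ F hF,
    push _ q' Prod.snd (fun n => hq _) hq' hql continuous_snd fun n F hF => hFq _ F hF, ?_⟩
  have h1 : Tendsto (fun n => ∫ x in K, (p (φ n) x - q (φ n) x) ^ 2) atTop
      (𝓝 (∫ x in K, (p' x - q' x) ^ 2)) := by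
    refine tendsto_integral_of_dominated_convergence (fun _ => (4 * (L * R)) ^ 2)
      (fun n => ((((hp _).continuous hL0).sub ((hq _).continuous hL0)).pow 2).aestronglyMeasurable)
      (continuous_const.continuousOn.integrableOn_compact B.hK) (fun n => ?_) ?_
    · filter_upwards [ae_restrict_mem B.hK.measurableSet] with x hx
      have h1 := abs_le.1 (B.mean_zero_bound hL0 (hp (φ n)) (hp0 _) x)
      have h2 := abs_le.1 (B.mean_zero_bound hL0 (hq (φ n)) (hq0 _) x)
      have h3 := mul_le_mul_of_nonneg_left (B.hR x hx) hL0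
      rw [Real.norm_eq_abs, abs_of_nonneg (sq_nonneg _)]
      exact sq_le_sq' (by linarith) (by linarith)
    · exact ae_of_all _ fun x => ((hpl' x).sub (hql x)).pow 2
  exact le_of_tendsto_of_tendsto' h1
    (((hlimQ (fun w => ‖w.1 - w.2‖ ^ 2) (by fun_prop)).const_mul _).const_mul _) fun n => hst _

/-! ### Optimality -/

theorem optimal {K : Set (Sp d)} {R : ℝ} (B : Body K R) {r L : ℝ} (hL : 0 ≤ L) {p : Sp d → ℝ}
    (hp : CL L p) {μ : Measure (Sp d)} (hμ : ∀ᵐ y ∂μ, ‖y‖ ≤ r)
    (hpush : Measure.map (grad p) (unif K) = μ) :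
    IsOptMap K μ (grad p) ∧ ∀ T, IsOptMap K μ T → T =ᵐ[unif K] grad p := by
  have := B.isProb
  have hpc := hp.continuous hL
  set ψ : Sp d → ℝ := fun y => sSup ((fun x => ⟪x, y⟫ - p x) '' K) with hψ
  have hψc : Continuous ψ := B.hK.continuous_sSup
    (f := fun y x => ⟪x, y⟫ - p x) (by fun_prop)
  have hψle : ∀ y, ∀ x ∈ K, ⟪x, y⟫ - p x ≤ ψ y := fun y x hx =>
    le_csSup (B.hK.image (by fun_prop)).bddAbove (mem_image_of_mem _ hx)
  have hunif : unif K ≪ volume :=
    Measure.AbsolutelyContinuous.trans Measure.smul_absolutelyContinuous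
      Measure.restrict_le_self.absolutelyContinuous
  have hinK : ∀ᵐ x ∂unif K, x ∈ K := by
    rw [unif]
    exact Measure.smul_absolutelyContinuous.ae_le (ae_restrict_mem B.hK.measurableSet)
  obtain ⟨Cψ, hCψ⟩ := (isCompact_closedBall (0 : Sp d) r).exists_bound_of_continuousOn
    hψc.continuousOn
  obtain ⟨Cp, hCp⟩ := B.hK.exists_bound_of_continuousOn hpc.continuousOn
  have hip : Integrable p (unif K) := Integrable.mono' (integrable_const Cp)
    hpc.aestronglyMeasurable (hinK.mono fun x hx => hCp x hx)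
  have facts : ∀ S : Sp d → Sp d, Measurable S → Measure.map S (unif K) = μ →
      (∀ᵐ x ∂unif K, ‖S x‖ ≤ r) ∧ Integrable (fun x => ⟪x, S x⟫) (unif K) ∧
      Integrable (fun x => ψ (S x)) (unif K) ∧
      ∫ x, ψ (S x) ∂unif K = ∫ y, ψ y ∂μ ∧
      ∫⁻ x, edist x (S x) ^ 2 ∂unif K = ENNReal.ofReal
        ((∫ x, ‖x‖ ^ 2 ∂unif K) - 2 * (∫ x, ⟪x, S x⟫ ∂unif K) + ∫ y, ‖y‖ ^ 2 ∂μ) := by
    intro S hS hSμ
    have hr : ∀ᵐ x ∂unif K, ‖S x‖ ≤ r := ae_of_ae_map hS.aemeasurable (hSμ.symm ▸ hμ)
    have hm1 : AEStronglyMeasurable (fun x => ⟪x, S x⟫) (unif K) :=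
      (measurable_id.inner hS).aestronglyMeasurable
    have i1 : Integrable (fun x => ⟪x, S x⟫) (unif K) := by
      refine Integrable.mono' (integrable_const (R * r)) hm1 ?_
      filter_upwards [hr, hinK] with x h1 h2
      exact (abs_real_inner_le_norm _ _).trans (mul_le_mul (B.hR x h2) h1 (norm_nonneg _) B.hR0)
    have i2 : Integrable (fun x => ψ (S x)) (unif K) := by
      refine Integrable.mono' (integrable_const Cψ)
        (hψc.measurable.comp hS).aestronglyMeasurable ?_
      filter_upwards [hr] with x h1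
      exact hCψ _ (mem_closedBall_zero_iff.2 h1)
    have i3 : Integrable (fun x : Sp d => ‖x‖ ^ 2) (unif K) := by
      refine Integrable.mono' (integrable_const (R ^ 2)) (by fun_prop) ?_
      filter_upwards [hinK] with x h2
      rw [Real.norm_eq_abs, abs_of_nonneg (sq_nonneg _)]
      exact pow_le_pow_left₀ (norm_nonneg _) (B.hR x h2) 2
    have i4 : Integrable (fun x => ‖S x‖ ^ 2) (unif K) := by
      refine Integrable.mono' (integrable_const (r ^ 2))
        (hS.norm.pow_const 2).aestronglyMeasurable ?_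
      filter_upwards [hr] with x h2
      rw [Real.norm_eq_abs, abs_of_nonneg (sq_nonneg _)]
      exact pow_le_pow_left₀ (norm_nonneg _) h2 2
    refine ⟨hr, i1, i2, ?_, ?_⟩
    · rw [← hSμ, integral_map hS.aemeasurable hψc.aestronglyMeasurable]
    · have e : ∀ x, edist x (S x) ^ 2
          = ENNReal.ofReal (‖x‖ ^ 2 - 2 * ⟪x, S x⟫ + ‖S x‖ ^ 2) := by
        intro x
        rw [edist_dist, dist_eq_norm, ← ENNReal.ofReal_pow (norm_nonneg _), norm_sub_sq_real]
      have i5 : Integrable (fun x => 2 * ⟪x, S x⟫) (unif K) := i1.const_mul 2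
      have i6 : Integrable (fun x => ‖x‖ ^ 2 - 2 * ⟪x, S x⟫) (unif K) := i3.sub i5
      have i7 : Integrable (fun x => ‖x‖ ^ 2 - 2 * ⟪x, S x⟫ + ‖S x‖ ^ 2) (unif K) := i6.add i4
      simp only [e]
      rw [← ofReal_integral_eq_lintegral_ofReal i7 (ae_of_all _ fun x => by
        simp only [Pi.zero_apply]; rw [← norm_sub_sq_real]; positivity)]
      congr 1
      rw [integral_add i6 i4, integral_sub i3 i5, integral_const_mul, ← hSμ,
        integral_map hS.aemeasurable (by fun_prop)]
  obtain ⟨-, hT1, hT2, hT3, hT4⟩ := facts (grad p) (measurable_grad p) hpush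
  have hTval : ∫ x, ⟪x, grad p x⟫ ∂unif K = ∫ y, ψ y ∂μ + ∫ x, p x ∂unif K := by
    rw [← hT3, ← integral_add hT2 hip]
    refine integral_congr_ae ?_
    filter_upwards [hinK, hunif.ae_le (ae_diff hL hp)] with x hx hd
    have h1 : ψ (grad p x) = ⟪x, grad p x⟫ - p x := by
      refine le_antisymm (csSup_le ⟨_, mem_image_of_mem _ hx⟩ ?_) (hψle _ x hx)
      rintro _ ⟨z, -, rfl⟩
      have := fderiv_le_of_convex hp.conv hd z
      simp only [inner_sub_right, real_inner_comm z (grad p x), real_inner_comm x (grad p x)] at *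
      linarith
    linarith
  have hupper : ∀ S : Sp d → Sp d, Measurable S → Measure.map S (unif K) = μ →
      0 ≤ ∫ x, (ψ (S x) + p x - ⟪x, S x⟫) ∂unif K ∧
      ∫ x, (ψ (S x) + p x - ⟪x, S x⟫) ∂unif K
        = (∫ x, ⟪x, grad p x⟫ ∂unif K) - ∫ x, ⟪x, S x⟫ ∂unif K := by
    intro S hS hSμ
    obtain ⟨-, h1, h2, h3, -⟩ := facts S hS hSμ
    refine ⟨integral_nonneg_of_ae ?_, ?_⟩
    · filter_upwards [hinK] with x hx
      simp only [Pi.zero_apply]
      linarith [hψle (S x) x hx]
    · have h4 : Integrable (fun x => ψ (S x) + p x) (unif K) := h2.add hip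
      rw [integral_sub h4 h1, integral_add h2 hip, h3, hTval]
  have hmin : IsOptMap K μ (grad p) := by
    refine ⟨measurable_grad p, hpush, fun S hS hSμ => ?_⟩
    rw [hT4, (facts S hS hSμ).2.2.2.2]
    obtain ⟨h1, h2⟩ := hupper S hS hSμ
    exact ENNReal.ofReal_le_ofReal (by linarith)
  refine ⟨hmin, fun T hT => ?_⟩
  obtain ⟨h1, h2⟩ := hupper T hT.1 hT.2.1
  obtain ⟨hr, hi1, hi2, -, hcost⟩ := facts T hT.1 hT.2.1
  have hle := hT.2.2 (grad p) (measurable_grad p) hpush
  rw [hcost, hT4] at hle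
  have hnn : 0 ≤ (∫ x, ‖x‖ ^ 2 ∂unif K) - 2 * (∫ x, ⟪x, grad p x⟫ ∂unif K)
      + ∫ y, ‖y‖ ^ 2 ∂μ := by
    by_contra hneg
    push Not at hneg
    -- the cost of `grad p` is an integral of squares
    have hpos : 0 ≤ ∫ x, ‖x - grad p x‖ ^ 2 ∂unif K := integral_nonneg fun x => sq_nonneg _
    have i3 : Integrable (fun x : Sp d => ‖x‖ ^ 2) (unif K) := by
      refine Integrable.mono' (integrable_const (R ^ 2)) (by fun_prop) ?_
      filter_upwards [hinK] with x h2
      rw [Real.norm_eq_abs, abs_of_nonneg (sq_nonneg _)]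
      exact pow_le_pow_left₀ (norm_nonneg _) (B.hR x h2) 2
    have i4 : Integrable (fun x => ‖grad p x‖ ^ 2) (unif K) := by
      refine Integrable.mono' (integrable_const (L ^ 2))
        ((measurable_grad p).norm.pow_const 2).aestronglyMeasurable ?_
      refine ae_of_all _ fun x => ?_
      rw [Real.norm_eq_abs, abs_of_nonneg (sq_nonneg _)]
      exact pow_le_pow_left₀ (norm_nonneg _) (norm_grad_le hL hp x) 2
    have i5 : Integrable (fun x => 2 * ⟪x, grad p x⟫) (unif K) := hT1.const_mul 2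
    have i6 : Integrable (fun x => ‖x‖ ^ 2 - 2 * ⟪x, grad p x⟫) (unif K) := i3.sub i5
    simp only [norm_sub_sq_real] at hpos
    rw [integral_add i6 i4, integral_sub i3 i5, integral_const_mul] at hpos
    rw [← hpush, integral_map (measurable_grad p).aemeasurable (by fun_prop)] at hneg
    linarith
  have hle' := (ENNReal.ofReal_le_ofReal_iff hnn).1 hle
  have h0 : ∫ x, (ψ (T x) + p x - ⟪x, T x⟫) ∂unif K = 0 := le_antisymm (by linarith) h1
  have hzero : ∀ᵐ x ∂unif K, ψ (T x) + p x - ⟪x, T x⟫ = 0 := by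
    refine (integral_eq_zero_iff_of_nonneg_ae ?_ ((hi2.add hip).sub hi1)).1 h0
    filter_upwards [hinK] with x hx
    simp only [Pi.zero_apply, Pi.sub_apply, Pi.add_apply]
    linarith [hψle (T x) x hx]
  have hnot : ∀ᵐ x : Sp d, x ∉ frontier K :=
    measure_eq_zero_iff_ae_notMem.1 (B.hconv.addHaar_frontier volume)
  filter_upwards [hzero, hinK, hunif.ae_le hnot, hunif.ae_le (ae_diff hL hp)] with x hx hxK hxf hd
  have hxi : x ∈ interior K := by
    by_contra hni
    exact hxf ⟨subset_closure hxK, hni⟩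
  refine (grad_eq_of_min hd ?_).symm
  filter_upwards [mem_interior_iff_mem_nhds.1 hxi] with z hz
  have h := hψle (T x) z hz
  simp only [real_inner_comm z (T x), real_inner_comm x (T x)] at *
  linarith

/-! ### Admissibility of `1/3` -/

theorem stab [NeZero d] {K : Set (Sp d)} {R : ℝ} (B : Body K R) {r : ℝ} (hr : 0 ≤ r) :
    ∃ A : ℝ, 0 ≤ A ∧ ∀ (π : Measure (Sp d × Sp d)) (T T' : Sp d → Sp d),
      IsProbabilityMeasure π → (∀ᵐ w ∂π, ‖w.1‖ ≤ r ∧ ‖w.2‖ ≤ r) →
      IsOptMap K (π.map Prod.fst) T → IsOptMap K (π.map Prod.snd) T' →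
      ∫⁻ x, edist (T x) (T' x) ^ 2 ∂unif K
        ≤ ENNReal.ofReal A * (∫⁻ w, edist w.1 w.2 ^ 2 ∂π) ^ (1 / 3 : ℝ) := by
  have hV := B.vol_pos
  set L := r + 1 with hL
  have hL1 : 1 ≤ L := by linarith
  have hL0 : 0 ≤ L := by linarith
  obtain ⟨C, hC0, hC⟩ := GradBound.interp B.hK B.hconv B.hR hL1
  set V := volume.real K with hVdef
  refine ⟨V⁻¹ * (C * (10 * d * R ^ 2 * V + 1)), by positivity, fun π T T' hprob hsupp hT hT' => ?_⟩
  have := B.isProb
  obtain ⟨p, q, hp, hq, hpp, hqp, hpq⟩ := exists_potentials B hr π hsupp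
  have hfst : ∀ᵐ y ∂π.map Prod.fst, ‖y‖ ≤ r :=
    (ae_map_iff measurable_fst.aemeasurable (isClosed_le continuous_norm continuous_const).measurableSet).2
      (hsupp.mono fun w h => h.1)
  have hsnd : ∀ᵐ y ∂π.map Prod.snd, ‖y‖ ≤ r :=
    (ae_map_iff measurable_snd.aemeasurable (isClosed_le continuous_norm continuous_const).measurableSet).2
      (hsupp.mono fun w h => h.2)
  have eT := (optimal B hL0 hp hfst hpp).2 T hT
  have eT' := (optimal B hL0 hq hsnd hqp).2 T' hT'
  set W := ∫ w, ‖w.1 - w.2‖ ^ 2 ∂π with hW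
  have hW0 : 0 ≤ W := integral_nonneg fun w => sq_nonneg _
  have hWl : ∫⁻ w, edist w.1 w.2 ^ 2 ∂π = ENNReal.ofReal W := by
    rw [hW, ofReal_integral_eq_lintegral_ofReal ?_ (ae_of_all _ fun w => sq_nonneg _)]
    · simp only [edist_dist, dist_eq_norm, ← ENNReal.ofReal_pow (norm_nonneg _)]
    · refine Integrable.mono' (integrable_const ((2 * r) ^ 2))
        (Continuous.aestronglyMeasurable (by fun_prop)) ?_
      filter_upwards [hsupp] with w hw
      rw [Real.norm_eq_abs, abs_of_nonneg (sq_nonneg _)]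
      exact pow_le_pow_left₀ (norm_nonneg _) ((norm_sub_le _ _).trans (by linarith [hw.1, hw.2])) 2
  set I := ∫ x in K, ‖grad p x - grad q x‖ ^ 2 with hI
  have hI' : I ≤ C * (10 * d * R ^ 2 * V + 1) * W ^ (1 / 3 : ℝ) := by
    have hcont : Tendsto (fun η => C * (10 * d * R ^ 2 * V + 1) * (W + η) ^ (1 / 3 : ℝ))
        (𝓝[>] 0) (𝓝 (C * (10 * d * R ^ 2 * V + 1) * W ^ (1 / 3 : ℝ))) := by
      have h : Continuous fun η : ℝ => C * (10 * d * R ^ 2 * V + 1) * (W + η) ^ (1 / 3 : ℝ) :=
        continuous_const.mul ((continuous_const.add continuous_id).rpow_const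
          fun _ => Or.inr (by norm_num))
      simpa using (h.tendsto 0).mono_left nhdsWithin_le_nhds
    refine ge_of_tendsto hcont ?_
    filter_upwards [self_mem_nhdsWithin] with η hη
    have hη' : (0 : ℝ) < W + η := add_pos_of_nonneg_of_pos hW0 hη
    set l := (W + η) ^ (1 / 3 : ℝ) with hl
    have hl0 : 0 < l := Real.rpow_pos_of_pos hη' _
    have hl3 : l ^ 3 = W + η := by
      rw [hl, ← Real.rpow_natCast, ← Real.rpow_mul hη'.le]; norm_num
    refine (hC p q hp hq 0 l hl0).trans ?_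
    rw [mul_assoc C]
    refine mul_le_mul_of_nonneg_left ?_ hC0
    simp only [sub_zero]
    have hA : (∫ x in K, (p x - q x) ^ 2) / l ^ 2 ≤ 10 * d * R ^ 2 * V * l := by
      rw [div_le_iff₀ (pow_pos hl0 2), mul_assoc _ l, show l * l ^ 2 = W + η by rw [← hl3]; ring]
      refine hpq.trans ?_
      have h0 : 0 ≤ 10 * (d : ℝ) * R ^ 2 * V := by positivity
      have h1 := mul_le_mul_of_nonneg_left (show W ≤ W + η by linarith [mem_Ioi.1 hη]) h0
      linarith
    linarith
  calc ∫⁻ x, edist (T x) (T' x) ^ 2 ∂unif K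
      = ∫⁻ x, edist (grad p x) (grad q x) ^ 2 ∂unif K := by
        refine lintegral_congr_ae ?_
        filter_upwards [eT, eT'] with x h1 h2
        rw [h1, h2]
    _ = ENNReal.ofReal (V⁻¹ * I) := by
        rw [hI, hVdef, ← integral_unif, ofReal_integral_eq_lintegral_ofReal ?_
          (ae_of_all _ fun x => sq_nonneg _)]
        · simp only [edist_dist, dist_eq_norm, ← ENNReal.ofReal_pow (norm_nonneg _)]
        · refine Integrable.mono' (integrable_const ((2 * L) ^ 2))
            ((((measurable_grad p).sub (measurable_grad q)).norm).pow_const 2).aestronglyMeasurable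
            (ae_of_all _ fun x => ?_)
          rw [Real.norm_eq_abs, abs_of_nonneg (sq_nonneg _)]
          exact pow_le_pow_left₀ (norm_nonneg _) ((norm_sub_le _ _).trans
            (by linarith [norm_grad_le hL0 hp x, norm_grad_le hL0 hq x])) 2
    _ ≤ _ := by
        rw [hWl, ENNReal.ofReal_rpow_of_nonneg hW0 (by norm_num), ← ENNReal.ofReal_mul (by positivity),
          mul_assoc]
        exact ENNReal.ofReal_le_ofReal (mul_le_mul_of_nonneg_left hI' (by positivity))

theorem exists_optMap [NeZero d] {K : Set (Sp d)} (hK : IsCompact K) (hconv : Convex ℝ K)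
    (hint : (interior K).Nonempty) {Y : Set (Sp d)} (hY : IsCompact Y) {μ : Measure (Sp d)}
    (hμ : InP Y μ) : ∃ T, IsOptMap K μ T := by
  obtain ⟨R, hR⟩ := hK.isBounded.exists_norm_le
  obtain ⟨r, hr⟩ := hY.isBounded.exists_norm_le
  have B : Body K (max R 0) := ⟨hK, hconv, hint, le_max_right _ _,
    fun x hx => (hR x hx).trans (le_max_left _ _)⟩
  have := hμ.1
  have hμr : ∀ᵐ y ∂μ, ‖y‖ ≤ max r 0 :=
    (measure_eq_zero_iff_ae_notMem.1 hμ.2).mono fun y hy =>
      (hr y (not_not.1 hy)).trans (le_max_left _ _)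
  have hdiag : Measurable fun y : Sp d => (y, y) := measurable_id.prodMk measurable_id
  have : IsProbabilityMeasure (μ.map fun y => (y, y)) :=
    Measure.isProbabilityMeasure_map hdiag.aemeasurable
  obtain ⟨p, -, hp, -, hpp, -, -⟩ := exists_potentials B (le_max_right r 0)
    (μ.map fun y => (y, y)) ((ae_map_iff hdiag.aemeasurable
      ((isClosed_le (continuous_norm.comp continuous_fst) continuous_const).inter
        (isClosed_le (continuous_norm.comp continuous_snd) continuous_const)).measurableSet).2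
      (hμr.mono fun y hy => ⟨hy, hy⟩))
  rw [Measure.map_map measurable_fst hdiag] at hpp
  have hpp' : Measure.map (grad p) (unif K) = μ := by
    rw [hpp]; exact Measure.map_id
  exact ⟨grad p, (optimal B (by linarith [le_max_right r 0]) hp hμr hpp').1⟩

theorem admissible_third (hd : 1 ≤ d) : Admissible d (1 / 3) := by
  have : NeZero d := ⟨by omega⟩
  refine ⟨⟨by norm_num, by norm_num⟩, fun K hconv hK hint Y _ hY => ?_⟩
  obtain ⟨R, hR⟩ := hK.isBounded.exists_norm_le
  obtain ⟨r, hr⟩ := hY.isBounded.exists_norm_le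
  have B : Body K (max R 0) := ⟨hK, hconv, hint, le_max_right _ _,
    fun x hx => (hR x hx).trans (le_max_left _ _)⟩
  obtain ⟨A, hA0, hA⟩ := stab B (le_max_right r 0)
  refine ⟨Real.toNNReal (A ^ (1 / 2 : ℝ) + 1), fun μ ν hμ hν T T' hT hT' => ?_⟩
  have hC0 : (ENNReal.ofReal (A ^ (1 / 2 : ℝ) + 1)) ≠ 0 := by
    rw [Ne, ENNReal.ofReal_eq_zero, not_le]
    positivity
  show L2dist K T T' ≤ ENNReal.ofReal (A ^ (1 / 2 : ℝ) + 1) * W2 μ ν ^ (1 / 3 : ℝ)
  rw [mul_comm, ← ENNReal.div_le_iff_le_mul (Or.inl hC0) (Or.inl ENNReal.ofReal_ne_top), W2]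
  have hap : ∀ a : ℝ≥0∞, a ^ (1 / 3 : ℝ)
      = ENNReal.orderIsoRpow (1 / 3) (by norm_num) a := fun a => rfl
  rw [hap, OrderIso.map_iInf]
  refine le_iInf fun ⟨π, h1, h2⟩ => ?_
  rw [← hap,
    ENNReal.div_le_iff_le_mul (Or.inl hC0) (Or.inl ENNReal.ofReal_ne_top), mul_comm]
  have := hμ.1
  have hprob : IsProbabilityMeasure π := by
    have h : IsProbabilityMeasure (π.map Prod.fst) := h1.symm ▸ hμ.1
    exact Measure.isProbabilityMeasure_of_map (μ := π) Prod.fst
  have hsupp : ∀ᵐ w ∂π, ‖w.1‖ ≤ max r 0 ∧ ‖w.2‖ ≤ max r 0 := by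
    have a1 : ∀ᵐ w ∂π, w.1 ∈ Y := by
      have := measure_eq_zero_iff_ae_notMem.1 hμ.2
      rw [← h1] at this
      exact (ae_of_ae_map measurable_fst.aemeasurable this).mono fun w hw => not_not.1 hw
    have a2 : ∀ᵐ w ∂π, w.2 ∈ Y := by
      have := measure_eq_zero_iff_ae_notMem.1 hν.2
      rw [← h2] at this
      exact (ae_of_ae_map measurable_snd.aemeasurable this).mono fun w hw => not_not.1 hw
    filter_upwards [a1, a2] with w b1 b2
    exact ⟨(hr _ b1).trans (le_max_left _ _), (hr _ b2).trans (le_max_left _ _)⟩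
  have h := hA π T T' hprob hsupp (h1.symm ▸ hT) (h2.symm ▸ hT')
  rw [L2dist]
  refine (ENNReal.rpow_le_rpow h (by norm_num : (0 : ℝ) ≤ 1 / 2)).trans ?_
  rw [ENNReal.mul_rpow_of_nonneg _ _ (by norm_num : (0 : ℝ) ≤ 1 / 2), ← ENNReal.rpow_mul,
    ← ENNReal.rpow_mul, ENNReal.ofReal_rpow_of_nonneg hA0 (by norm_num),
    show (1 / 3 : ℝ) * (1 / 2) = 1 / 2 * (1 / 3) by norm_num]
  gcongr
  linarith

end Vale.Agent.P074.Limit
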