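import Mathlib
import Vale.Agent.P074.Defs

/-!
Exponents above `1/3` fail for the uniform measure on the cube.
-/

open MeasureTheory Set
open scoped ENNReal NNReal RealInnerProductSpace

namespace Vale.Agent.P074

variable {d : ℕ}

/-- The unit cube. -/
def cube (d : ℕ) : Set (Sp d) := {x | ∀ i, x i ∈ Icc (0 : ℝ) 1}

theorem volume_box (l u : Fin d → ℝ) :
    volume {x : Sp d | ∀ i, x i ∈ Icc (l i) (u i)} = ∏ i, ENNReal.ofReal (u i - l i) := by
  have hs : MeasurableSet {x : Sp d | ∀ i, x i ∈ Icc (l i) (u i)} := by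
    rw [Set.setOf_forall]
    exact MeasurableSet.iInter fun i =>
      measurableSet_Icc.preimage (EuclideanSpace.proj (𝕜 := ℝ) i).continuous.measurable
  rw [← (PiLp.volume_preserving_toLp (Fin d)).measure_preimage hs.nullMeasurableSet]
  rw [show (WithLp.toLp 2) ⁻¹' {x : Sp d | ∀ i, x i ∈ Icc (l i) (u i)}
      = Set.univ.pi (fun i => Icc (l i) (u i)) from by ext; simp [forall_and, Pi.le_def]]
  rw [MeasureTheory.volume_pi, MeasureTheory.Measure.pi_pi]
  simp

theorem volume_cube : volume (cube d) = 1 := by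
  rw [cube, volume_box]; simp

theorem unif_cube : unif (cube d) = volume.restrict (cube d) := by
  simp [unif, volume_cube]

theorem measurableSet_cube : MeasurableSet (cube d) := by
  rw [cube, Set.setOf_forall]
  exact MeasurableSet.iInter fun i =>
    measurableSet_Icc.preimage (EuclideanSpace.proj (𝕜 := ℝ) i).continuous.measurable

theorem isCompact_cube : IsCompact (cube d) := by
  have : cube d = (WithLp.toLp 2) '' (Set.univ.pi fun _ : Fin d => Icc (0 : ℝ) 1) := by
    ext x
    constructor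
    · intro h
      exact ⟨WithLp.ofLp x, fun i _ => h i, rfl⟩
    · rintro ⟨y, hy, rfl⟩ i
      exact hy i (Set.mem_univ i)
  rw [this]
  exact (isCompact_univ_pi fun _ => isCompact_Icc).image
    (PiLp.continuous_toLp 2 (fun _ : Fin d => ℝ))

theorem convex_cube : Convex ℝ (cube d) := by
  intro x hx y hy a b ha hb hab i
  simpa using convex_Icc (0 : ℝ) 1 (hx i) (hy i) ha hb hab

theorem interior_cube_nonempty : (interior (cube d)).Nonempty := by
  refine ⟨WithLp.toLp 2 fun _ => 1 / 2, mem_interior_iff_mem_nhds.2 ?_⟩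
  refine Metric.mem_nhds_iff.2 ⟨1 / 2, by norm_num, fun y hy i => ?_⟩
  rw [Metric.mem_ball, dist_eq_norm] at hy
  have := (PiLp.norm_apply_le (y - WithLp.toLp 2 fun _ => (1 / 2 : ℝ)) i).trans_lt hy
  simp only [PiLp.sub_apply, Real.norm_eq_abs, abs_lt] at this
  constructor <;> linarith [this.1, this.2]

/-- A halfspace threshold map with values `a` and `0`. -/
noncomputable def thr (a : Sp d) (k : ℝ) : Sp d → Sp d :=
  {x | -k ≤ ⟪x, a⟫}.indicator fun _ => a

theorem measurableSet_half (a : Sp d) (k : ℝ) : MeasurableSet {x : Sp d | -k ≤ ⟪x, a⟫} :=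
  measurableSet_le measurable_const (continuous_id.inner continuous_const).measurable

theorem measurable_thr (a : Sp d) (k : ℝ) : Measurable (thr a k) :=
  measurable_const.indicator (measurableSet_half a k)

theorem integrable_of_le {g : Sp d → ℝ} (hg : Measurable g) {B : ℝ}
    (hB : ∀ x ∈ cube d, ‖g x‖ ≤ B) : Integrable g (volume.restrict (cube d)) :=
  Measure.integrableOn_of_bounded (by simp [volume_cube]) hg.aestronglyMeasurable
    (M := B) ((ae_restrict_iff' measurableSet_cube).2 (Filter.Eventually.of_forall hB))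

theorem prob_map {T : Sp d → Sp d} (hT : Measurable T) :
    IsProbabilityMeasure ((volume.restrict (cube d)).map T) := by
  have : IsProbabilityMeasure (volume.restrict (cube d)) := ⟨by simp [volume_cube]⟩
  exact Measure.isProbabilityMeasure_map hT.aemeasurable

/-- Cost comparison: a competitor of a threshold map. -/
theorem cost_cmp (a : Sp d) (ha : a ≠ 0) (k : ℝ) {S : Sp d → Sp d} (hS : Measurable S)
    (hmap : Measure.map S (unif (cube d)) = Measure.map (thr a k) (unif (cube d))) :
    ∫⁻ x, edist x (thr a k x) ^ 2 ∂(unif (cube d)) ≤ ∫⁻ x, edist x (S x) ^ 2 ∂(unif (cube d)) ∧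
    (∫⁻ x, edist x (S x) ^ 2 ∂(unif (cube d)) ≤ ∫⁻ x, edist x (thr a k x) ^ 2 ∂(unif (cube d)) →
      ∀ᵐ x ∂(unif (cube d)), (-k < ⟪x, a⟫ → S x = a) ∧ (⟪x, a⟫ < -k → S x = 0)) := by
  rw [unif_cube] at hmap ⊢
  set ρ := volume.restrict (cube d) with hρ
  have : IsProbabilityMeasure ρ := ⟨by simp [hρ, volume_cube]⟩
  obtain ⟨R, hR⟩ := (isCompact_cube (d := d)).exists_bound_of_continuousOn continuous_id.continuousOn
  have hT := measurable_thr a k
  have hT2 : ∀ x, thr a k x = a ∨ thr a k x = 0 := fun x => by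
    by_cases hx : -k ≤ ⟪x, a⟫ <;> simp [thr, hx]
  -- the competitor takes the same two values almost everywhere
  have hS2 : ∀ᵐ x ∂ρ, S x = a ∨ S x = 0 := by
    have hm : MeasurableSet ({a, 0} : Set (Sp d)) := (Set.toFinite _).measurableSet
    have h0 : Measure.map S ρ ({a, 0} : Set (Sp d))ᶜ = 0 := by
      rw [hmap, Measure.map_apply hT hm.compl]
      have : thr a k ⁻¹' ({a, 0} : Set (Sp d))ᶜ = ∅ := by
        ext x; simpa using fun h => (hT2 x).resolve_left h
      rw [this]; simp
    rw [Measure.map_apply hS hm.compl] at h0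
    filter_upwards [measure_eq_zero_iff_ae_notMem.1 h0] with x hx
    exact or_iff_not_imp_left.2 (by simpa using hx)
  set A := S ⁻¹' {a} with hA
  set A₀ := thr a k ⁻¹' {a} with hA0
  have hAm : MeasurableSet A := hS (measurableSet_singleton a)
  have hA0m : MeasurableSet A₀ := hT (measurableSet_singleton a)
  have hmass : ρ.real A = ρ.real A₀ := by
    have := congrArg (fun m : Measure (Sp d) => m {a}) hmap
    simp only [Measure.map_apply hS (measurableSet_singleton a),
      Measure.map_apply hT (measurableSet_singleton a)] at this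
    simp [measureReal_def, hA, hA0, this]
  -- squared costs
  have hcost : ∀ F : Sp d → Sp d, Measurable F → (∀ᵐ x ∂ρ, F x = a ∨ F x = 0) →
      Integrable (fun x => ‖x - F x‖ ^ 2) ρ ∧
      ∫⁻ x, edist x (F x) ^ 2 ∂ρ = ENNReal.ofReal (∫ x, ‖x - F x‖ ^ 2 ∂ρ) := by
    intro F hF hF2
    have hint : Integrable (fun x => ‖x - F x‖ ^ 2) ρ := by
      refine Integrable.of_bound ((measurable_id.sub hF).norm.pow_const 2).aestronglyMeasurable
        ((R + ‖a‖) ^ 2) ?_
      filter_upwards [hF2, ae_restrict_mem measurableSet_cube] with x hx hxK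
      have hxR : ‖x‖ ≤ R := hR x hxK
      rw [Real.norm_eq_abs, abs_of_nonneg (by positivity)]
      refine pow_le_pow_left₀ (norm_nonneg _) ((norm_sub_le _ _).trans ?_) 2
      rcases hx with hx | hx <;> simp [hx] <;> linarith [norm_nonneg a]
    refine ⟨hint, ?_⟩
    rw [ofReal_integral_eq_lintegral_ofReal hint (Filter.Eventually.of_forall fun x => sq_nonneg _)]
    refine lintegral_congr fun x => ?_
    rw [edist_dist, dist_eq_norm, ENNReal.ofReal_pow (norm_nonneg _)]
  obtain ⟨hiS, heS⟩ := hcost S hS hS2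
  obtain ⟨hiT, heT⟩ := hcost _ hT (Filter.Eventually.of_forall hT2)
  -- the difference of costs is a nonnegative function plus a mass balance
  set q : Sp d → ℝ := fun x => (A₀.indicator 1 x - A.indicator 1 x) * (2 * (⟪x, a⟫ + k)) with hq
  have hdiff : (fun x => (‖x - S x‖ ^ 2 - ‖x - thr a k x‖ ^ 2)) =ᵐ[ρ]
      fun x => q x + (‖a‖ ^ 2 + 2 * k) * (A.indicator 1 x - A₀.indicator 1 x) := by
    filter_upwards [hS2] with x hx
    have h1 : ∀ w : Sp d, w = a ∨ w = 0 → ‖x - w‖ ^ 2
        = ‖x‖ ^ 2 + (if w = a then 1 else 0) * (‖a‖ ^ 2 - 2 * ⟪x, a⟫) := by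
      intro w hw
      rcases hw with hw | hw
      · subst hw; rw [if_pos rfl, norm_sub_sq_real]; ring
      · rw [hw, if_neg (fun h => ha h.symm)]; simp
    rw [h1 _ hx, h1 _ (hT2 x)]
    by_cases c1 : S x = a <;> by_cases c2 : thr a k x = a <;>
      simp [hq, hA, hA0, c1, c2] <;> ring
  have hqnn : ∀ x, 0 ≤ q x := by
    intro x
    by_cases hx : -k ≤ ⟪x, a⟫
    · have : x ∈ A₀ := by simp [hA0, thr, hx]
      simp only [hq, Set.indicator_of_mem this, Pi.one_apply]
      refine mul_nonneg ?_ (by linarith)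
      by_cases h : x ∈ A <;> simp [h]
    · have : x ∉ A₀ := by
        simp [hA0, thr, hx, Ne.symm ha]
      simp only [hq, Set.indicator_of_notMem this, zero_sub]
      refine mul_nonneg_of_nonpos_of_nonpos ?_ (by linarith [not_le.1 hx])
      by_cases h : x ∈ A <;> simp [h]
  have hI1 : ∀ s, MeasurableSet s → Integrable (s.indicator (1 : Sp d → ℝ)) ρ := fun s hs =>
    (integrable_const (1 : ℝ)).indicator hs
  have hqi : Integrable q ρ := by
    have hd := (hiS.sub hiT).congr hdiff
    have hb := ((hI1 A hAm).sub (hI1 A₀ hA0m)).const_mul (‖a‖ ^ 2 + 2 * k)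
    exact (hd.sub hb).congr (Filter.Eventually.of_forall fun x => by simp)
  have heq : ∫ x, ‖x - S x‖ ^ 2 ∂ρ - ∫ x, ‖x - thr a k x‖ ^ 2 ∂ρ = ∫ x, q x ∂ρ := by
    have hind : Integrable (fun x => (‖a‖ ^ 2 + 2 * k)
        * (A.indicator (1 : Sp d → ℝ) x - A₀.indicator (1 : Sp d → ℝ) x)) ρ :=
      ((hI1 A hAm).sub (hI1 A₀ hA0m)).const_mul _
    rw [← integral_sub hiS hiT, integral_congr_ae hdiff, integral_add hqi hind,
      integral_const_mul, integral_sub (hI1 A hAm) (hI1 A₀ hA0m),
      integral_indicator_one hAm, integral_indicator_one hA0m, hmass]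
    simp
  rw [heS, heT]
  refine ⟨ENNReal.ofReal_le_ofReal (by linarith [integral_nonneg (μ := ρ) (f := q) hqnn]), ?_⟩
  intro hle
  rw [ENNReal.ofReal_le_ofReal_iff (integral_nonneg fun x => sq_nonneg _)] at hle
  have hz : ∫ x, q x ∂ρ = 0 := le_antisymm (by linarith) (integral_nonneg hqnn)
  have hqz := (integral_eq_zero_iff_of_nonneg hqnn hqi).1 hz
  filter_upwards [hqz, hS2] with x hx hx2
  refine ⟨fun h => ?_, fun h => ?_⟩
  · by_contra hne
    have h0 : x ∈ A₀ := by simp [hA0, thr, h.le]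
    have h1 : x ∉ A := by simpa [hA] using hne
    simp [hq, h0, h1] at hx
    linarith
  · rcases hx2 with hx2 | hx2
    · exfalso
      have h0 : x ∉ A₀ := by simp [hA0, thr, not_le.2 h, Ne.symm ha]
      have h1 : x ∈ A := by simp [hA, hx2]
      simp [hq, h0, h1] at hx
      linarith
    · exact hx2

theorem isOptMap_thr (a : Sp d) (ha : a ≠ 0) (k : ℝ) :
    IsOptMap (cube d) (Measure.map (thr a k) (unif (cube d))) (thr a k) :=
  ⟨measurable_thr a k, rfl, fun _ hS hm => (cost_cmp a ha k hS hm).1⟩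

theorem ae_of_isOptMap (a : Sp d) (ha : a ≠ 0) (k : ℝ) {T : Sp d → Sp d}
    (hT : IsOptMap (cube d) (Measure.map (thr a k) (unif (cube d))) T) :
    ∀ᵐ x ∂(unif (cube d)), (-k < ⟪x, a⟫ → T x = a) ∧ (⟪x, a⟫ < -k → T x = 0) :=
  (cost_cmp a ha k hT.1 hT.2.1).2 (hT.2.2 _ (measurable_thr a k) rfl)

end Vale.Agent.P074
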