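import Mathlib
import Vale.Agent.P074.Defs
import Vale.Agent.P074.Proof

/-!
The counterexample on the cube.
-/

open MeasureTheory Set
open scoped ENNReal NNReal RealInnerProductSpace

namespace Vale.Agent.P074

variable {d : ℕ}

theorem map_indicator_const {ρ : Measure (Sp d)} {A : Set (Sp d)} (hA : MeasurableSet A)
    (a : Sp d) :
    Measure.map (A.indicator fun _ => a) ρ
      = ρ A • Measure.dirac a + ρ Aᶜ • Measure.dirac 0 := by
  ext s hs
  rw [Measure.map_apply (measurable_const.indicator hA) hs]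
  classical
  rw [Set.indicator_const_preimage_eq_union]
  simp only [Measure.add_apply, Measure.smul_apply, Measure.dirac_apply' _ hs, smul_eq_mul]
  by_cases ha : a ∈ s <;> by_cases h0 : (0 : Sp d) ∈ s <;>
    simp [ha, h0, measure_add_measure_compl hA]

/-- A box in the cube prescribing two coordinates. -/
theorem box_two (hd : 2 ≤ d) (p q r t : ℝ) (hp : 0 ≤ p) (hq : q ≤ 1) (hr : 0 ≤ r) (ht : t ≤ 1)
    (hpq : p ≤ q) (hrt : r ≤ t) :
    volume {x : Sp d | x ∈ cube d ∧ x ⟨0, by omega⟩ ∈ Icc p q ∧ x ⟨1, by omega⟩ ∈ Icc r t}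
      = ENNReal.ofReal ((q - p) * (t - r)) := by
  set i : Fin d := ⟨0, by omega⟩ with hi
  set j : Fin d := ⟨1, by omega⟩ with hj
  have hij : i ≠ j := by simp [hi, hj]
  set l : Fin d → ℝ := fun k => if k = i then p else if k = j then r else 0 with hl
  set u : Fin d → ℝ := fun k => if k = i then q else if k = j then t else 1 with hu
  have hset : {x : Sp d | x ∈ cube d ∧ x i ∈ Icc p q ∧ x j ∈ Icc r t}
      = {x : Sp d | ∀ k, x k ∈ Icc (l k) (u k)} := by
    ext x
    simp only [cube, mem_setOf_eq]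
    constructor
    · rintro ⟨hx, hxi, hxj⟩ k
      simp only [hl, hu]
      split_ifs with h1 h2
      · exact h1 ▸ hxi
      · exact h2 ▸ hxj
      · exact hx k
    · intro hx
      refine ⟨fun k => ?_, ?_, ?_⟩
      · have := hx k
        simp only [hl, hu] at this
        split_ifs at this with h1 h2
        · exact ⟨hp.trans this.1, this.2.trans hq⟩
        · exact ⟨hr.trans this.1, this.2.trans ht⟩
        · exact this
      · simpa [hl, hu] using hx i
      · simpa [hl, hu, hij.symm] using hx j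
  rw [hset, volume_box, ← ENNReal.ofReal_prod_of_nonneg]
  · congr 1
    rw [← Finset.prod_subset (Finset.subset_univ {i, j}) (fun k _ hk => by
      simp only [Finset.mem_insert, Finset.mem_singleton, not_or] at hk
      simp [hl, hu, hk.1, hk.2])]
    rw [Finset.prod_pair hij]
    simp [hl, hu, hij.symm]
  · intro k _
    simp only [hl, hu]
    split_ifs <;> linarith

/-- For every scale `s` there are two targets on which the maps are `s ^ (1/2)` apart while the
targets are `s ^ (3/2)` apart. -/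
theorem exists_pair (hd : 2 ≤ d) {s : ℝ} (hs : 0 < s) (hs1 : s ≤ 1) :
    ∃ μ ν : Measure (Sp d), InP (Metric.closedBall (0 : Sp d) 2) μ ∧
      InP (Metric.closedBall (0 : Sp d) 2) ν ∧
      (∃ T, IsOptMap (cube d) μ T) ∧ (∃ T', IsOptMap (cube d) ν T') ∧
      W2 μ ν ≤ ENNReal.ofReal ((s ^ 3) ^ (1 / 2 : ℝ)) ∧
      ∀ T T', IsOptMap (cube d) μ T → IsOptMap (cube d) ν T' →
        ENNReal.ofReal ((3 * s / 400) ^ (1 / 2 : ℝ)) ≤ L2dist (cube d) T T' := by
  set i : Fin d := ⟨0, by omega⟩ with hi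
  set j : Fin d := ⟨1, by omega⟩ with hj
  have hij : i ≠ j := by simp [hi, hj]
  set a : Sp d := EuclideanSpace.single j (-1) with hadef
  set a' : Sp d := EuclideanSpace.single j (-1) + EuclideanSpace.single i (-s) with ha'def
  have hia : ∀ x : Sp d, ⟪x, a⟫ = -(x j) := fun x => by
    simp [hadef, EuclideanSpace.inner_single_right]
  have hia' : ∀ x : Sp d, ⟪x, a'⟫ = -(x j + s * x i) := fun x => by
    simp [ha'def, inner_add_right, EuclideanSpace.inner_single_right]; ring
  have hna : ‖a‖ = 1 := by simp [hadef]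
  have ha0 : a ≠ 0 := by intro h; simp [h] at hna
  have hna' : ‖a'‖ ≤ 2 := by
    refine (norm_add_le _ _).trans ?_
    simp [abs_of_pos hs]; linarith
  have ha'0 : a' ≠ 0 := by
    intro h
    have := congrArg (fun v : Sp d => v j) h
    simp [ha'def, hij.symm] at this
  set ρ := volume.restrict (cube d) with hρ
  have hprob : IsProbabilityMeasure ρ := ⟨by simp [hρ, volume_cube]⟩
  -- the rotated cell
  set A' : Set (Sp d) := {x | -s ≤ ⟪x, a'⟫} with hA'
  have hA'm : MeasurableSet A' := measurableSet_half a' s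
  set m : ℝ := ρ.real A' with hm
  have hmA : ρ A' = ENNReal.ofReal m := by
    rw [hm, ofReal_measureReal]
  have hm0 : s / 4 ≤ m := by
    have hsub : {x : Sp d | x ∈ cube d ∧ x i ∈ Icc (0 : ℝ) (1 / 2) ∧ x j ∈ Icc 0 (s / 2)}
        ⊆ A' ∩ cube d := by
      rintro x ⟨hx, hxi, hxj⟩
      refine ⟨?_, hx⟩
      simp only [hA', mem_setOf_eq, hia']
      nlinarith [hxi.1, hxi.2, hxj.1, hxj.2]
    have := measure_mono (μ := volume) hsub
    rw [box_two hd 0 (1/2) 0 (s/2) le_rfl (by norm_num) le_rfl (by linarith) (by norm_num)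
      (by linarith), ← Measure.restrict_apply hA'm, ← hρ, hmA,
      ENNReal.ofReal_le_ofReal_iff measureReal_nonneg] at this
    linarith
  have hm1 : m ≤ s := by
    have hsub : A' ∩ cube d
        ⊆ {x : Sp d | x ∈ cube d ∧ x i ∈ Icc (0 : ℝ) 1 ∧ x j ∈ Icc 0 s} := by
      rintro x ⟨hxA, hx⟩
      simp only [hA', mem_setOf_eq, hia'] at hxA
      exact ⟨hx, hx i, (hx j).1, by nlinarith [(hx i).1]⟩
    have := measure_mono (μ := volume) hsub
    rw [box_two hd 0 1 0 s le_rfl le_rfl le_rfl hs1 zero_le_one hs.le,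
      ← Measure.restrict_apply hA'm, ← hρ, hmA,
      ENNReal.ofReal_le_ofReal_iff (by nlinarith)] at this
    linarith
  -- the strip of the same mass
  set A : Set (Sp d) := {x | -m ≤ ⟪x, a⟫} with hA
  have hAm : MeasurableSet A := measurableSet_half a m
  have hAA : ρ A = ρ A' := by
    rw [hmA, hρ, Measure.restrict_apply hAm]
    have : A ∩ cube d = {x : Sp d | x ∈ cube d ∧ x i ∈ Icc (0 : ℝ) 1 ∧ x j ∈ Icc 0 m} := by
      ext x
      simp only [hA, mem_inter_iff, mem_setOf_eq, hia, neg_le_neg_iff]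
      constructor
      · rintro ⟨h, hx⟩; exact ⟨hx, hx i, (hx j).1, h⟩
      · rintro ⟨hx, -, -, h⟩; exact ⟨h, hx⟩
    rw [this, box_two hd 0 1 0 m le_rfl le_rfl le_rfl (hm1.trans hs1) zero_le_one
      measureReal_nonneg]
    simp
  have hAAc : ρ Aᶜ = ρ A'ᶜ := by
    rw [measure_compl hAm (measure_ne_top _ _), measure_compl hA'm (measure_ne_top _ _), hAA]
  set μ := Measure.map (thr a m) (unif (cube d)) with hμ
  set ν := Measure.map (thr a' s) (unif (cube d)) with hν
  have hopt := isOptMap_thr (d := d) a ha0 m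
  have hopt' := isOptMap_thr (d := d) a' ha'0 s
  have hsupp : ∀ (b : Sp d) (k : ℝ), ‖b‖ ≤ 2 →
      InP (Metric.closedBall (0 : Sp d) 2) (Measure.map (thr b k) (unif (cube d))) := by
    intro b k hb
    rw [unif_cube]
    refine ⟨prob_map (measurable_thr b k), ?_⟩
    rw [Measure.map_apply (measurable_thr b k) measurableSet_closedBall.compl]
    have : thr b k ⁻¹' (Metric.closedBall (0 : Sp d) 2)ᶜ = ∅ := by
      ext x
      by_cases hx : -k ≤ ⟪x, b⟫ <;> simp [thr, hx, hb]
    rw [this, measure_empty]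
  refine ⟨μ, ν, hsupp a m (by rw [hna]; norm_num), hsupp a' s hna', ⟨_, hopt⟩, ⟨_, hopt'⟩, ?_, ?_⟩
  · -- coupling
    set P : Sp d → Sp d × Sp d := fun x => (A'.indicator (fun _ => a) x, thr a' s x) with hP
    have hP1 : Measurable P :=
      (measurable_const.indicator hA'm).prodMk (measurable_thr a' s)
    have hf : (ρ.map P).map Prod.fst = μ := by
      rw [Measure.map_map measurable_fst hP1, hμ, unif_cube, ← hρ]
      show ρ.map (A'.indicator fun _ => a) = ρ.map (A.indicator fun _ => a)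
      rw [map_indicator_const hA'm, map_indicator_const hAm, hAA, hAAc]
    have hg : (ρ.map P).map Prod.snd = ν := by
      rw [Measure.map_map measurable_snd hP1, hν, unif_cube]
      rfl
    refine (iInf_le _ ⟨ρ.map P, hf, hg⟩).trans ?_
    rw [← ENNReal.ofReal_rpow_of_nonneg (by positivity) (by norm_num)]
    refine ENNReal.rpow_le_rpow ?_ (by norm_num)
    have hmeas : Measurable fun p : Sp d × Sp d => edist p.1 p.2 ^ 2 :=
      (continuous_fst.edist continuous_snd).measurable.pow_const 2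
    rw [lintegral_map hmeas hP1]
    have hpt : ∀ x, edist (P x).1 (P x).2 ^ 2
        = A'.indicator (fun _ => ENNReal.ofReal (s ^ 2)) x := by
      intro x
      by_cases hx : x ∈ A'
      · have h2 : thr a' s x = a' := by
          have : -s ≤ ⟪x, a'⟫ := hx
          simp [thr, this]
        have hd' : a - a' = -EuclideanSpace.single i (-s) := by rw [hadef, ha'def]; abel
        simp only [hP, Set.indicator_of_mem hx, h2]
        rw [edist_dist, dist_eq_norm, hd', norm_neg, PiLp.norm_single, Real.norm_eq_abs,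
          abs_neg, abs_of_pos hs, ENNReal.ofReal_pow hs.le]
      · have h2 : thr a' s x = 0 := by
          have : ¬ (-s ≤ ⟪x, a'⟫) := hx
          simp [thr, this]
        simp [hP, Set.indicator_of_notMem hx, h2]
    rw [lintegral_congr hpt, lintegral_indicator hA'm, setLIntegral_const, hmA,
      ← ENNReal.ofReal_mul (by positivity)]
    exact ENNReal.ofReal_le_ofReal (by nlinarith)
  · intro T T' hT hT'
    have hae := ae_of_isOptMap a ha0 m hT
    have hae' := ae_of_isOptMap a' ha'0 s hT'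
    rw [L2dist, ← ENNReal.ofReal_rpow_of_nonneg (by positivity) (by norm_num)]
    refine ENNReal.rpow_le_rpow ?_ (by norm_num)
    rw [unif_cube] at hae hae' ⊢
    set R : Set (Sp d) :=
      {x : Sp d | x ∈ cube d ∧ x i ∈ Icc (9 / 10 : ℝ) 1 ∧ x j ∈ Icc (s / 8) (s / 5)} with hR
    have hRv : ρ R = ENNReal.ofReal (3 * s / 400) := by
      rw [hρ, Measure.restrict_eq_self _ (fun x hx => hx.1),
        box_two hd _ _ _ _ (by norm_num) le_rfl (by linarith) (by linarith) (by norm_num)
          (by linarith)]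
      congr 1; ring
    have hRm : MeasurableSet R := by
      have : ∀ k : Fin d, ∀ S : Set ℝ, MeasurableSet S → MeasurableSet {x : Sp d | x k ∈ S} :=
        fun k S hS => hS.preimage (EuclideanSpace.proj (𝕜 := ℝ) k).continuous.measurable
      exact measurableSet_cube.inter
        ((this i _ measurableSet_Icc).inter (this j _ measurableSet_Icc))
    calc ENNReal.ofReal (3 * s / 400) = ∫⁻ _ in R, 1 ∂ρ := by rw [setLIntegral_one, hRv]
      _ ≤ ∫⁻ x in R, edist (T x) (T' x) ^ 2 ∂ρ := by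
          refine lintegral_mono_ae ((ae_restrict_iff' hRm).2 ?_)
          filter_upwards [hae, hae'] with x hx hx' hxR
          obtain ⟨-, hxi, hxj⟩ := hxR
          rw [hx.1 (by rw [hia]; linarith [hxj.2]),
            hx'.2 (by rw [hia']; nlinarith [hxi.1, hxj.1]),
            edist_dist, dist_zero_right, hna]
          simp
      _ ≤ _ := setLIntegral_le_lintegral _ _

/-- The failure of every exponent above `1/3`, in explicit form. -/
theorem fails (hd : 2 ≤ d) {α : ℝ} (hα : 1 / 3 < α) :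
    ∃ K : Set (Sp d), Convex ℝ K ∧ IsCompact K ∧ (interior K).Nonempty ∧
      ∃ Y : Set (Sp d), Y.Nonempty ∧ IsCompact Y ∧ ∀ C : ℝ≥0, ∃ μ ν : Measure (Sp d),
        InP Y μ ∧ InP Y ν ∧ (∃ T, IsOptMap K μ T) ∧ (∃ T', IsOptMap K ν T') ∧
        ∀ T T', IsOptMap K μ T → IsOptMap K ν T' →
          (C : ℝ≥0∞) * W2 μ ν ^ α < L2dist K T T' := by
  refine ⟨cube d, convex_cube, isCompact_cube, interior_cube_nonempty,
    Metric.closedBall 0 2, ⟨0, by simp⟩, isCompact_closedBall _ _, fun C => ?_⟩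
  set e : ℝ := (3 * α - 1) / 2 with he
  have he0 : 0 < e := by rw [he]; linarith
  set D : ℝ := (3 / 400 : ℝ) ^ (1 / 2 : ℝ) with hD
  have hD0 : 0 < D := by positivity
  obtain ⟨s, hs, hs1, hsC⟩ : ∃ s : ℝ, 0 < s ∧ s ≤ 1 ∧ (C : ℝ) * s ^ e < D := by
    set q : ℝ := D / ((C : ℝ) + 1) with hq
    have hC1 : 0 < (C : ℝ) + 1 := by positivity
    have hq0 : 0 < q := div_pos hD0 hC1
    refine ⟨min (q ^ e⁻¹) 1, lt_min (Real.rpow_pos_of_pos hq0 _) one_pos, min_le_right _ _, ?_⟩
    have h1 : (min (q ^ e⁻¹) 1) ^ e ≤ q := by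
      refine (Real.rpow_le_rpow (le_min (Real.rpow_nonneg hq0.le _) zero_le_one)
        (min_le_left _ _) he0.le).trans_eq ?_
      rw [← Real.rpow_mul hq0.le, inv_mul_cancel₀ he0.ne', Real.rpow_one]
    have h2 : q * ((C : ℝ) + 1) = D := div_mul_cancel₀ _ hC1.ne'
    nlinarith [mul_le_mul_of_nonneg_left h1 C.coe_nonneg]
  obtain ⟨μ, ν, hμ, hν, hT, hT', hW, hL⟩ := exists_pair hd hs hs1
  refine ⟨μ, ν, hμ, hν, hT, hT', fun T T' h h' => lt_of_lt_of_le ?_ (hL T T' h h')⟩
  refine lt_of_le_of_lt (mul_le_mul_right (ENNReal.rpow_le_rpow hW (by linarith)) _) ?_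
  rw [ENNReal.ofReal_rpow_of_pos (Real.rpow_pos_of_pos (by positivity) _),
    ← ENNReal.ofReal_coe_nnreal, ← ENNReal.ofReal_mul C.coe_nonneg,
    ENNReal.ofReal_lt_ofReal_iff (by positivity)]
  have hsplit : ((s ^ 3 : ℝ) ^ (1 / 2 : ℝ)) ^ α = s ^ e * s ^ (1 / 2 : ℝ) := by
    rw [← Real.rpow_natCast s 3, ← Real.rpow_mul hs.le, ← Real.rpow_mul hs.le,
      ← Real.rpow_add hs, he]
    congr 1
    push_cast; ring
  have hr : (3 * s / 400) ^ (1 / 2 : ℝ) = D * s ^ (1 / 2 : ℝ) := by
    rw [hD, ← Real.mul_rpow (by norm_num) hs.le]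
    congr 1; ring
  rw [hsplit, hr, ← mul_assoc]
  exact mul_lt_mul_of_pos_right hsC (Real.rpow_pos_of_pos hs _)

theorem admissible_le (hd : 2 ≤ d) {α : ℝ} (h : Admissible d α) : α ≤ 1 / 3 := by
  by_contra hα
  push Not at hα
  obtain ⟨K, hK, hKc, hKi, Y, hY, hYc, hfail⟩ := fails hd hα
  obtain ⟨C, hC⟩ := h.2 K hK hKc hKi Y hY hYc
  obtain ⟨μ, ν, hμ, hν, ⟨T, hT⟩, ⟨T', hT'⟩, hall⟩ := hfail C
  exact absurd (hC μ ν hμ hν T T' hT hT') (not_le.2 (hall T T' hT hT'))

end Vale.Agent.P074
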